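import Vale.Agent.P004S.Bas3

/-!
# P004, block SMITH: rows CNZ, SL, LP, SAT
-/

set_option linter.all false

noncomputable section

namespace Vale.Agent.P004S

open NumberField Matrix Filter Topology
open Vale.Agent.P022 (Qb GQ IsConj Irred UnrAt IsFrob)
open Vale.Agent.P027M.S (Inert)
open Vale.Agent.P022D.W (dec)
open Vale.Agent.P022E.GW (Ov Fb Gn Ch)

theorem cnz : CNZ := by
  classical
  intro M _ _ _ ρ H D Q c hH hρ f1 f2
  have : H.FiniteIndex := ⟨hH⟩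
  have := f1.to_subtype
  have e : ∀ q : GQ ⧸ H, ∃ t ∈ D, ∀ g ∈ D, (g : GQ ⧸ H) = q → t⁻¹ * g ∈ H := fun q => by
    by_cases k : ∃ t ∈ D, (t : GQ ⧸ H) = q
    · obtain ⟨t, a, rfl⟩ := k
      exact ⟨t, a, fun g _ b => QuotientGroup.eq.1 b.symm⟩
    · exact ⟨1, one_mem _, fun g a b => (k ⟨g, a, b⟩).elim⟩
  choose t t1 t2 using e
  let b := Module.finBasis (ZMod 2) M
  generalize hZ : {w : GQ → M | _} = Z
  let F : Z → (GQ ⧸ H → M) × (Fin (Module.finrank (ZMod 2) M) → {ξ : GQ → ZMod 2 | Ch (H ⊓ D) ξ ∧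
      (∀ g ∉ H ⊓ D, ξ g = 0) ∧ ∀ g ∈ Q, ξ g = 0}) := fun w => (fun q => w.1 (t q), fun i =>
    ⟨fun g => if g ∈ H ⊓ D then b.repr (w.1 g) i else 0, by
      have k := hZ.ge w.2
      refine ⟨⟨?_, fun x y => ?_⟩, fun g a => if_neg a, fun g a => by simp [k.2.2.2 g a]⟩
      · convert (k.1.comp_continuous (f := fun x : ↥(H ⊓ D) => (⟨x, x.2.2⟩ : D))
          (continuous_subtype_val.subtype_mk _)).comp fun m => b.repr m i using 2 with x
        exact if_pos x.2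
      · simp only [if_pos (x * y).2, if_pos x.2, if_pos y.2]
        rw [Subgroup.coe_mul, k.2.1 _ x.2.2 _ y.2.2, hρ _ x.2.1, map_add, Finsupp.add_apply]⟩)
  have hF : Function.Injective F := fun w w' k => Subtype.ext (funext fun g => by
    have a := hZ.ge w.2
    have a' := hZ.ge w'.2
    by_cases h : g ∈ D
    · have m : (t g)⁻¹ * g ∈ H ⊓ D := ⟨t2 _ g h rfl, D.mul_mem (D.inv_mem (t1 _)) h⟩
      have k2 : w.1 ((t g)⁻¹ * g) = w'.1 ((t g)⁻¹ * g) := b.ext_elem fun i => by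
        simpa only [F, if_pos m] using
          congrFun (congrArg Subtype.val (congrFun (congrArg Prod.snd k) i)) ((t g)⁻¹ * g)
      rw [← mul_inv_cancel_left (t g) g, a.2.1 _ (t1 _) _ m.2, a'.2.1 _ (t1 _) _ m.2, k2]
      exact congrArg (· + _) (congrFun (congrArg Prod.fst k) g)
    · rw [a.2.2.1 g h, a'.2.2.1 g h])
  refine ⟨Set.finite_coe_iff.1 (Finite.of_injective F hF), (Nat.card_le_card_of_injective F hF).trans ?_⟩
  rw [Nat.card_prod, Nat.card_fun, Nat.card_fun, Nat.card_eq_fintype_card (α := Fin _),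
    Fintype.card_fin]
  refine Nat.mul_le_mul le_rfl ((Nat.pow_le_pow_left (f2.trans c.le_succ) _).trans
    (Nat.pow_le_pow_right c.succ_pos ?_))
  rw [Module.natCard_eq_pow_finrank (K := ZMod 2), Nat.card_zmod]
  exact Nat.lt_two_pow_self.le

variable {r : Rp} {S : Finset ℕ} {d : ℤ}

theorem conj_sq {c : GQ} (h : IsConj c) : c * c = 1 := by
  obtain ⟨φ, k⟩ := h
  ext x
  exact φ.injective (by rw [AlgEquiv.mul_apply, k, k, Complex.conj_conj, AlgEquiv.one_apply])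

theorem Z1.one {c : GQ → V} (h : Z1 r d Set.univ c) : c 1 = 0 := by
  simpa [ac_one] using h.2 1 trivial 1 trivial

theorem sl : SL := fun r S Λ d c k h s b => by
  have p : (0 : ℝ) ≤ (1 / 2) ^ k := by positivity
  refine ⟨continuousOn_univ.1 s.1.1, b, fun g j => by simpa [s.1.2 g trivial j trivial] using p,
    s.2.1.imp fun z a => ⟨a.1, fun g m => by simpa [a.2 g m] using p⟩,
    fun j a => ⟨-((1 / 2 : ℚ_[2]) • c j), ?_⟩,
    fun l P a m => (s.2.2 l P a m).imp fun n e g q => by simpa [e g q] using p⟩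
  have e := s.1.2 j trivial j trivial
  rw [conj_sq a, s.1.one, eq_comm, add_eq_zero_iff_neg_eq] at e
  rintro _ (rfl | rfl)
  · simpa [s.1.one, ac_one] using p
  · rw [ac_neg, ac_smul, ← e, show c _ - _ = 0 by module]
    simpa using p

theorem lp : LP := by
  rintro r S Λ d φ k h d0 k1 ⟨a, s, e⟩
  obtain rfl : φ = fun g => rv (a g) := (funext e).symm
  have p : (1 / 2 : ℝ) ^ k ≤ 1 / 2 := pow_le_of_le_one (by norm_num) (by norm_num) (by omega)
  refine ⟨⟨rv_lc s.cont, fun g j => ?_⟩, fun l P o q g i => ?_, fun l P o q _ => ?_⟩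
  · have b := (h.norm_ac d g _).trans (s.int j)
    rw [← h.rv_ac d g (s.int j), ← rv_add (s.int g) b, rv_eq_iff (s.int _) (norm_add_le' (s.int g) b),
      ← sub_sub]
    exact (s.coc g j).trans p
  · obtain ⟨n, b⟩ := s.tor l P o (h.ne_two q.1)
    have := (b g (inert_dec i)).trans p
    rwa [ac, sg_of_zero (nu_inert o (h.ne_two q.1) q.2 i), h.mt_inert o q.1 i, one_mulVec, one_smul,
      sub_self, sub_zero, ← rv_eq_zero] at this
  · refine (s.tor l P o (h.ne_two q)).imp fun n b g i => ?_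
    have c : ‖ac r d g n - n‖ ≤ 1 := by
      simpa using norm_sub_le' (s.int g) (((b g i).trans p).trans (by norm_num))
    exact ⟨c, ((rv_eq_iff (s.int g) c).2 ((b g i).trans p)).symm⟩

theorem ex_max {A : Set ℚ_[2]} {C : ℝ} (hC : ∀ x ∈ A, ‖x‖ ≤ C) (h : ∃ x ∈ A, x ≠ 0) :
    ∃ a ∈ A, a ≠ 0 ∧ ∀ x ∈ A, ‖x / a‖ ≤ 1 := by
  obtain ⟨n, hn⟩ := pow_unbounded_of_one_lt C (one_lt_two (α := ℝ))
  have e : ∀ x : ℚ_[2], x ≠ 0 → ‖x‖ = 2 ^ (-x.valuation) := fun x k => by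
    simpa using Padic.norm_eq_zpow_neg_valuation k
  obtain ⟨_, ⟨a, a1, a2, rfl⟩, k⟩ := Int.exists_greatest_of_bdd
    (P := fun z => ∃ a ∈ A, a ≠ 0 ∧ -a.valuation = z) ⟨n, by
      rintro _ ⟨a, a1, a2, rfl⟩
      have := (hC a a1).trans hn.le
      rwa [e a a2, ← zpow_natCast, zpow_le_zpow_iff_right₀ one_lt_two] at this⟩
    (h.elim fun x a => ⟨_, x, a.1, a.2, rfl⟩)
  refine ⟨a, a1, a2, fun x b => ?_⟩
  by_cases c : x = 0
  · simp [c]
  · rw [norm_div, div_le_one (norm_pos_iff.2 a2), e x c, e a a2]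
    exact zpow_le_zpow_right₀ one_le_two (k _ ⟨x, b, c, rfl⟩)

theorem Rep.fix_zero (h : Rep r S) {n : V} (k : ∀ g, ac r d g n = n) : n = 0 := by_contra fun a => by
  obtain ⟨g, b⟩ := h.irr n a
  refine b (sg d g) ?_
  nth_rewrite 2 [← k g]
  rw [ac, smul_smul, sg_sq, one_smul, mt]

theorem Lat.comb {c c' : GQ → V} {a b a' b' x y : ℚ_[2]} (h : Lat r d c c' a b)
    (h' : Lat r d c c' a' b') (hx : ‖x‖ ≤ 1) (hy : ‖y‖ ≤ 1) :
    Lat r d c c' (x * a + y * a') (x * b + y * b') := by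
  obtain ⟨n, h⟩ := h
  obtain ⟨n', h'⟩ := h'
  refine ⟨x • n + y • n', fun g => ?_⟩
  refine le_of_eq_of_le (congrArg norm ?_) (norm_add_le' ((norm_smul_le x _).trans
    (mul_le_one₀ hx (norm_nonneg _) (h g))) ((norm_smul_le y _).trans
    (mul_le_one₀ hy (norm_nonneg _) (h' g))))
  rw [ac_add, ac_smul, ac_smul]
  module

theorem sat : SAT := by
  intro r S d c c' h h1 h2 hi
  let T : (ℚ_[2] × ℚ_[2]) × V →ₗ[ℚ_[2]] C(GQ, V) :=
    { toFun := fun z => ⟨fun g => z.1.1 • c g + z.1.2 • c' g - (ac r d g z.2 - z.2),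
        have := h.ac_cont d continuous_id' (continuous_const (y := z.2)); by fun_prop⟩
      map_add' := fun z w => ContinuousMap.ext fun g => by
        simp only [ContinuousMap.coe_mk, ContinuousMap.add_apply, Prod.fst_add, Prod.snd_add, ac_add]
        module
      map_smul' := fun a z => ContinuousMap.ext fun g => by
        simp only [ContinuousMap.coe_mk, ContinuousMap.smul_apply, Prod.smul_fst, Prod.smul_snd,
          ac_smul, RingHom.id_apply, smul_eq_mul]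
        module }
  obtain ⟨K, -, hK⟩ := T.exists_antilipschitzWith (LinearMap.ker_eq_bot'.2 fun z k => by
    have e : ∀ g, z.1.1 • c g + z.1.2 • c' g = ac r d g z.2 - z.2 := fun g =>
      sub_eq_zero.1 (DFunLike.congr_fun k g)
    obtain ⟨a, b⟩ := hi z.1.1 z.1.2 ⟨z.2, fun g _ => e g⟩
    refine Prod.ext (Prod.ext a b) (h.fix_zero (d := d) fun g => ?_)
    simpa [a, b, eq_comm, sub_eq_zero] using e g)
  have bd : ∀ a b, Lat r d c c' a b → ‖a‖ ≤ K ∧ ‖b‖ ≤ K := fun a b ⟨n, k⟩ => by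
    have := (hK.le_mul_norm (map_zero T) ((a, b), n)).trans (mul_le_of_le_one_right K.2
      ((ContinuousMap.norm_le _ zero_le_one).2 k))
    exact max_le_iff.1 (max_le_iff.1 this).1
  have sm : ∀ c : GQ → V, Continuous c → ∃ a : ℚ_[2], a ≠ 0 ∧ ∀ g, ‖a • c g‖ ≤ 1 := fun c k => by
    obtain ⟨n, hn⟩ := pow_unbounded_of_one_lt ‖(⟨c, k⟩ : C(GQ, V))‖ (one_lt_two (α := ℝ))
    refine ⟨2 ^ n, pow_ne_zero _ two_ne_zero, fun g => ?_⟩
    rw [norm_smul, norm_two_pow, one_div, inv_pow, inv_mul_le_one₀ (by positivity)]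
    exact ((⟨c, k⟩ : C(GQ, V)).norm_coe_le_norm g).trans hn.le
  obtain ⟨a, ⟨b, a1⟩, a2, a3⟩ := ex_max (A := {a | ∃ b, Lat r d c c' a b})
    (fun a ⟨b, k⟩ => (bd a b k).1) ((sm c h1).imp fun a k =>
      ⟨⟨0, 0, fun g => by simpa [ac_zero] using k.2 g⟩, k.1⟩)
  obtain ⟨e, b1, b2, b3⟩ := ex_max (A := {b | Lat r d c c' 0 b}) (fun b k => (bd 0 b k).2)
    ((sm c' h2).imp fun a k => ⟨⟨0, fun g => by simpa [ac_zero] using k.2 g⟩, k.1⟩)
  refine ⟨a, b, 0, e, by simp [a2, b2], fun x y => ⟨fun k => ?_, fun k => a1.comb b1 k.1 k.2⟩⟩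
  have x1 : ‖x‖ ≤ 1 := by simpa [a2] using a3 _ ⟨_, k⟩
  have := k.comb a1 (x := 1) (y := -x) (by simp) (by simpa using x1)
  rw [show 1 * (x * a + y * 0) + -x * a = 0 by ring, show 1 * (x * b + y * e) + -x * b = y * e by ring]
    at this
  exact ⟨x1, by simpa [b2] using b3 _ this⟩

end Vale.Agent.P004S
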