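import Vale.Agent.P004S.Gal1
import Vale.Agent.P022E.GW.Fix
import Vale.Agent.P022E.GW.Hyp

/-!
# P004, block SMITH: the rows `CNT`, `EXI` (helper7)
-/

set_option linter.all false

noncomputable section

namespace Vale.Agent.P004S

open NumberField Matrix Filter Topology
open Vale.Agent.P022 (Qb GQ IsConj Irred UnrAt IsFrob GK below)
open Vale.Agent.P027M.S (Inert Pr)
open Vale.Agent.P022D.W (dec)
open Vale.Agent.P022E.GW (Ov Fb Gn Ch)
open Vale.Agent.P022E.GW.Kc (kq)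
open Vale.Agent.P022E.GW
open scoped Pointwise

namespace Gl

/-- counting by fibres -/
theorem fib {X F : Type} [AddCommGroup X] [Finite F] {E B : Set X} (hB : B.Finite) (Ψ : X → F)
    (h : ∀ x ∈ E, ∀ y ∈ E, Ψ x = Ψ y → x - y ∈ B) :
    E.Finite ∧ E.ncard ≤ Nat.card F * B.ncard := by
  classical
  have k : ∀ f : F, ∃ y : X, (∃ x ∈ E, Ψ x = f) → y ∈ E ∧ Ψ y = f := fun f => by
    by_cases e : ∃ x ∈ E, Ψ x = f
    · obtain ⟨x, hx⟩ := e
      exact ⟨x, fun _ => hx⟩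
    · exact ⟨0, fun a => absurd a e⟩
  choose s hs using k
  have fi : ((Set.univ : Set F) ×ˢ B).Finite := Set.finite_univ.prod hB
  have m : ∀ x ∈ E, (Ψ x, x - s (Ψ x)) ∈ (Set.univ : Set F) ×ˢ B := fun x hx =>
    ⟨trivial, h x hx _ (hs _ ⟨x, hx, rfl⟩).1 (hs _ ⟨x, hx, rfl⟩).2.symm⟩
  have i : Set.InjOn (fun x => (Ψ x, x - s (Ψ x))) E := fun x _ y _ e => by
    have e1 : Ψ x = Ψ y := congrArg Prod.fst e
    have e2 : x - s (Ψ x) = y - s (Ψ y) := congrArg Prod.snd e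
    rwa [e1, sub_left_inj] at e2
  refine ⟨Set.Finite.of_injOn m i fi, (Set.ncard_le_ncard_of_injOn _ m i fi).trans_eq ?_⟩
  rw [Set.ncard_prod, Set.ncard_univ]

variable {H : Subgroup GQ} {ξ η : GQ → ZMod 2}

theorem ch_mul (h : Ch H ξ) {g k : GQ} (hg : g ∈ H) (hk : k ∈ H) : ξ (g * k) = ξ g + ξ k :=
  h.2 ⟨g, hg⟩ ⟨k, hk⟩

theorem ch_one (h : Ch H ξ) : ξ 1 = 0 :=
  by simpa using ch_mul h H.one_mem H.one_mem

theorem ch_conj (h : Ch H ξ) {g k : GQ} (hg : g ∈ H) (hk : k ∈ H) : ξ (k⁻¹ * g * k) = ξ g := by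
  have e := ch_mul h hk (H.mul_mem (H.mul_mem (H.inv_mem hk) hg) hk)
  rw [← mul_assoc, mul_inv_cancel_left, ch_mul h hg hk, add_comm] at e
  exact (add_left_cancel e).symm

theorem ch_sub (h : Ch H ξ) (h' : Ch H η) : Ch H (ξ - η) := Submodule.sub_mem _ h h'

theorem ch_open (h : Ch H ξ) :
    ∃ U : Subgroup GQ, IsOpen (U : Set GQ) ∧ ∀ σ ∈ U, σ ∈ H → ξ σ = 0 := by
  obtain ⟨O, hO, eO⟩ := isOpen_induced_iff.1 (h.1.isOpen_fiber 0)
  have m : ∀ x : H, (x : GQ) ∈ O ↔ ξ x = 0 := fun x => Set.ext_iff.1 eO x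
  obtain ⟨U, hU, k⟩ := ex_open (hO.mem_nhds ((m 1).2 (ch_one h)))
  exact ⟨U, hU, fun w mw hw => (m ⟨w, hw⟩).1 (k mw)⟩

/-- finiteness for a big set -/
theorem fin0 {L : Type} [Field L] [NumberField L] (j : L →+* Qb) {A : Finset ℕ}
    (hB : P022D.Sel.Big L A) :
    {ξ : GQ → ZMod 2 | Ch (GK j) ξ ∧ (∀ g ∉ GK j, ξ g = 0) ∧ Un (· ∉ A) ξ}.Finite := by
  obtain ⟨U, hU, -, le, k⟩ := P022D.Sel.opn L j A
  haveI := P022.H916.isGalois_Qb
  haveI : Finite (GQ ⧸ U) := Subgroup.quotient_finite_of_isOpen U hU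
  have key : ∀ ξ : GQ → ZMod 2, Ch (GK j) ξ → (∀ g ∉ GK j, ξ g = 0) → Un (· ∉ A) ξ →
      ∀ g : GQ, ξ (g : GQ ⧸ U).out = ξ g := fun ξ h1 h2 h3 g => by
    obtain ⟨u, hu⟩ := Kc.kq_surjU j hB ξ (fun g a k b => ch_mul h1 a b) (ch_open h1)
      fun l hl hA P hP m g _ hi => h3 l P ⟨hl, hP, m⟩ hA g hi
    obtain ⟨w, hw⟩ := QuotientGroup.mk_out_eq_mul U g
    rw [hw]
    by_cases hg : g ∈ GK j
    · rw [ch_mul h1 hg (le w.2), hu w (le w.2),
        (Kc.kq_zero (Kc.rt_sq _) _).2 (k w w.2 u _ (Kc.rt_sq _)), add_zero]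
    · rw [h2 g hg, h2 _ fun m => hg (((GK j).mul_mem_cancel_right (le w.2)).1 m)]
  refine Set.Finite.of_injOn (f := fun (ξ : GQ → ZMod 2) (c : GQ ⧸ U) => ξ c.out)
    (t := Set.univ) (fun _ _ => trivial) (fun ξ a η b e => funext fun g => ?_) Set.finite_univ
  rw [← key ξ a.1 a.2.1 a.2.2 g, ← key η b.1 b.2.1 b.2.2 g]
  exact congrFun e _

end Gl

open Gl

/-- **row CNT** -/
theorem cnt : CNT := by
  classical
  intro H hH
  obtain ⟨pl⟩ := pl_ex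
  obtain ⟨L, _, _, j, rfl⟩ := Hy.ex_fld hH
  obtain ⟨A₀, -, hA⟩ := P022D.Sel.big L
  obtain ⟨n, n0, hn⟩ := Fx2.fin_ram _ (P022D.Sel.opn_core _ hH)
  haveI := P022.H916.isGalois_Qb
  haveI : Finite (GQ ⧸ GK j) := Subgroup.quotient_finite_of_isOpen _ hH
  let A := A₀ ∪ insert 2 n.primeFactors
  have fB := fin0 j (hA A Finset.subset_union_left)
  set b := {ξ : GQ → ZMod 2 | Ch (GK j) ξ ∧ (∀ g ∉ GK j, ξ g = 0) ∧ Un (· ∉ A) ξ}.ncard
  refine ⟨2 ^ Nat.card (GQ ⧸ GK j) + b, fun T => ?_⟩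
  obtain ⟨f1, f2⟩ := fib (E := {ξ : GQ → ZMod 2 | Ch (GK j) ξ ∧ (∀ g ∉ GK j, ξ g = 0) ∧
      Un (· ∉ T) ξ}) fB
    (fun (ξ : GQ → ZMod 2) (l : T) (c : GQ ⧸ GK j) => ξ (c.out⁻¹ * pl.τ l * c.out))
    (fun ξ a η a' e => ⟨ch_sub a.1 a'.1, fun g hg => by
      rw [Pi.sub_apply, a.2.1 g hg, a'.2.1 g hg, sub_zero], fun l P hP hl g hg => by
      by_cases hT : l ∈ T
      swap
      · rw [Pi.sub_apply, a.2.2 l P hP hT g hg, a'.2.2 l P hP hT g hg, sub_zero]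
      have h2 : l ≠ 2 := fun k => hl (by simp [A, k])
      have o := pl.ov l hP.1
      have cj : ∀ Q, Ov l Q → ∀ s, Inert Q s → ∀ t : GQ, t⁻¹ * s * t ∈ GK j := fun Q hQ s hs t => by
        have := hn Q hQ.2.1 (fun m => hl (by
          have := ov_dvd hQ (a := n) (by exact_mod_cast m)
          simp only [A, Finset.mem_union, Finset.mem_insert, Nat.mem_primeFactors]
          exact .inr (.inr ⟨hP.1, by exact_mod_cast this, n0⟩))) s hs t⁻¹
        rwa [inv_inv] at this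
      obtain ⟨t, k, -⟩ := ex_conj o hP
      obtain ⟨w, hw⟩ := QuotientGroup.mk_out_eq_mul (GK j) t⁻¹
      have c := ch_sub a.1 a'.1
      obtain ⟨U, hU, hU0⟩ := ch_open c
      have := Tg.mult (F := ZMod 2) o h2 (pl.gn l hP.1 h2)
        (a := fun s => (ξ - η) ((t⁻¹ * w)⁻¹ * s * (t⁻¹ * w)))
        (fun s hs s' hs' => by
          rw [← ch_mul c (cj _ o s hs _) (cj _ o s' hs' _)]
          congr 1; group)
        ⟨U.normalCore, P022D.Sel.opn_core U hU, fun σ m hσ => hU0 _ (by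
          have := m (t⁻¹ * w)⁻¹
          rwa [inv_inv] at this) (cj _ o σ hσ _)⟩ (k g hg)
      have e0 : (ξ - η) ((t⁻¹ * w)⁻¹ * pl.τ l * (t⁻¹ * w)) = 0 := by
        rw [← hw]
        exact sub_eq_zero.2 (congrFun (congrFun e ⟨l, hT⟩) _)
      beta_reduce at this
      rw [e0, mul_zero, show (t⁻¹ * w)⁻¹ * (t⁻¹ * g * t) * (t⁻¹ * w) = (w : GQ)⁻¹ * g * w by group,
        ch_conj c (by simpa using cj P hP g hg 1) w.2] at this
      exact this⟩)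
  refine ⟨f1, f2.trans ?_⟩
  rw [Nat.card_fun, Nat.card_fun, Nat.card_zmod, Nat.card_eq_fintype_card (α := T),
    Fintype.card_coe, pow_succ]
  exact Nat.mul_le_mul (Nat.pow_le_pow_left (Nat.le_add_right _ _) _) (Nat.le_add_left _ _)

namespace Gl

variable {r : Rp} {S : Finset ℕ}

/-- the stabiliser of a residual vector -/
def stb (h : Rep r S) (μ : W) : Subgroup GQ where
  carrier := {g | rb r g *ᵥ μ = μ}
  mul_mem' {a b} ha hb := by
    show rb r (a * b) *ᵥ μ = μ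
    rw [h.rb_mul, ← mulVec_mulVec, show rb r b *ᵥ μ = μ from hb, show rb r a *ᵥ μ = μ from ha]
  one_mem' := by
    show rb r 1 *ᵥ μ = μ
    rw [rb_one, one_mulVec]
  inv_mem' {a} ha := by
    show rb r a⁻¹ *ᵥ μ = μ
    conv_lhs => rw [← show rb r a *ᵥ μ = μ from ha]
    rw [mulVec_mulVec, ← h.rb_mul, inv_mul_cancel, rb_one, one_mulVec]

theorem kn_le (h : Rep r S) (μ : W) : h.Kn 1 ≤ stb h μ := fun g hg => by
  show rb r g *ᵥ μ = μ
  rw [h.tr_one_iff.1 hg, one_mulVec]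

theorem stb_open (h : Rep r S) (μ : W) : IsOpen (stb h μ : Set GQ) :=
  Subgroup.isOpen_mono (kn_le h μ) (h.Kn_open 1)

theorem out_mem {H : Subgroup GQ} (g : GQ) (c : GQ ⧸ H) : (g • c).out⁻¹ * g * c.out ∈ H := by
  rw [mul_assoc, ← QuotientGroup.eq, QuotientGroup.out_eq']
  conv_lhs => rw [← QuotientGroup.out_eq' c]
  rfl

/-- the transfer of `x ↦ kq x • μ` -/
theorem trf (h : Rep r S) (μ : W) [Fintype (GQ ⧸ stb h μ)] {x : Qb}
    (hx : ∀ g ∈ stb h μ, g x = x) : ∃ Θ, Zb r Θ ∧ ∀ g ∈ h.Kn 1,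
      Θ g = ∑ c : GQ ⧸ stb h μ, kq x (c.out⁻¹ * g * c.out) • (rb r c.out *ᵥ μ) := by
  let Θ : GQ → W := fun g =>
    ∑ c : GQ ⧸ stb h μ, kq x ((g • c).out⁻¹ * g * c.out) • (rb r (g • c).out *ᵥ μ)
  have co : ∀ g k, Θ (g * k) = Θ g + rb r g *ᵥ Θ k := fun g k => by
    simp only [Θ]
    rw [← Equiv.sum_comp (MulAction.toPerm k) fun c : GQ ⧸ stb h μ =>
      kq x ((g • c).out⁻¹ * g * c.out) • (rb r (g • c).out *ᵥ μ), mulVec_sum,
      ← Finset.sum_add_distrib]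
    refine Finset.sum_congr rfl fun c _ => ?_
    have m1 := out_mem g (k • c)
    have m2 := out_mem k c
    have e : rb r g *ᵥ (rb r (k • c).out *ᵥ μ) = rb r (g • k • c).out *ᵥ μ := by
      refine Eq.trans ?_ (congrArg (rb r (g • k • c).out *ᵥ ·) (show rb r _ *ᵥ μ = μ from m1))
      rw [mulVec_mulVec, mulVec_mulVec, ← h.rb_mul, ← h.rb_mul]
      congr 2; group
    rw [MulAction.toPerm_apply, mulVec_smul, e, ← add_smul, ← Kc.kq_add (hx _ m1) (hx _ m2),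
      mul_smul]
    congr 2; group
  have va : ∀ g ∈ h.Kn 1, Θ g =
      ∑ c : GQ ⧸ stb h μ, kq x (c.out⁻¹ * g * c.out) • (rb r c.out *ᵥ μ) := fun g hg => by
    refine Finset.sum_congr rfl fun c _ => ?_
    have : g • c = c := by
      conv_lhs => rw [← QuotientGroup.out_eq' c]
      conv_rhs => rw [← QuotientGroup.out_eq' c]
      refine QuotientGroup.eq.2 (kn_le h μ ?_)
      have := (h.Kn_normal 1).conj_mem _ ((h.Kn 1).inv_mem hg) c.out⁻¹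
      simpa [mul_assoc] using this
    rw [this]
  refine ⟨Θ, ⟨?_, co⟩, va⟩
  obtain ⟨U, hU, k⟩ := Kc.kq_opn x
  refine lc_of_open (U := (h.Kn 1 ⊓ U.normalCore : Subgroup GQ))
    ((h.Kn_open 1).inter (P022D.Sel.opn_core U hU)) (one_mem _) fun g u hu => ?_
  rw [co, va u hu.1, Finset.sum_eq_zero, mulVec_zero, add_zero]
  intro c _
  have := hu.2 c.out⁻¹
  rw [inv_inv] at this
  rw [k _ this, zero_smul]

theorem inert_smul {P : Ideal (𝓞 Qb)} {g : GQ} (hg : Inert P g) (t : GQ) :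
    Inert (t⁻¹ • P) (t⁻¹ * g * t) := Tg.inert_conj (by rwa [smul_inv_smul])

theorem ov_smul {l : ℕ} {P : Ideal (𝓞 Qb)} (h : Ov l P) (t : GQ) : Ov l (t • P) :=
  ⟨h.1, haveI := h.2.1; inferInstance, by
    rw [Ideal.mem_pointwise_smul_iff_inv_smul_mem]
    have : t⁻¹ • (l : 𝓞 Qb) = l := map_natCast (MulSemiringAction.toRingHom GQ (𝓞 Qb) t⁻¹) l
    rw [this]; exact h.2.2⟩

end Gl

/-- **row EXI** -/
theorem exi : EXI := by
  classical
  intro r S h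
  choose L i1 i2 j hj using fun μ : W => Hy.ex_fld (stb_open h μ)
  choose A hA1 hA2 using fun μ : W => @P022D.Sel.big (L μ) (i1 μ) (i2 μ)
  refine ⟨S ∪ Finset.univ.biUnion A, fun S' hS' q P τ μ hP hq hτ hμ => ?_⟩
  letI := i1 μ
  letI := i2 μ
  haveI := P022.H916.isGalois_Qb
  haveI : Finite (GQ ⧸ stb h μ) := Subgroup.quotient_finite_of_isOpen _ (stb_open h μ)
  letI := Fintype.ofFinite (GQ ⧸ stb h μ)
  have sS : ∀ l ∉ S', l ∉ S := fun l a b => a (hS' (Finset.mem_union_left _ b))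
  have pr : ∀ l ∈ S'.filter Nat.Prime, l = 0 ∨ l.Prime := fun l a => .inr (Finset.mem_filter.1 a).2
  have hB := hA2 μ (S'.filter Nat.Prime) fun l a => Finset.mem_filter.2
    ⟨hS' (Finset.mem_union_right _ (Finset.mem_biUnion.2 ⟨μ, Finset.mem_univ _, a⟩)), hA1 μ l a⟩
  have t2 : 2 ∈ S'.filter Nat.Prime :=
    Finset.mem_filter.2 ⟨hS' (Finset.mem_union_left _ h.two), Nat.prime_two⟩
  have no : ∀ l, l.Prime → l ∉ S' → ∀ v : Pr (L μ), (l : 𝓞 (L μ)) ∈ v.asIdeal →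
      v ∉ P022D.Sel.ov (L μ) (S'.filter Nat.Prime) := fun l a b v m =>
    Kc.not_ov pr a (fun k => b (Finset.mem_filter.1 k).1) m
  obtain ⟨v, hv, mv⟩ := Kc.ex_below (j μ) hP.1.ne_zero hP.2.1 hP.2.2
  obtain ⟨π, π0, o1, o2⟩ := hB v (no q hP.1 hq v mv)
  have mem : ∀ g, g ∈ GK (j μ) ↔ g ∈ stb h μ := fun g => by rw [hj μ]
  obtain ⟨Θ, hΘ, va⟩ := trf h μ (x := j μ π) fun g hg => (mem g).2 hg π
  have kn : ∀ l, l ∉ S' → ∀ Q, Ov l Q → ∀ g, Inert Q g → g ∈ h.Kn 1 := fun l a Q b g c =>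
    h.Kn_uns 1 l Q b (sS l a) g c
  have z : ∀ l, l ∉ S' → ∀ Q, Ov l Q → below (j μ) Q ≠ v.asIdeal → ∀ g, Inert Q g →
      kq (j μ π) g = 0 := fun l a Q b ne g c => by
    obtain ⟨v', hv', m⟩ := Kc.ex_below (j μ) b.1.ne_zero b.2.1 b.2.2
    have o := no l b.1 a v' m
    exact Kc.kq_even (j μ) π0 v' b.2.1 hv' (Kc.two_not (j μ) t2 o hv')
      (by rw [o2 v' o fun e => ne (e ▸ hv')]; exact Even.zero)
      ((mem g).2 (kn_le h μ (kn l a Q b g c))) c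
  refine ⟨Θ, hΘ, fun l Q hQ hl g hg => ?_, ?_⟩
  · rw [va g (kn l hl.1 Q hQ g hg)]
    refine Finset.sum_eq_zero fun c _ => ?_
    have b := ov_smul hQ c.out⁻¹
    rw [z l hl.1 _ b (fun e => hl.2 ?_) _ (inert_smul hg _), zero_smul]
    have := ov_dvd b (a := q) (by exact_mod_cast (Kc.nat_mem (j μ) e q).1 mv)
    exact (Nat.prime_dvd_prime_iff_eq hQ.1 hP.1).1 (by exact_mod_cast this)
  · have q2 := h.ne_two (sS q hq)
    have mτ : τ ∈ stb h μ := hμ τ (inert_dec hτ.1)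
    rw [va τ (kn q hq P hP τ hτ.1), Finset.sum_eq_single ((1 : GQ) : GQ ⧸ stb h μ)]
    · obtain ⟨w, hw⟩ := QuotientGroup.mk_out_eq_mul (stb h μ) 1
      rw [hw, one_mul, show rb r w *ᵥ μ = μ from w.2]
      have e1 := Kc.kq_conj (j μ π) (w : GQ)⁻¹ τ
      rw [inv_inv, (mem _).2 ((stb h μ).inv_mem w.2) π] at e1
      obtain ⟨i, a1, a2, a3⟩ := Kc.ex_ram (j μ) π0 v hP.2.1 hv (by rw [o1]; exact odd_one)
      have fx : ∀ s, Inert P s → s (j μ π) = j μ π := fun s hs =>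
        (mem s).2 (hμ s (inert_dec hs)) π
      obtain ⟨U, hU, k⟩ := Kc.kq_opn (j μ π)
      have e2 := Tg.mult (F := ZMod 2) hP q2 hτ (a := kq (j μ π))
        (fun s hs t ht => Kc.kq_add (fx s hs) (fx t ht)) ⟨U, hU, fun σ m _ => k σ m⟩ a2
      have e3 : kq (j μ π) τ = 1 := (z2 _).resolve_left fun e => by
        rw [a3, e, mul_zero] at e2
        exact one_ne_zero e2
      rw [e1, e3, one_smul]
    · intro c _ ne
      have b := ov_smul hP c.out⁻¹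
      rw [z q hq _ b (fun e => ne ?_) _ (inert_smul hτ.1 _), zero_smul]
      obtain ⟨g, hg⟩ := P022.H916.exists_smul (j μ) hP.2.1 b.2.1 (hv.trans e.symm)
      have d : (c.out * g)⁻¹ ∈ dec P := fun x => by
        rw [← Ideal.mem_pointwise_smul_iff_inv_smul_mem, mul_smul, ← hg, smul_inv_smul]
      have m : c.out ∈ stb h μ := ((stb h μ).mul_mem_cancel_right ((mem _).1 g.2)).1
        ((stb h μ).inv_mem_iff.1 (hμ _ d))
      rw [← QuotientGroup.out_eq' c]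
      exact QuotientGroup.eq.2 (by simpa using m)
    · intro k
      exact absurd (Finset.mem_univ _) k

end Vale.Agent.P004S
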