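import Vale.Agent.P004S.Bas
import Vale.Agent.P004S.A.Loc
import Vale.Agent.P004S.A.Q

/-!
# P004, block SMITH: the rows LT, QR, UT (helper25)
-/

set_option linter.all false

noncomputable section

namespace Vale.Agent.P004S

open NumberField Matrix Filter Topology
open Vale.Agent.P022 (Qb GQ IsConj Irred UnrAt IsFrob)
open Vale.Agent.P022K
open Vale.Agent.P027M.S (Inert)
open Vale.Agent.P022D.W (dec)
open Vale.Agent.P022.H443 (inP)
open Vale.Agent.P022E.GW (Ov Fb Gn Ch)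

theorem lt : LT := fun l P h => by
  refine ⟨fun τ k i hl hτ hi U hU => ?_, fun σ g hσ hg U hU => ?_⟩
  · obtain ⟨W, hW, le⟩ := G2.ex_lv' (H := U ⊓ kn l) (hU.inter (kn_open l))
    haveI := hW.nrm
    obtain ⟨t, ht, e⟩ := CH.Loc.cyc_level W hW.opn h
    obtain ⟨a, ha⟩ := e τ hτ.1
    obtain ⟨b, hb⟩ := e i hi
    have od := h.1.odd_of_ne_two hl
    have h1 := G2.add_cyc (F := nu l) (fun x hx => by
      rwa [nsmul_eq_mul, (ZMod.natCast_eq_one_iff_odd).2 od, one_mul] at hx)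
      (fun g j _ _ => nu_mul l g j) (fun w m _ => (le m).2) ht hτ.1 ha
    have oa : Odd a := by
      rw [nu_gn h hτ, nsmul_eq_mul] at h1
      exact ZMod.natCast_ne_zero_iff_odd.1 (left_ne_zero_of_mul_eq_one h1.symm)
    obtain ⟨m, hm⟩ := Nat.exists_mul_mod_eq_one_of_coprime (k := 2 ^ (k + 1))
      ((Nat.coprime_two_right.2 oa).pow_right _) (Nat.one_lt_two_pow (by simp))
    refine ⟨b * m, fun A _ f hA h0 ad => ?_⟩
    have hl' : ∀ x : A, l • x = 0 → x = 0 := fun x hx => by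
      have := (Nat.coprime_two_right.2 od).pow_right k
      rw [← addOrderOf_dvd_iff_nsmul_eq_zero] at hx
      exact AddMonoid.addOrderOf_eq_one_iff.1 (Nat.eq_one_of_dvd_coprimes this hx
        (addOrderOf_dvd_iff_nsmul_eq_zero.2 (hA x)))
    have k0 : ∀ w ∈ W, Inert P w → f w = 0 := fun w m hw => h0 w hw (le m).1
    rw [G2.add_cyc hl' ad k0 ht hi hb, G2.add_cyc hl' ad k0 ht hτ.1 ha, mul_nsmul', ← mul_nsmul' _ m,
      mul_comm m a, ← Nat.mod_add_div (a * m) (2 ^ (k + 1)), hm.2, add_nsmul, one_nsmul, pow_succ,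
      mul_assoc, mul_nsmul', hA, add_zero]
  · obtain ⟨W, hW, le⟩ := G2.ex_lv' hU
    obtain ⟨n, s, u, hs, hu, rfl⟩ := P022D.W.dec_gen h.1 h.2.1 h.2.2 hσ hg W hW.opn
    exact ⟨n, s, hs, le (by simpa [mul_assoc] using hW.nrm.conj_mem' u hu (σ ^ n * s))⟩

theorem sg_br {d : ℤ} (hd : d ≠ 0) (g : GQ) : sg d g = Ga.sg d g := by
  obtain ⟨β, -, e, h⟩ := Aq.Q.ks_int hd
  rcases h g with ⟨a, b⟩ | ⟨a, b⟩
  · rw [a, sg_of_zero ((nu_eq_zero e).2 b)]
  · rw [a, sg_of_one ((nu_eq_one hd e).2 b)]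

/-- the criterion of Euler -/
theorem sg_frob {l : ℕ} [Fact l.Prime] {P : Ideal (𝓞 Qb)} (h : Ov l P) (h2 : l ≠ 2) {d : ℤ}
    (hd : ¬ (l : ℤ) ∣ d) {φ : GQ} (hφ : Fb l P φ) : sg d φ = (legendreSym l d : ℤ) := by
  have d0 : d ≠ 0 := fun e => hd (e ▸ dvd_zero _)
  rw [sg_br d0]
  exact (Aq.Q.ks_int d0).frob h h2 hd hφ

theorem nu_of_sg {d : ℤ} {g : GQ} (h : sg d g = 1) : nu d g = 0 :=
  (z2 _).resolve_right fun e => Aq.neg_ne ((sg_of_one e).symm.trans h)

theorem qr : QR := fun pl x x' l P hx hx' h8 h8' ov n1 n2 e g hg => by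
  have x0 : (x : ℤ) ≠ 0 := Int.natCast_ne_zero.2 hx.ne_zero
  have x1 : (x' : ℤ) ≠ 0 := Int.natCast_ne_zero.2 hx'.ne_zero
  have m0 := mul_ne_zero x0 x1
  suffices h : nu (x * x') g = 0 by
    rw [nu_mul_left x0 x1] at h
    revert h
    generalize nu x g = a
    generalize nu x' g = b
    revert a b
    decide
  refine nu_of_sg ((sg_br m0 g).trans ?_)
  by_cases l2 : l = 2
  · subst l2
    exact (Aq.Q.ks_int m0).spl2 ov (by
      rw [Int.mul_emod, show (x : ℤ) % 8 = 1 by omega, show (x' : ℤ) % 8 = 1 by omega]; rfl) hg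
  haveI := Fact.mk ov.1
  have nd : ∀ {a b : ℕ}, a.Prime → b.Prime → a ≠ b → ¬ (a : ℤ) ∣ b := fun ha hb ne d =>
    ne ((Nat.prime_dvd_prime_iff_eq ha hb).1 (Int.natCast_dvd_natCast.1 d))
  have key : ∀ y : ℕ, y.Prime → y % 8 = 1 → l ≠ y → sg l (pl.σ y) = (legendreSym l y : ℤ) :=
    fun y hy k ne => by
      haveI := Fact.mk hy
      rw [legendreSym.quadratic_reciprocity_one_mod_four (by omega) l2]
      exact sg_frob (pl.ov y hy) (by omega) (nd hy ov.1 ne.symm) (pl.fb y hy)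
  have k1 : legendreSym l x = legendreSym l x' := by
    exact_mod_cast (key x hx h8 n1).symm.trans ((sg_congr e).trans (key x' hx' h8' n2))
  have nm : ¬ (l : ℤ) ∣ x * x' := fun d =>
    ((Nat.prime_iff_prime_int.1 ov.1).dvd_or_dvd d).elim (nd ov.1 hx n1) (nd ov.1 hx' n2)
  have z0 : ∀ {a : ℤ}, ¬ (l : ℤ) ∣ a → (a : ZMod l) ≠ 0 := fun h e =>
    h ((ZMod.intCast_zmod_eq_zero_iff_dvd _ _).1 e)
  obtain ⟨a, ha⟩ := (legendreSym.eq_one_iff l (z0 nm)).1 (by
    rw [legendreSym.mul, k1, ← sq, legendreSym.sq_one l (z0 (nd ov.1 hx' n2))])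
  exact (Aq.Q.ks_int m0).spl ov l2 nm (a := a.val) ((ZMod.intCast_zmod_eq_zero_iff_dvd _ _).1 (by
    rw [Int.cast_sub, ha]; simp [sq])) hg

theorem ut : UT := fun r S h k l d P a d0 ov hl hd ca _ co ur => by
  obtain ⟨σ, hσ⟩ := P022D.W.exists_phi ov.1 ov.2.1 ov.2.2
  obtain ⟨f1, f2, f3⟩ := h.frob l ov.1 hl σ ⟨P, ov.2.1, ov.2.2, hσ⟩
  have hM : (sg d σ • mt r σ - 1).det ≠ 0 := by
    rw [ep, det_fin_two] at f1
    rw [trace_fin_two] at f2 f3
    rcases sg_or d σ with e | e <;> rw [e, det_fin_two] <;> simp <;> intro c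
    · exact f2 (by linear_combination f1 - c)
    · exact f3 (by linear_combination c - f1)
  let n := (sg d σ • mt r σ - 1)⁻¹ *ᵥ a σ
  let b : GQ → V := fun g => a g - (ac r d g n - n)
  have b1 : b σ = 0 := by
    have : (sg d σ • mt r σ - 1) *ᵥ n = a σ := by
      rw [mulVec_mulVec, mul_nonsing_inv _ (isUnit_iff_ne_zero.2 hM), one_mulVec]
    rw [sub_mulVec, one_mulVec, smul_mulVec] at this
    exact sub_eq_zero.2 this.symm
  have b2 : ∀ g ∈ dec P, ∀ j ∈ dec P, ‖b (g * j) - b g - ac r d g (b j)‖ ≤ (1 / 2) ^ k :=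
    fun g hg j hj => by
      convert co g hg j hj using 2
      simp only [b, ac_sub, ac_mul]
      abel
  have b3 : ∀ g, Inert P g → ‖b g‖ ≤ (1 / 2) ^ k := fun g hg => by
    convert ur g hg using 2
    simp only [b, ac, sg_of_zero (nu_inert ov (h.ne_two hl) hd hg), h.mt_inert ov hl hg]
    simp
  have b4 := b3 1 (inP P).one_mem
  let H : Subgroup GQ :=
    { carrier := {g | g ∈ dec P ∧ ‖b g‖ ≤ (1 / 2) ^ k}
      mul_mem' := fun {g j} hg hj => ⟨mul_mem hg.1 hj.1, by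
        exact (congrArg norm (by abel)).trans_le (norm_add_le' (norm_add_le' (b2 g hg.1 j hj.1) hg.2)
          ((h.norm_ac d g _).trans hj.2))⟩
      one_mem' := ⟨one_mem _, b4⟩
      inv_mem' := fun {g} hg => ⟨inv_mem hg.1, by
        have := b2 _ (inv_mem hg.1) g hg.1
        rw [inv_mul_cancel] at this
        exact (congrArg norm (by abel)).trans_le
          (norm_sub_le' (norm_sub_le' b4 this) ((h.norm_ac d g⁻¹ _).trans hg.2))⟩ }
  have cb : ContinuousOn b (dec P) :=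
    ca.sub ((h.ac_cont d continuous_id continuous_const).sub continuous_const).continuousOn
  refine ⟨n, fun g hg => (Aq.frob0 ov hσ (H := H) ?_
    (fun i hi => ⟨P022D.W.inP_le_dec hi, b3 i hi⟩)
    ⟨P022D.W.phi_mem ov.1 ov.2.1 hσ, by rw [b1, norm_zero]; positivity⟩ hg).2⟩
  filter_upwards [self_mem_nhdsWithin, cb 1 (one_mem _)
    (Metric.closedBall_mem_nhds _ (show 0 < (1 / 2 : ℝ) ^ k by positivity))] with g hg e
  exact ⟨hg, (congrArg norm (by abel)).trans_le (norm_add_le' (mem_closedBall_iff_norm.1 e) b4)⟩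

end Vale.Agent.P004S
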