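import Vale.Agent.P004S.Bas

/-!
# P004, block SMITH: reduction modulo two, congruence subgroups, boxes
-/

set_option linter.all false

noncomputable section

namespace Vale.Agent.P004S

open NumberField Matrix Filter Topology
open Vale.Agent.P022 (Qb GQ IsConj Irred UnrAt IsFrob)
open Vale.Agent.P027M.S (Inert)
open Vale.Agent.P022D.W (dec)
open Vale.Agent.P022E.GW (Ov Fb Gn Ch)

variable {r : Rp} {S : Finset ℕ}

/-! ### reduction -/

theorem norm_two : ‖(2 : ℚ_[2])‖ = 1 / 2 := by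
  have := Padic.norm_p (p := 2)
  simpa using this

theorem norm_two_pow (k : ℕ) : ‖(2 : ℚ_[2]) ^ k‖ = (1 / 2) ^ k := by rw [norm_pow, norm_two]

theorem norm_half : ‖(1 / 2 : ℚ_[2])‖ = 2 := by rw [norm_div, norm_one, norm_two]; norm_num

theorem lt_one_iff {x : ℚ_[2]} : ‖x‖ < 1 ↔ ‖x‖ ≤ 1 / 2 := by
  have := Padic.norm_le_pow_iff_norm_lt_pow_add_one x (-1)
  simpa using this.symm

theorem rd_eq_zero {x : ℚ_[2]} : rd x = 0 ↔ ‖x‖ ≤ 1 / 2 := by
  rw [← lt_one_iff, rd]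
  split_ifs with h <;> simp [h]

theorem rd_zero : rd 0 = 0 := rd_eq_zero.2 (by simp)

theorem rd_one : rd 1 = 1 := if_neg (by simp)

theorem rd_neg (x : ℚ_[2]) : rd (-x) = rd x := by simp only [rd, norm_neg]

/-- the reduction is the one of the ring of integers -/
theorem rd_coe (x : ℤ_[2]) : rd x = PadicInt.toZMod x := by
  have h : PadicInt.toZMod x = 0 ↔ ‖(x : ℚ_[2])‖ < 1 := by
    rw [← RingHom.mem_ker, PadicInt.ker_toZMod, IsLocalRing.mem_maximalIdeal]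
    exact PadicInt.mem_nonunits
  unfold rd
  split_ifs with k
  · exact (h.2 k).symm
  · exact ((z2 _).resolve_left fun j => k (h.1 j)).symm

theorem rd_add {x y : ℚ_[2]} (hx : ‖x‖ ≤ 1) (hy : ‖y‖ ≤ 1) : rd (x + y) = rd x + rd y := by
  obtain ⟨a, rfl⟩ : ∃ a : ℤ_[2], (a : ℚ_[2]) = x := ⟨⟨x, hx⟩, rfl⟩
  obtain ⟨b, rfl⟩ : ∃ a : ℤ_[2], (a : ℚ_[2]) = y := ⟨⟨y, hy⟩, rfl⟩
  rw [← PadicInt.coe_add, rd_coe, rd_coe, rd_coe, map_add]

theorem rd_mul {x y : ℚ_[2]} (hx : ‖x‖ ≤ 1) (hy : ‖y‖ ≤ 1) : rd (x * y) = rd x * rd y := by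
  obtain ⟨a, rfl⟩ : ∃ a : ℤ_[2], (a : ℚ_[2]) = x := ⟨⟨x, hx⟩, rfl⟩
  obtain ⟨b, rfl⟩ : ∃ a : ℤ_[2], (a : ℚ_[2]) = y := ⟨⟨y, hy⟩, rfl⟩
  rw [← PadicInt.coe_mul, rd_coe, rd_coe, rd_coe, map_mul]

theorem rd_sub {x y : ℚ_[2]} (hx : ‖x‖ ≤ 1) (hy : ‖y‖ ≤ 1) : rd (x - y) = rd x - rd y := by
  rw [sub_eq_add_neg, rd_add hx (by rwa [norm_neg]), rd_neg, CharTwo.sub_eq_add]

theorem rd_eq_iff {x y : ℚ_[2]} (hx : ‖x‖ ≤ 1) (hy : ‖y‖ ≤ 1) :
    rd x = rd y ↔ ‖x - y‖ ≤ 1 / 2 := by rw [← rd_eq_zero, rd_sub hx hy, sub_eq_zero]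

theorem norm_val_le (a : ZMod 2) : ‖(a.val : ℚ_[2])‖ ≤ 1 := by
  rcases z2 a with rfl | rfl <;> simp [ZMod.val_one]

theorem rd_val (a : ZMod 2) : rd (a.val : ℚ_[2]) = a := by
  rcases z2 a with rfl | rfl
  · simpa using rd_zero
  · simpa [ZMod.val_one] using rd_one

theorem rd_sg (d : ℤ) (g : GQ) : rd (sg d g) = 1 := by
  rcases sg_or d g with h | h <;> rw [h]
  · exact rd_one
  · rw [rd_neg, rd_one]

theorem norm_co {v : V} {c : ℝ} (h : ‖v‖ ≤ c) (i : Fin 2) : ‖v i‖ ≤ c :=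
  (norm_le_pi_norm v i).trans h

theorem rv_eq_zero {v : V} : rv v = 0 ↔ ‖v‖ ≤ 1 / 2 := by
  rw [pi_norm_le_iff_of_nonneg (by norm_num), funext_iff]
  exact forall_congr' fun i => rd_eq_zero

theorem rv_zero : rv 0 = 0 := rv_eq_zero.2 (by simp)

theorem rv_neg (v : V) : rv (-v) = rv v := funext fun i => rd_neg _

theorem rv_add {u v : V} (hu : ‖u‖ ≤ 1) (hv : ‖v‖ ≤ 1) : rv (u + v) = rv u + rv v :=
  funext fun i => rd_add (norm_co hu i) (norm_co hv i)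

theorem rv_sub {u v : V} (hu : ‖u‖ ≤ 1) (hv : ‖v‖ ≤ 1) : rv (u - v) = rv u - rv v :=
  funext fun i => rd_sub (norm_co hu i) (norm_co hv i)

theorem rv_eq_iff {u v : V} (hu : ‖u‖ ≤ 1) (hv : ‖v‖ ≤ 1) : rv u = rv v ↔ ‖u - v‖ ≤ 1 / 2 := by
  rw [← rv_eq_zero, rv_sub hu hv, sub_eq_zero]

theorem rv_smul {a : ℚ_[2]} {v : V} (ha : ‖a‖ ≤ 1) (hv : ‖v‖ ≤ 1) : rv (a • v) = rd a • rv v :=
  funext fun i => rd_mul ha (norm_co hv i)

theorem rv_mulVec {M : Matrix (Fin 2) (Fin 2) ℚ_[2]} (hM : ∀ i j, ‖M i j‖ ≤ 1) {v : V}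
    (hv : ‖v‖ ≤ 1) : rv (M *ᵥ v) = M.map rd *ᵥ rv v := by
  funext i
  have h : ∀ j, ‖M i j * v j‖ ≤ 1 := fun j => by
    rw [norm_mul]; exact mul_le_one₀ (hM i j) (norm_nonneg _) (norm_co hv j)
  simp only [rv, mulVec, dotProduct, Fin.sum_univ_two, map_apply]
  rw [rd_add (h 0) (h 1), rd_mul (hM _ _) (norm_co hv _), rd_mul (hM _ _) (norm_co hv _)]

theorem rd_wp {u v : V} (hu : ‖u‖ ≤ 1) (hv : ‖v‖ ≤ 1) : rd (wp u v) = wp (rv u) (rv v) := by
  have h : ∀ i j, ‖u i * v j‖ ≤ 1 := fun i j => by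
    rw [norm_mul]; exact mul_le_one₀ (norm_co hu i) (norm_nonneg _) (norm_co hv j)
  simp only [wp, rv]
  rw [rd_sub (h _ _) (h _ _), rd_mul (norm_co hu _) (norm_co hv _),
    rd_mul (norm_co hu _) (norm_co hv _)]

/-- the standard lift -/
def lf (e : W) : V := fun i => ((e i).val : ℚ_[2])

theorem norm_lf (e : W) : ‖lf e‖ ≤ 1 :=
  (pi_norm_le_iff_of_nonneg zero_le_one).2 fun i => norm_val_le _

theorem rv_lf (e : W) : rv (lf e) = e := funext fun i => rd_val _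

theorem Rep.rv_mt (h : Rep r S) (g : GQ) {v : V} (hv : ‖v‖ ≤ 1) :
    rv (mt r g *ᵥ v) = rb r g *ᵥ rv v := rv_mulVec (h.int g) hv

theorem Rep.rv_ac (h : Rep r S) (d : ℤ) (g : GQ) {v : V} (hv : ‖v‖ ≤ 1) :
    rv (ac r d g v) = rb r g *ᵥ rv v := by
  rw [ac, rv_smul (norm_sg d g).le ((h.norm_mt g v).trans hv), rd_sg, one_smul, h.rv_mt g hv]

theorem rb_one (r : Rp) : rb r 1 = 1 := by
  ext i j
  rw [rb, mt_one, map_apply, one_apply, one_apply]
  split_ifs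
  · exact rd_one
  · exact rd_zero

theorem Rep.rb_mul (h : Rep r S) (g k : GQ) : rb r (g * k) = rb r g * rb r k := by
  refine ext_of_mulVec_single fun i => ?_
  rw [← mulVec_mulVec, ← rv_lf (Pi.single i 1), ← h.rv_mt _ (norm_lf _), ← h.rv_mt _ (norm_lf _),
    ← h.rv_mt _ ((h.norm_mt _ _).trans (norm_lf _)), mt_mul, mulVec_mulVec]

theorem Rep.norm_ep (h : Rep r S) (g : GQ) : ‖ep r g‖ = 1 := by
  have k : ∀ g, ‖ep r g‖ ≤ 1 := fun g => by
    rw [ep, det_fin_two]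
    refine norm_sub_le' ?_ ?_ <;> rw [norm_mul] <;>
      exact mul_le_one₀ (h.int _ _ _) (norm_nonneg _) (h.int _ _ _)
  have e : ‖ep r g‖ * ‖ep r g⁻¹‖ = 1 := by rw [← norm_mul, ← ep_mul, mul_inv_cancel, ep_one, norm_one]
  nlinarith [k g, k g⁻¹, norm_nonneg (ep r g), norm_nonneg (ep r g⁻¹)]

theorem Rep.wp_rb (h : Rep r S) (g : GQ) (u v : W) : wp (rb r g *ᵥ u) (rb r g *ᵥ v) = wp u v := by
  rw [← rv_lf u, ← rv_lf v, ← h.rv_mt g (norm_lf _), ← h.rv_mt g (norm_lf _),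
    ← rd_wp ((h.norm_mt _ _).trans (norm_lf _)) ((h.norm_mt _ _).trans (norm_lf _)), wp_mulVec,
    rd_mul (show ‖(mt r g).det‖ ≤ 1 from (h.norm_ep g).le) ((norm_wp_le _ _).trans (mul_le_one₀ (norm_lf _) (norm_nonneg _)
      (norm_lf _))), rd_wp (norm_lf _) (norm_lf _)]
  have : rd (mt r g).det = 1 := if_neg (by rw [show ‖(mt r g).det‖ = 1 from h.norm_ep g]; simp)
  rw [this, one_mul]

theorem rd_lc : IsLocallyConstant rd := by
  refine (IsLocallyConstant.iff_exists_open rd).2 fun x => ⟨Metric.ball x 1, Metric.isOpen_ball,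
    Metric.mem_ball_self one_pos, fun y hy => ?_⟩
  have h : ‖y - x‖ < 1 := by simpa [dist_eq_norm] using hy
  have k : ‖y‖ < 1 ↔ ‖x‖ < 1 := by
    constructor <;> intro k
    · rw [show x = y - (y - x) by ring, lt_one_iff]
      exact norm_sub_le' (lt_one_iff.1 k) (lt_one_iff.1 h)
    · rw [show y = x + (y - x) by ring, lt_one_iff]
      exact norm_add_le' (lt_one_iff.1 k) (lt_one_iff.1 h)
  simp only [rd, k]

theorem rv_lc {X : Type} [TopologicalSpace X] {a : X → V} (ha : Continuous a) :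
    IsLocallyConstant fun x => rv (a x) := by
  have h := fun i => rd_lc.comp_continuous ((continuous_apply i).comp ha)
  have k := ((h 0).prodMk (h 1)).comp (fun z : ZMod 2 × ZMod 2 => (![z.1, z.2] : W))
  convert k using 1
  funext x i
  fin_cases i <;> rfl

/-! ### congruence subgroups -/

theorem Tr.norm {n : ℕ} {g : GQ} (h : Tr r n g) (v : V) :
    ‖mt r g *ᵥ v - v‖ ≤ (1 / 2) ^ n * ‖v‖ := by
  have := norm_mulVec_le h v
  rwa [sub_mulVec, one_mulVec] at this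

theorem tr_iff {n : ℕ} {g : GQ} :
    Tr r n g ↔ ∀ v : V, ‖mt r g *ᵥ v - v‖ ≤ (1 / 2) ^ n * ‖v‖ := by
  refine ⟨Tr.norm, fun h i j => ?_⟩
  have k := norm_co (h (Pi.single j 1)) i
  rw [Pi.norm_single, norm_one, mul_one] at k
  simpa [Matrix.sub_apply, one_apply, Pi.single_apply] using k

theorem Tr.mono {n k : ℕ} {g : GQ} (h : Tr r n g) (hk : k ≤ n) : Tr r k g := fun i j =>
  (h i j).trans (pow_le_pow_of_le_one (by norm_num) (by norm_num) hk)

theorem tr_of_eq {n : ℕ} {g : GQ} (h : mt r g = 1) : Tr r n g := fun i j => by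
  rw [h, sub_self]; simp

theorem Rep.tr_mul (h : Rep r S) {n : ℕ} {g k : GQ} (hg : Tr r n g) (hk : Tr r n k) :
    Tr r n (g * k) := tr_iff.2 fun v => by
  rw [mt_mul, ← mulVec_mulVec, show mt r g *ᵥ mt r k *ᵥ v - v =
    mt r g *ᵥ (mt r k *ᵥ v - v) + (mt r g *ᵥ v - v) by rw [mulVec_sub]; abel]
  exact norm_add_le' ((h.norm_mt _ _).trans (hk.norm v)) (hg.norm v)

theorem Rep.tr_conj (h : Rep r S) {n : ℕ} {k : GQ} (hk : Tr r n k) (g : GQ) :
    Tr r n (g * k * g⁻¹) := tr_iff.2 fun v => by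
  have e : mt r g *ᵥ mt r g⁻¹ *ᵥ v = v := by
    rw [mulVec_mulVec, ← mt_mul, mul_inv_cancel, mt_one, one_mulVec]
  rw [mt_mul, mt_mul, ← mulVec_mulVec, ← mulVec_mulVec]
  nth_rewrite 2 [← e]
  rw [← mulVec_sub]
  exact (h.norm_mt _ _).trans ((hk.norm _).trans
    (mul_le_mul_of_nonneg_left (h.norm_mt _ _) (by positivity)))

theorem Rep.tr_inv (h : Rep r S) {n : ℕ} {g : GQ} (hg : Tr r n g) : Tr r n g⁻¹ :=
  tr_iff.2 fun v => by
    have e : mt r g⁻¹ *ᵥ mt r g *ᵥ v = v := by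
      rw [mulVec_mulVec, ← mt_mul, inv_mul_cancel, mt_one, one_mulVec]
    nth_rewrite 2 [← e]
    rw [← mulVec_sub]
    exact (h.norm_mt _ _).trans (by rw [norm_sub_rev]; exact hg.norm v)

/-- the congruence subgroup of level `2 ^ n` -/
def Rep.Kn (h : Rep r S) (n : ℕ) : Subgroup GQ where
  carrier := {g | Tr r n g}
  mul_mem' := h.tr_mul
  one_mem' := tr_of_eq (mt_one r)
  inv_mem' := h.tr_inv

theorem Rep.mem_Kn (h : Rep r S) {n : ℕ} {g : GQ} : g ∈ h.Kn n ↔ Tr r n g := Iff.rfl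

theorem Rep.Kn_normal (h : Rep r S) (n : ℕ) : (h.Kn n).Normal := ⟨fun k hk g => h.tr_conj hk g⟩

theorem Rep.Kn_open (h : Rep r S) (n : ℕ) : IsOpen (h.Kn n : Set GQ) := by
  have e : (h.Kn n : Set GQ) = ⋂ i, ⋂ j,
      (fun g => (mt r g - 1) i j) ⁻¹' Metric.closedBall 0 ((1 / 2) ^ n) := by
    ext g
    simp only [SetLike.mem_coe, h.mem_Kn, Tr, Set.mem_iInter, Set.mem_preimage, mem_closedBall_zero_iff]
  rw [e]
  exact isOpen_iInter_of_finite fun i => isOpen_iInter_of_finite fun j =>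
    (IsUltrametricDist.isOpen_closedBall _ (by positivity)).preimage
      ((h.cont i j).sub continuous_const)

theorem Rep.Kn_uns (h : Rep r S) (n : ℕ) : UnS S (h.Kn n) := fun l P ho hl g hg =>
  tr_of_eq (h.mt_inert ho hl hg)

theorem Rep.tr_one_iff (h : Rep r S) {g : GQ} : Tr r 1 g ↔ rb r g = 1 := by
  rw [← rb_one r, ← ext_iff]
  refine forall₂_congr fun i j => ?_
  rw [rb, rb, map_apply, map_apply, rd_eq_iff (h.int _ _ _) (h.int _ _ _), mt_one, pow_one,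
    Matrix.sub_apply]

theorem Rep.rb_lc (h : Rep r S) : IsLocallyConstant (rb r) :=
  lc_of_open (h.Kn_open 1) (one_mem _) fun g u hu => by
    rw [h.rb_mul, h.tr_one_iff.1 hu, mul_one]

theorem idx_ne {H : Subgroup GQ} (hH : IsOpen (H : Set GQ)) : H.index ≠ 0 :=
  by
  have := H.quotient_finite_of_isOpen hH
  exact Subgroup.index_ne_zero_of_finite

/-- the field of `r` modulo `2` has degree at most `16` -/
theorem Rep.Kn_one_index (h : Rep r S) : (h.Kn 1).index ≤ 16 := by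
  let f : GQ →* Matrix (Fin 2) (Fin 2) (ZMod 2) := ⟨⟨rb r, rb_one r⟩, h.rb_mul⟩
  have e : h.Kn 1 = f.toHomUnits.ker := by
    ext g
    rw [h.mem_Kn, h.tr_one_iff, MonoidHom.mem_ker, Units.ext_iff]
    rfl
  rw [e, Subgroup.index_ker]
  refine (Nat.card_le_card_of_injective (fun x => (x.1 : Matrix (Fin 2) (Fin 2) (ZMod 2)))
    fun x y k => Subtype.ext (Units.ext k)).trans ?_
  simp [Matrix]

/-! ### boxes -/

theorem Equi.mono {pl : Pl} {X : Finset ℕ} {n n' : ℕ} {L L' κ κ' : ℝ} (h : Equi pl X n L κ)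
    (hn : n' ≤ n) (hL : L' ≤ L) (hκ : κ ≤ κ') : Equi pl X n' L' κ' :=
  fun H ξ T h1 h2 h3 h4 h5 h6 => (h H ξ T h1 (h2.trans hn) h3 (h4.trans hL) h5 h6).trans
    (mul_le_mul_of_nonneg_right hκ (Nat.cast_nonneg _))

theorem Fam.ne {ι : Type} {m : ℤ} {X : ι → Finset ℕ} {L : ℝ} (h : Fam S m X L) : m ≠ 0 :=
  h.sq.ne_zero

theorem Fam.L_nonneg {ι : Type} {m : ℤ} {X : ι → Finset ℕ} {L : ℝ} (h : Fam S m X L) : 0 ≤ L :=
  (Finset.sum_nonneg fun l _ => Real.log_natCast_nonneg l).trans h.lS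

theorem Fam.inj {ι : Type} {m : ℤ} {X : ι → Finset ℕ} {L : ℝ} (h : Fam S m X L) {y : ι → ℕ}
    (hy : ∀ i, y i ∈ X i) : Function.Injective y := fun i j k => h.dj i j _ (hy i) (k ▸ hy j)

theorem Fam.dvd_iff {ι : Type} [Fintype ι] {m : ℤ} {X : ι → Finset ℕ} {L : ℝ} (h : Fam S m X L)
    {y : ι → ℕ} (hy : ∀ i, y i ∈ X i) {l : ℕ} (hl : l.Prime) :
    (l : ℤ) ∣ dd m y ↔ (l : ℤ) ∣ m ∨ ∃ i, y i = l := by
  have hp := Nat.prime_iff_prime_int.1 hl
  rw [dd, hp.dvd_mul, hp.dvd_finset_prod_iff]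
  refine or_congr Iff.rfl (exists_congr fun i => ?_)
  rw [Int.natCast_dvd_natCast, Nat.prime_dvd_prime_iff_eq hl (h.pm i _ (hy i)).1]
  simp [eq_comm]

theorem Fam.sqf {ι : Type} [Fintype ι] {m : ℤ} {X : ι → Finset ℕ} {L : ℝ} (h : Fam S m X L)
    {y : ι → ℕ} (hy : ∀ i, y i ∈ X i) : Squarefree (dd m y) := by
  have hp := fun i => Nat.prime_iff_prime_int.1 (h.pm i _ (hy i)).1
  refine squarefree_mul_iff.2 ⟨?_, h.sq, ?_⟩
  · exact (IsCoprime.prod_right fun i _ =>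
      ((hp i).irreducible.coprime_iff_not_dvd.2 (h.pm i _ (hy i)).2.2.1).symm).isRelPrime
  · refine Finset.squarefree_prod_of_pairwise_isCoprime (fun i _ j _ k => ?_)
      fun i _ => (hp i).squarefree
    exact (Nat.isCoprime_iff_coprime.2 ((Nat.coprime_primes (h.pm i _ (hy i)).1
      (h.pm j _ (hy j)).1).2 fun e => k (h.inj hy e))).isRelPrime

theorem Nice.le {pl : Pl} {A : ℕ} {B : Box} (h : Nice pl S A B) : A ≤ B.s :=
  (Nat.le_mul_of_pos_right A (Nat.succ_pos _)).trans h.len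

theorem Nice.mono {pl : Pl} {A A' : ℕ} {B : Box} (h : Nice pl S A B) (h1 : 1 ≤ A')
    (hA : A' ≤ A) : Nice pl S A' B := by
  have r1 : (1 : ℝ) ≤ A' := by exact_mod_cast h1
  have r2 : (A' : ℝ) ≤ A := by exact_mod_cast hA
  refine ⟨h.fam, (Nat.mul_le_mul_right _ hA).trans h.len,
    fun i => (Nat.pow_le_pow_left hA _).trans (h.big i), fun i => (h.equ i).mono
      (Nat.pow_le_pow_left hA _) ?_ ?_⟩
  · exact mul_le_mul_of_nonneg_right (mul_le_mul_of_nonneg_right r2 (by positivity)) h.fam.L_nonneg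
  · exact pow_le_pow_left₀ (by positivity) (one_div_le_one_div_of_le (by linarith) r2) _

theorem Box.card_pts (B : Box) : B.pts.card = ∏ i, (B.X i).card := Fintype.card_piFinset _

/-- the constant of `Few` can be taken large -/
theorem Few.ev {pl : Pl} {θ : ℝ} {E : (B : Box) → (Fin B.s → ℕ) → Prop} (h : Few pl S θ E) {ε : ℝ}
    (hε : 0 < ε) : ∃ A₀ : ℕ, 1 ≤ A₀ ∧ ∀ A, A₀ ≤ A → ∀ B : Box, Nice pl S A B →
      ((@Finset.filter _ (E B) (Classical.decPred _) B.pts).card : ℝ) ≤ (θ + ε) * B.pts.card := by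
  obtain ⟨A, hA⟩ := h ε hε
  rcases A.eq_zero_or_pos with rfl | k
  · refine ⟨1, le_rfl, fun A' h1 B hB => hA B ⟨hB.fam, by simp, fun i => ?_, fun i => ?_⟩⟩
    · have : B.s ≠ 0 := by have := hB.le; omega
      simp [this]
    · have : B.s ≠ 0 := by have := hB.le; omega
      intro H ξ T h1 h2
      exact absurd (by simpa [this] using h2) (idx_ne h1)
  · exact ⟨A, k, fun A' h1 B hB => hA B (hB.mono k h1)⟩

theorem Few.mono {pl : Pl} {θ θ' : ℝ} {E E' : (B : Box) → (Fin B.s → ℕ) → Prop}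
    (h : Few pl S θ E) (hθ : θ ≤ θ') (A₀ : ℕ)
    (hE : ∀ B, Nice pl S (A₀ + 1) B → ∀ y ∈ B.pts, E' B y → E B y) : Few pl S θ' E' := by
  classical
  intro ε hε
  obtain ⟨A, h1, hA⟩ := h.ev hε
  refine ⟨max A (A₀ + 1), fun B hB => le_trans ?_ ((hA _ (le_max_left _ _) B hB).trans
    (mul_le_mul_of_nonneg_right (by linarith) (Nat.cast_nonneg _)))⟩
  refine Nat.cast_le.2 (Finset.card_le_card fun y hy => ?_)
  simp only [Finset.mem_filter] at hy ⊢
  exact ⟨hy.1, hE B (hB.mono (Nat.succ_pos _) (le_max_right _ _)) y hy.1 hy.2⟩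

theorem Few.or {pl : Pl} {θ θ' : ℝ} {E E' : (B : Box) → (Fin B.s → ℕ) → Prop}
    (h : Few pl S θ E) (h' : Few pl S θ' E') : Few pl S (θ + θ') fun B y => E B y ∨ E' B y := by
  classical
  intro ε hε
  obtain ⟨A, h1, hA⟩ := h.ev (half_pos hε)
  obtain ⟨A', h1', hA'⟩ := h'.ev (half_pos hε)
  refine ⟨max A A', fun B hB => ?_⟩
  have k := hA _ (le_max_left _ _) B hB
  have k' := hA' _ (le_max_right _ _) B hB
  have e : (@Finset.filter _ (fun y => E B y ∨ E' B y) (Classical.decPred _) B.pts).card ≤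
      (@Finset.filter _ (E B) (Classical.decPred _) B.pts).card +
        (@Finset.filter _ (E' B) (Classical.decPred _) B.pts).card := by
    refine le_trans (Finset.card_le_card fun y hy => ?_) (Finset.card_union_le _ _)
    simp only [Finset.mem_filter, Finset.mem_union] at hy ⊢
    tauto
  have e' := (Nat.cast_le (α := ℝ)).2 e
  push_cast at e'
  refine (e'.trans (add_le_add k k')).trans (le_of_eq ?_)
  ring

theorem Few.none (pl : Pl) (S : Finset ℕ) : Few pl S 0 fun _ _ => False := fun ε hε =>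
  ⟨0, fun B _ => by simp; positivity⟩

theorem Few.ex {pl : Pl} {θ : ℝ} {ι : Type} (T : Finset ι)
    {E : ι → (B : Box) → (Fin B.s → ℕ) → Prop} (h : ∀ i ∈ T, Few pl S θ (E i)) :
    Few pl S (T.card * θ) fun B y => ∃ i ∈ T, E i B y := by
  classical
  induction T using Finset.induction_on with
  | empty => exact (Few.none pl S).mono (by simp) 0 fun B _ y _ k => by simp at k
  | insert i T hi ih =>
    refine ((h i (Finset.mem_insert_self _ _)).or
      (ih fun j hj => h j (Finset.mem_insert_of_mem hj))).mono ?_ 0 fun B _ y _ k => ?_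
    · rw [Finset.card_insert_of_notMem hi]; push_cast; linarith
    · simpa using k

theorem Few.of_small {pl : Pl} {E : (B : Box) → (Fin B.s → ℕ) → Prop}
    (h : ∀ θ : ℝ, 0 < θ → Few pl S θ E) : Few pl S 0 E := fun ε hε => by
  obtain ⟨A, hA⟩ := h _ (half_pos hε) _ (half_pos hε)
  exact ⟨A, fun B hB => by simpa using hA B hB⟩

end Vale.Agent.P004S
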