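import Vale.Agent.P004S.Bas
import Vale.Agent.P004S.A.Coh

/-!
# P004, block SMITH: the rows REC and ONEK (helper25)
-/

set_option linter.all false

noncomputable section

namespace Vale.Agent.P004S

open NumberField Matrix Filter Topology
open Vale.Agent.P022 (Qb GQ IsConj Irred UnrAt IsFrob)
open Vale.Agent.P022K
open Vale.Agent.P027M.S (Inert)
open Vale.Agent.P022D.W (dec inP_le_dec)
open Vale.Agent.P022.H443 (inP)
open Vale.Agent.P022E.GW (Ov Fb Gn Ch)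

namespace Rc

theorem cn_of (P : ℕ → Ideal (𝓞 Qb)) (hP : ∀ p, p.Prime → Ov p (P p)) (w : InfinitePlace Qb) :
    ∃ c : Ga.Cn, c.P = P ∧ c.w = w := by
  have h1 : ∀ p : ℕ, ∃ φ, p.Prime → Fb p (P p) φ := fun p => by
    by_cases hp : p.Prime
    · exact (P022D.W.exists_phi hp (hP p hp).2.1 (hP p hp).2.2).imp fun _ h _ => h
    · exact ⟨1, fun h => absurd h hp⟩
  have h2 : ∀ p : ℕ, ∃ t, p.Prime → p ≠ 2 → Inert (P p) t ∧ G2.ka 2 (p : Qb) t = 1 := fun p => by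
    by_cases hp : p.Prime ∧ p ≠ 2
    · exact (G2.ex_tau (p := 2) (hP p hp.1) hp.2).imp fun _ h _ _ => h
    · exact ⟨1, fun h k => absurd ⟨h, k⟩ hp⟩
  choose φ hφ using h1
  choose t ht using h2
  exact ⟨⟨P, φ, t, w, hP, hφ, ht⟩, rfl, rfl⟩

theorem ka_nu {l : ℕ} (hl : l.Prime) (g : GQ) : G2.ka 2 (l : Qb) g = nu l g := by
  obtain ⟨w, hw⟩ := ex_sqrt (l : ℤ)
  have := (G2.ka_eq_zero (p := 2) (Nat.cast_ne_zero.2 hl.ne_zero) (by exact_mod_cast hw) (Aq.gz g)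
    (map_natCast g l)).trans (nu_eq_zero hw).symm
  revert this
  generalize G2.ka 2 (l : Qb) g = a
  generalize nu l g = b
  revert a b
  decide

variable {l : ℕ} {P : Ideal (𝓞 Qb)} {τ : GQ} {M : Type} [AddCommGroup M] [Module (ZMod 2) M]

theorem tame (h : Ov l P) (h2 : l ≠ 2) (hτ : Gn l P τ) {f : GQ → M}
    (ad : ∀ g j, Inert P g → Inert P j → f (g * j) = f g + f j)
    (lc : IsLocallyConstant fun x : dec P => f x) {g : GQ} (hg : Inert P g) :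
    f g = nu l g • f τ := by
  obtain ⟨W, hW, e⟩ := G2.c1_of_lc (F := ZMod 2) (G2.dec_closed P) lc
  have f1 : f 1 = 0 := by simpa using ad 1 1 (inP P).one_mem (inP P).one_mem
  obtain ⟨n, hn⟩ := (G2.tam 2 l P h h2).2.2 (ZMod 2) M f ad ⟨W, hW, fun w m hw => by
    rw [← one_mul w, e 1 (one_mem _) w (inP_le_dec hw) m, f1]⟩
  simp only [ZMod.castHom_self, RingHom.id_apply, ka_nu h.1] at hn
  rw [hn τ hτ.1, nu_gn h hτ, one_smul, hn g hg]

variable {ρ : GQ →* M →ₗ[ZMod 2] M} {B : M →ₗ[ZMod 2] M →ₗ[ZMod 2] ZMod 2} {a b : GQ → M}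
  {D : Subgroup GQ}

/-- locally constant functions which are cocycles on `D` -/
structure Co (ρ : GQ →* M →ₗ[ZMod 2] M) (D : Subgroup GQ) (a : GQ → M) : Prop where
  lc : IsLocallyConstant a
  co : ∀ g ∈ D, ∀ h ∈ D, a (g * h) = a g + ρ g (a h)

theorem Co.one (h : Co ρ D a) : a 1 = 0 := by
  simpa using h.co 1 (one_mem _) 1 (one_mem _)

/-- the cup product -/
def cu (ρ : GQ →* M →ₗ[ZMod 2] M) (B : M →ₗ[ZMod 2] M →ₗ[ZMod 2] ZMod 2) (a b : GQ → M)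
    (g h : GQ) : ZMod 2 := B (a g) (ρ g (b h))

theorem cu_z2 (hD : IsClosed (D : Set GQ)) (hρ : IsLocallyConstant ρ)
    (hB : ∀ g x y, B (ρ g x) (ρ g y) = B x y) (ha : Co ρ D a) (hb : Co ρ D b) :
    cu ρ B a b ∈ G2.Z2 ∅ D (G2.tr GQ (ZMod 2)) := by
  refine ⟨fun g hg h hh j hj => ?_, G2.c2_of_lc hD ?_⟩
  · simp only [G2.tr_apply, cu, ha.co g hg h hh, hb.co h hh j hj, map_add, map_mul,
      LinearMap.add_apply, Module.End.mul_apply, hB]
    ring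
  · have c1 : Continuous fun x : D × D => (x.1 : GQ) := by fun_prop
    have c2 : Continuous fun x : D × D => (x.2 : GQ) := by fun_prop
    exact (((ha.lc.comp_continuous c1).prodMk (hρ.comp_continuous c1)).prodMk
      (hb.lc.comp_continuous c2)).comp fun x => B x.1.1 (x.1.2 x.2)

theorem cu_unr (h : Ov l P) (hρ : IsLocallyConstant ρ) (hB : ∀ g x y, B (ρ g x) (ρ g y) = B x y)
    (ur : ∀ g, Inert P g → ρ g = 1) (ha : Co ρ (dec P) a) (hb : Co ρ (dec P) b)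
    (ua : ∀ g, Inert P g → a g = 0) (ub : ∀ g, Inert P g → b g = 0) :
    cu ρ B a b ∈ G2.B2 ∅ (dec P) (G2.tr GQ (ZMod 2)) := by
  have := G2.unr 2 (ZMod 2) ⊤ l P (cu ρ B a b) isOpen_univ h
    (by rw [top_inf_eq]; exact cu_z2 (G2.dec_closed P) hρ hB ha hb) fun g hg j hj i _ m => by
      simp only [cu, ha.co g hg.2 i (inP_le_dec m), hb.co j hj.2 i (inP_le_dec m), ua i m, ub i m,
        map_mul, ur i m, map_zero, add_zero, mul_one, and_self]
  rwa [top_inf_eq] at this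

theorem split (h : Ov l P) (h2 : l ≠ 2) (hτ : Gn l P τ) (ur : ∀ g, Inert P g → ρ g = 1)
    (ha : Co ρ (dec P) a) : (∀ g ∈ dec P, ρ g (a τ) = a τ) ∧
      Co ρ (dec P) (fun g => a g - nu l g • a τ) ∧ ∀ g, Inert P g → a g - nu l g • a τ = 0 := by
  have t : ∀ g, Inert P g → a g = nu l g • a τ := fun g hg => tame h h2 hτ (fun g j hg hj => by
    rw [ha.co g (inP_le_dec hg) j (inP_le_dec hj), ur g hg, Module.End.one_apply])
    (ha.lc.comp_continuous continuous_subtype_val) hg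
  have fx : ∀ g ∈ dec P, ρ g (a τ) = a τ := fun g hg => by
    have m := inP_le_dec hτ.1
    have e := t _ (P022D.W.conj_inP hg hτ.1)
    have e1 := ha.co g hg g⁻¹ (inv_mem hg)
    rw [nu_conj, nu_gn h hτ, one_smul, ha.co _ (mul_mem hg m) _ (inv_mem hg), ha.co g hg τ m,
      map_mul, ur τ hτ.1, mul_one, add_right_comm, ← e1, mul_inv_cancel, ha.one, zero_add] at e
    exact e
  refine ⟨fx, ⟨(ha.lc.prodMk (nu_lc l)).comp fun x => x.1 - x.2 • a τ, fun g hg j hj => ?_⟩,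
    fun g hg => sub_eq_zero.2 (t g hg)⟩
  rw [ha.co g hg j hj, nu_mul, map_sub, map_smul, fx g hg, add_smul]
  abel

theorem ch_of (hD : IsClosed (D : Set GQ)) (ha : Co ρ D a) (f : M →ₗ[ZMod 2] ZMod 2)
    (hf : ∀ g ∈ D, ∀ x, f (ρ g x) = f x) : G2.Ch D fun g => f (a g) :=
  (G2.ch_iff hD).1 ⟨(ha.lc.comp_continuous continuous_subtype_val).comp f, fun x y => by
    simp only [Subgroup.coe_mul]
    rw [ha.co x x.2 y y.2, map_add, hf x x.2]⟩

theorem nm_iff (n : ℕ) (x : ℚ_[2]) : ‖x‖ ≤ (1 / 2) ^ n ↔ ((2 : ℚ_[2]) ^ n)⁻¹ * x ∈ Ga.O := by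
  have : ‖((2 : ℕ) : ℚ_[2])‖ = ((2 : ℕ) : ℝ)⁻¹ := Padic.norm_p
  rw [Ga.mem_O, norm_mul, norm_inv, norm_pow, show (2 : ℚ_[2]) = ((2 : ℕ) : ℚ_[2]) by norm_num, this,
    inv_mul_le_iff₀ (by positivity)]
  simp

theorem ep_cy {r : Rp} {S : Finset ℕ} (h : Rep r S) (hc : Cyc r) (g : GQ) : ep r g = Aq.cy g := by
  have m : ep r g ∈ Ga.O := by
    rw [ep, det_fin_two]
    exact sub_mem (Aq.O_mul (h.int g 0 0) (h.int g 1 1)) (Aq.O_mul (h.int g 0 1) (h.int g 1 0))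
  obtain ⟨e, he⟩ := Aq.O_ex m
  rw [← he, Aq.cy_apply]
  refine congrArg _ (PadicInt.ext_of_toZModPow.1 fun n => ?_)
  obtain ⟨ζ, hζ⟩ := Aq.ex_prim n
  have e1 := hc g n (PadicInt.toZModPow n e).val ζ hζ.pow_eq_one ((nm_iff n _).2 (by
    have := (Aq.dv_iff n (e - (PadicInt.toZModPow n e).val)).1 (by simp)
    rwa [PadicInt.coe_sub, PadicInt.coe_natCast, he] at this))
  have := (isOfFinOrder_iff_pow_eq_one.2 ⟨_, by positivity, hζ.pow_eq_one⟩).pow_eq_pow_iff_modEq.1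
    (e1.symm.trans (Aq.cz_spec g hζ.pow_eq_one))
  rw [← hζ.eq_orderOf, ← ZMod.natCast_eq_natCast_iff, ZMod.natCast_zmod_val,
    ZMod.natCast_zmod_val] at this
  exact this

end Rc

open Rc

theorem rec0 : REC := by
  classical
  intro pl M _ _ _ ρ B S T T' Θ κ hρ hB h2 ur l1 c1 l2 c2 hT hT' u1 u2 hS ⟨cj, ⟨φ, hφ⟩, hc⟩
  obtain ⟨c, cP, cw⟩ := cn_of pl.P pl.ov (.mk φ)
  have a1 : ∀ D, Co ρ D Θ := fun D => ⟨l1, fun g _ h _ => c1 g h⟩
  have a2 : ∀ D, Co ρ D κ := fun D => ⟨l2, fun g _ h _ => c2 g h⟩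
  have hz := cu_z2 (D := ⊤) isClosed_univ hρ hB (a1 _) (a2 _)
  have pr : ∀ i : (T ∪ T' : Finset ℕ), i.1.Prime ∧ i.1 ∉ S := fun i =>
    (Finset.mem_union.1 i.2).elim (fun m => ⟨(hT _ m).1, (hT _ m).2.1⟩) (hT' _)
  have n2 : ∀ i : (T ∪ T' : Finset ℕ), i.1 ≠ 2 := fun i e => (pr i).2 (e ▸ h2)
  have key := G2.one P022E.GW.oneC (G2.uch 2) (G2.tam 2) (ZMod 2) ⊤ (cu ρ B Θ κ)
    (T ∪ T' : Finset ℕ) (fun i => i) (fun i => pl.P i) (fun i => pl.σ i)
    (fun i g => if i.1 ∈ T then B (Θ (pl.τ i)) (κ g) else B (Θ g) (κ (pl.τ i)))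
    (fun i => nu i) (fun _ => 1) isOpen_univ (by rwa [G2.ch_om_two])
    (fun i => ⟨pl.ov i (pr i).1, n2 i, pl.fb i (pr i).1, le_inf le_top (G2.le_gz_two _)⟩)
    (fun i j g _ e => Subtype.ext
      (GW.Pl.ov_uniq (GW.ov_smul (pl.ov i (pr i).1) g) (e ▸ pl.ov j (pr j).1)))
    (fun i => ?_) fun x hx n => ?_
  · rw [← key, Finset.sum_coe_sort (T ∪ T') fun i => (if i ∈ T then B (Θ (pl.τ i)) (κ (pl.σ i))
      else B (Θ (pl.σ i)) (κ (pl.τ i))) * 1,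
      Finset.sum_union (Finset.disjoint_left.2 fun q m => (hT q m).2.2)]
    congr 1 <;> refine Finset.sum_congr rfl fun q m => ?_
    · rw [if_pos m, mul_one]
    · rw [if_neg fun k => (hT q k).2.2 m, mul_one]
  · have ov := pl.ov i (pr i).1
    have gn := pl.gn i (pr i).1 (n2 i)
    have cl := G2.dec_closed (pl.P i)
    have ur := ur i _ ov (pr i).2
    have kc := (G2.ch_iff cl).1 (nu_ch i _)
    have k0 : ∀ g, nu i g = ZMod.castHom (dvd_refl 2) (ZMod 2) (G2.ka 2 (i : Qb) g) * 1 := fun g => by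
      rw [ZMod.castHom_self, RingHom.id_apply, ka_nu ov.1, mul_one]
    by_cases m : i.1 ∈ T
    · simp only [if_pos m]
      obtain ⟨s1, s2, s3⟩ := split ov (n2 i) gn ur (a1 _)
      have u2 := u2 i _ ov ⟨(pr i).2, (hT _ m).2.2⟩
      have f : ∀ g ∈ dec (pl.P i), ∀ x, B (Θ (pl.τ i)) (ρ g x) = B (Θ (pl.τ i)) x := fun g hg x => by
        rw [← hB g _ x, s1 g hg]
      have uc := ch_of cl (a2 _) _ f
      refine ⟨uc, kc, fun g hg => ⟨by rw [u2 g hg, map_zero], k0 g⟩, G2.B2.congr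
        (add_mem (cu_unr ov hρ hB ur s2 (a2 _) s3 u2) (G2.cup_skew uc kc))
        (fun g hg j _ => ?_) fun _ _ => rfl⟩
      simp only [Pi.sub_apply, Pi.add_apply, G2.cup, cu, map_sub, map_smul, LinearMap.sub_apply,
        LinearMap.smul_apply, f g hg, smul_eq_mul, CharTwo.sub_eq_add]
      ring_nf
      simp [show (2 : ZMod 2) = 0 from rfl]
    · simp only [if_neg m]
      obtain ⟨s1, s2, s3⟩ := split ov (n2 i) gn ur (a2 _)
      have u1 := u1 i _ ov ⟨(pr i).2, m⟩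
      have uc := ch_of cl (a1 _) (B.flip (κ (pl.τ i))) fun g hg x => by
        rw [LinearMap.flip_apply, LinearMap.flip_apply, ← hB g x, s1 g hg]
      refine ⟨uc, kc, fun g hg => ⟨by rw [u1 g hg, map_zero, LinearMap.zero_apply], k0 g⟩,
        G2.B2.congr (cu_unr ov hρ hB ur (a1 _) s2 u1 s3) (fun g hg j _ => ?_) fun _ _ => rfl⟩
      simp only [Pi.sub_apply, G2.cup, cu, map_sub, map_smul, s1 g hg, smul_eq_mul, mul_comm]
  · obtain ⟨v, hv, m⟩ := Aq.ab_pl hx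
    rw [G2.ch_om_two]
    refine Aq.loc_all c hz hv ?_ m
    have z0 : ∀ D : Subgroup GQ, (∀ g ∈ D, Θ g = 0) →
        cu ρ B Θ κ ∈ G2.B2 ∅ D (G2.tr GQ (ZMod 2)) := fun D h =>
      G2.b2_of_zero fun g hg j _ => by rw [cu, h g hg, map_zero, LinearMap.zero_apply]
    rcases hv with rfl | hv
    · refine z0 _ fun g hg => ?_
      rw [Aq.D_zero, cw, ← SetLike.mem_coe, G2.st_conj hφ] at hg
      rcases hg with rfl | rfl
      exacts [(a1 ⊤).one, hc]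
    rw [Aq.D_prime c hv, cP]
    by_cases s : v ∈ S
    · exact z0 _ (hS v s hv)
    have ov := pl.ov v hv
    have nm : v ∉ T ∪ T' := fun k => by
      obtain ⟨g, e⟩ := G2.Plc.ab_trans (G2.mem_ab_fp.2 ⟨v, rfl, ov⟩) m
      exact n ⟨v, k⟩ g trivial e
    exact cu_unr ov hρ hB (ur v _ ov s) (a1 _) (a2 _)
      (u1 v _ ov ⟨s, fun k => nm (Finset.mem_union_left _ k)⟩)
      (u2 v _ ov ⟨s, fun k => nm (Finset.mem_union_right _ k)⟩)

open Aq in
theorem onek : ONEK := by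
  intro r S h hc k p z P τ φ u ψ hz ov p2 gn fb hu hψ ur hp hl ⟨cj, ⟨e, he⟩, hcj⟩
  have ec : ep r = cy := funext (ep_cy h hc)
  have h1 : ∀ l : ℕ, ∃ P', (l = p → P' = P) ∧
      (l.Prime → Ov l P' ∧ (l ≠ p → B2k r (k + 1) (dec P') z)) := fun l => by
    by_cases m : l = p
    · exact ⟨P, fun _ => rfl, fun _ => ⟨m ▸ ov, fun n => absurd m n⟩⟩
    by_cases q : l.Prime
    · exact (hl l q m).imp fun _ a => ⟨fun n => absurd n m, fun _ => ⟨a.1, fun _ => a.2⟩⟩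
    · exact ⟨P, fun _ => rfl, fun n => absurd n q⟩
  choose Q q1 q2 using h1
  obtain ⟨c, cP, cw⟩ := cn_of Q (fun l m => (q2 l m).1) (.mk e)
  have t0 : (2 : ℚ_[2]) ^ (k + 1) ≠ 0 := pow_ne_zero _ two_ne_zero
  have tb : ∀ (D : Subgroup GQ) (y : GQ → GQ → ℚ_[2]), B2k r (k + 1) D y →
      Ga.B2 cy D fun g j => (2 ^ (k + 1))⁻¹ * y g j := fun D y ⟨β, b1, b2⟩ =>
    ⟨fun g => (2 ^ (k + 1))⁻¹ * β g, continuousOn_const.mul b1, fun g hg j hj =>
      O_of ((nm_iff _ _).1 (b2 g hg j hj)) (by simp only [Ga.d2, ec]; ring)⟩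
  let y : GQ → GQ → ℚ_[2] := fun g j => (2 ^ (k + 1))⁻¹ * z g j
  have hy : Ga.Z2 cy ⊤ y := ⟨(continuous_const.mul hz.1).continuousOn, fun g _ j _ i _ =>
    O_of ((nm_iff _ _).1 (hz.2.2 g j i)) (by simp only [Ga.d3, ec, y]; ring)⟩
  have y1 : ∀ v, Ga.Pl v → v ≠ p → Ga.B2 cy (c.D v) y := fun v hv n => by
    refine tb _ _ ?_
    rcases hv with rfl | hv
    · rwa [D_zero, cw, G2.st_conj he]
    · rw [D_prime c hv, cP]
      exact (q2 v hv).2 n
  have y2 : Ga.B2 cy (dec P) fun g j => y g j - sz (u g * ψ j) := by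
    obtain ⟨θ, b1, b2⟩ := tb _ _ hp
    refine ⟨θ, b1, fun g hg j hj => O_of (b2 g hg j hj) ?_⟩
    rcases P004S.z2 (u g * ψ j) with a | a <;> simp only [a, sz, y]
    · simp
    · rw [if_neg one_ne_zero, ZMod.val_one]
      field_simp
      ring
  obtain ⟨η, e1, e2⟩ := has1 c (z2_two hy) fun v hv => by
    by_cases m : v = p
    · obtain ⟨θ, f1, f2⟩ := y2
      rw [m, D_prime c ov.1, cP, q1 p rfl]
      exact ⟨fun g => 2 * θ g, continuousOn_const.mul f1, fun g hg j hj => O_of (add_mem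
        (O_mul O_two (f2 g hg j hj)) (sz_hf (u g * ψ j))) (by simp only [Ga.d2]; ring)⟩
    · exact b2_two (y1 v hv m)
  have c1 : ∀ A : Subgroup GQ, ContinuousOn (fun g => 2⁻¹ * η g) A := fun A =>
    (continuous_const.mul e1).continuousOn
  have hf : ∀ g j, 2 * (y g j - Ga.d2 cy (fun g => 2⁻¹ * η g) g j) ∈ Ga.O := fun g j =>
    O_of (e2 g j) (by simp only [Ga.d2]; ring)
  have w1 := toZ isClosed_univ (z2_sub hy (c1 ⊤)) fun g _ j _ => hf g j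
  have cl := G2.dec_closed P
  have key := G2.one P022E.GW.oneC (G2.uch 2) (G2.tam 2) (ZMod 2) ⊤
    (fun g j => rz (y g j - Ga.d2 cy (fun g => 2⁻¹ * η g) g j)) Unit (fun _ => p)
    (fun _ => P) (fun _ => φ) (fun _ => u) (fun _ => ψ) (fun _ => ψ τ) isOpen_univ
    (by rwa [G2.ch_om_two]) (fun i => ⟨ov, p2, fb, le_inf le_top (G2.le_gz_two _)⟩)
    (fun _ _ _ _ _ => rfl) (fun i => ?_) fun x hx n => ?_
  · simpa only [Finset.univ_unique, Finset.sum_singleton] using key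
  · refine ⟨(G2.ch_iff cl).1 hu, (G2.ch_iff cl).1 hψ, fun g hg => ⟨ur g hg, ?_⟩, G2.B2.congr
      (toB cl (b2_sub y2 (c1 _)) fun g _ j _ => O_of (hf_sub (hf g j) (sz_hf (u g * ψ j))) (by ring))
      (fun g _ j _ => ?_) fun _ _ => rfl⟩
    · rw [ZMod.castHom_self, RingHom.id_apply, ka_nu ov.1]
      exact tame ov p2 gn (fun g j hg hj => hψ.2 ⟨g, inP_le_dec hg⟩ ⟨j, inP_le_dec hj⟩) hψ.1 hg
    · simp only [Pi.sub_apply, G2.cup]
      rw [sub_right_comm (y g j), rz_sub (hf g j) (sz_hf _), rz_sz]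
  · obtain ⟨v, hv, m⟩ := ab_pl hx
    rw [G2.ch_om_two]
    refine loc_all c w1 hv (toB (D_closed c hv) (b2_sub (y1 v hv fun k => ?_) (c1 _))
      fun g _ j _ => hf g j) m
    obtain ⟨g, e⟩ := G2.Plc.ab_trans (G2.mem_ab_fp.2 ⟨v, rfl, k ▸ ov⟩) m
    exact n () g trivial e

end Vale.Agent.P004S
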