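import Vale.Agent.P004S.Bas2
import Vale.Agent.P022E.GW.TauG

/-!
# P004, block SMITH: local lemmas (conjugate places, tame generators, torsion classes, isotropy)
-/

set_option linter.all false

noncomputable section

namespace Vale.Agent.P004S

open NumberField Matrix Filter Topology
open Vale.Agent.P022 (Qb GQ IsConj Irred UnrAt IsFrob)
open Vale.Agent.P027M.S (Inert)
open Vale.Agent.P022D.W (dec inP_le_dec phi_mem)
open Vale.Agent.P022E.GW (Ov Fb Gn Ch)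
open scoped Pointwise

variable {r : Rp} {S : Finset ℕ} {l : ℕ} {P : Ideal (𝓞 Qb)}

/-! ### places -/

theorem ex_conj (h : Ov l P) {P' : Ideal (𝓞 Qb)} (h' : Ov l P') : ∃ t : GQ,
    (∀ g, Inert P' g → Inert P (t⁻¹ * g * t)) ∧ ∀ g ∈ dec P', t⁻¹ * g * t ∈ dec P := by
  obtain ⟨t, rfl⟩ := P022E.GW.Tg.trans h h'
  refine ⟨t, fun g hg => P022E.GW.Tg.inert_conj hg, fun g hg x => ?_⟩
  have := hg (t • x)
  rwa [Ideal.mem_pointwise_smul_iff_inv_smul_mem, Ideal.mem_pointwise_smul_iff_inv_smul_mem,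
    inv_smul_smul, ← mul_smul, ← mul_smul] at this

theorem inert_dec {g : GQ} (hg : Inert P g) : g ∈ dec P := inP_le_dec hg

theorem inert_one (P : Ideal (𝓞 Qb)) : Inert P 1 := fun x => by simp

theorem inert_mul {g h : GQ} (hg : Inert P g) (hh : Inert P h) : Inert P (g * h) := fun x => by
  have := P.add_mem (hg (h • x)) (hh x)
  rwa [sub_add_sub_cancel, ← mul_smul] at this

theorem Pl.σ_dec (pl : Pl) (hl : l.Prime) : pl.σ l ∈ dec (pl.P l) :=
  phi_mem hl (pl.ov l hl).2.1 (pl.fb l hl)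

theorem Pl.τ_inert (pl : Pl) (hl : l.Prime) (h2 : l ≠ 2) : Inert (pl.P l) (pl.τ l) :=
  (pl.gn l hl h2).1

theorem LT.dec_le (hL : LT) (h : Ov l P) {σ : GQ} (hσ : Fb l P σ) {U : Subgroup GQ}
    (hU : IsOpen (U : Set GQ)) (h1 : σ ∈ U) (h2 : ∀ i, Inert P i → i ∈ U) : dec P ≤ U := by
  intro g hg
  obtain ⟨j, i, hi, k⟩ := (hL l P h).2 σ g hσ hg U hU
  have := U.mul_mem (U.mul_mem (U.pow_mem h1 j) (h2 i hi)) k
  rwa [mul_inv_cancel_left] at this

/-- a prime with a Frobenius element which is trivial modulo `2 ^ n` -/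
theorem LT.tr_dec (hL : LT) (h : Rep r S) (pl : Pl) (hl : l.Prime) (hS : l ∉ S) {n : ℕ}
    (ht : Tr r n (pl.σ l)) (hP : Ov l P) {g : GQ} (hg : g ∈ dec P) : Tr r n g := by
  obtain ⟨t, -, k⟩ := ex_conj (pl.ov l hl) hP
  have := hL.dec_le (pl.ov l hl) (pl.fb l hl) (h.Kn_open n) ht
    (h.Kn_uns n l _ (pl.ov l hl) hS) (k g hg)
  simpa [mul_assoc] using h.tr_conj this t

/-- two unramified characters with the same value at the Frobenius element -/
theorem LT.nu_dec (hL : LT) (pl : Pl) (hl : l.Prime) (h2 : l ≠ 2) {d e : ℤ} (hd : ¬ (l : ℤ) ∣ d)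
    (he : ¬ (l : ℤ) ∣ e) (hs : nu d (pl.σ l) = nu e (pl.σ l)) (hP : Ov l P) {g : GQ}
    (hg : g ∈ dec P) : nu d g = nu e g := by
  have d0 : d ≠ 0 := fun k => hd (by rw [k]; exact dvd_zero _)
  have e0 : e ≠ 0 := fun k => he (by rw [k]; exact dvd_zero _)
  obtain ⟨t, -, k⟩ := ex_conj (pl.ov l hl) hP
  have h1 := hL.dec_le (pl.ov l hl) (pl.fb l hl) (kn_open (d * e))
    (by rw [mem_kn, nu_mul_left d0 e0, hs, CharTwo.add_self_eq_zero])
    (fun i hi => by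
      rw [mem_kn, nu_mul_left d0 e0, nu_inert (pl.ov l hl) h2 hd hi,
        nu_inert (pl.ov l hl) h2 he hi, add_zero]) (k g hg)
  have h3 := nu_conj (d * e) t⁻¹ g
  rw [inv_inv, mem_kn.1 h1, nu_mul_left d0 e0] at h3
  revert h3; generalize nu d g = a; generalize nu e g = b; revert a b; decide

theorem ex_open {s : Set GQ} (hs : s ∈ 𝓝 (1 : GQ)) :
    ∃ U : Subgroup GQ, IsOpen (U : Set GQ) ∧ (U : Set GQ) ⊆ s := by
  obtain ⟨E, hE, k⟩ := (krullTopology_mem_nhds_one_iff ℚ Qb s).1 hs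
  exact ⟨E.fixingSubgroup, E.fixingSubgroup_isOpen, k⟩

theorem Zb.one {φ : GQ → W} (h : Zb r φ) : φ 1 = 0 := by
  have := h.2 1 1
  rw [one_mul, rb_one, one_mulVec] at this
  exact left_eq_add.1 this

theorem Zb.conj {φ : GQ → W} (h : Zb r φ) (hr : Rep r S) (t : GQ) {g : GQ} (hg : rb r g = 1) :
    φ (t * g * t⁻¹) = rb r t *ᵥ φ g := by
  have e : rb r (t * g * t⁻¹) = 1 := hr.tr_one_iff.1 (hr.tr_conj (hr.tr_one_iff.2 hg) t)
  have h1 := h.2 (t * g * t⁻¹) t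
  rw [inv_mul_cancel_right, h.2 t g, e, one_mulVec, add_comm] at h1
  exact (add_right_cancel h1).symm

/-- a residual cocycle which vanishes at the tame generator is unramified -/
theorem LT.un_tau (hL : LT) (h : Rep r S) (pl : Pl) (hl : l.Prime) (hS : l ∉ S) {φ : GQ → W}
    (hφ : Zb r φ) (h0 : φ (pl.τ l) = 0) (hP : Ov l P) {g : GQ} (hg : Inert P g) : φ g = 0 := by
  obtain ⟨t, k, -⟩ := ex_conj (pl.ov l hl) hP
  have hb : ∀ i, Inert (pl.P l) i → rb r i = 1 := fun i hi =>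
    h.tr_one_iff.1 (h.Kn_uns 1 l _ (pl.ov l hl) hS i hi)
  obtain ⟨U, hU, hs⟩ := ex_open (s := {x | φ x = 0})
    ((hφ.1.isOpen_fiber 0).mem_nhds hφ.one)
  obtain ⟨j, hj⟩ := (hL l _ (pl.ov l hl)).1 (pl.τ l) 1 _ (h.ne_two hS) (pl.gn l hl (h.ne_two hS))
    (k g hg) U hU
  have e := hj W φ (fun a => by funext i; simp [CharTwo.two_eq_zero]) (fun x _ hx => hs hx)
    (fun x y hx _ => by rw [hφ.2, hb x hx, one_mulVec])
  have e2 := hφ.conj h t (hb _ (k g hg))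
  rw [e, h0, smul_zero, mulVec_zero] at e2
  simpa [mul_assoc] using e2

/-! ### residues modulo powers of two -/

open Classical in
/-- the residue modulo `2 ^ n` -/
def rn (n : ℕ) (x : ℚ_[2]) : ZMod (2 ^ n) :=
  if h : ‖x‖ ≤ 1 then PadicInt.toZModPow n (⟨x, h⟩ : ℤ_[2]) else 0

theorem rn_coe (n : ℕ) (x : ℤ_[2]) : rn n x = PadicInt.toZModPow n x := dif_pos x.2

theorem rn_eq_iff (n : ℕ) {x y : ℚ_[2]} (hx : ‖x‖ ≤ 1) (hy : ‖y‖ ≤ 1) :
    rn n x = rn n y ↔ ‖x - y‖ ≤ (1 / 2) ^ n := by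
  obtain ⟨a, rfl⟩ : ∃ a : ℤ_[2], (a : ℚ_[2]) = x := ⟨⟨x, hx⟩, rfl⟩
  obtain ⟨b, rfl⟩ : ∃ a : ℤ_[2], (a : ℚ_[2]) = y := ⟨⟨y, hy⟩, rfl⟩
  rw [rn_coe, rn_coe, ← sub_eq_zero, ← map_sub, ← RingHom.mem_ker, PadicInt.ker_toZModPow,
    ← PadicInt.norm_le_pow_iff_mem_span_pow, ← PadicInt.coe_sub]
  simp [PadicInt.norm_def]

theorem rn_add (n : ℕ) {x y : ℚ_[2]} (hx : ‖x‖ ≤ 1) (hy : ‖y‖ ≤ 1) :
    rn n (x + y) = rn n x + rn n y := by
  obtain ⟨a, rfl⟩ : ∃ a : ℤ_[2], (a : ℚ_[2]) = x := ⟨⟨x, hx⟩, rfl⟩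
  obtain ⟨b, rfl⟩ : ∃ a : ℤ_[2], (a : ℚ_[2]) = y := ⟨⟨y, hy⟩, rfl⟩
  rw [← PadicInt.coe_add, rn_coe, rn_coe, rn_coe, map_add]

theorem rn_zero (n : ℕ) : rn n 0 = 0 := by simpa using rn_coe n 0

/-- the residue of a vector -/
def rw' (n : ℕ) (v : V) : Fin 2 → ZMod (2 ^ n) := fun i => rn n (v i)

theorem rw_eq_iff (n : ℕ) {u v : V} (hu : ‖u‖ ≤ 1) (hv : ‖v‖ ≤ 1) :
    rw' n u = rw' n v ↔ ‖u - v‖ ≤ (1 / 2) ^ n := by
  rw [pi_norm_le_iff_of_nonneg (by positivity), funext_iff]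
  exact forall_congr' fun i => rn_eq_iff n (norm_co hu i) (norm_co hv i)

theorem rw_add (n : ℕ) {u v : V} (hu : ‖u‖ ≤ 1) (hv : ‖v‖ ≤ 1) :
    rw' n (u + v) = rw' n u + rw' n v := funext fun i => rn_add n (norm_co hu i) (norm_co hv i)

theorem rw_eq_zero (n : ℕ) {u : V} (hu : ‖u‖ ≤ 1) : rw' n u = 0 ↔ ‖u‖ ≤ (1 / 2) ^ n := by
  have e : rw' n 0 = 0 := funext fun i => rn_zero n
  rw [← e, rw_eq_iff n hu (by simp), sub_zero]

theorem half_pow_le (n : ℕ) : (1 / 2 : ℝ) ^ n ≤ 1 := pow_le_one₀ (by norm_num) (by norm_num)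

theorem half_anti {n k : ℕ} (h : k ≤ n) : (1 / 2 : ℝ) ^ n ≤ (1 / 2) ^ k :=
  pow_le_pow_of_le_one (by norm_num) (by norm_num) h

/-- an additive function on the inertia group which is small at the tame generator -/
theorem LT.small_tau (hL : LT) (h : Ov l P) (h2 : l ≠ 2) {τ : GQ} (hτ : Gn l P τ) {n : ℕ}
    {a : GQ → V} (hc : Continuous a) (hi : ∀ g, ‖a g‖ ≤ 1)
    (ha : ∀ g k, Inert P g → Inert P k → ‖a (g * k) - a g - a k‖ ≤ (1 / 2) ^ n)
    (h0 : ‖a τ‖ ≤ (1 / 2) ^ n) {g : GQ} (hg : Inert P g) : ‖a g‖ ≤ (1 / 2) ^ n := by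
  have h1 : ‖a 1‖ ≤ (1 / 2) ^ n := by
    simpa using ha 1 1 (inert_one P) (inert_one P)
  obtain ⟨U, hU, hs⟩ := ex_open (s := a ⁻¹' Metric.closedBall 0 ((1 / 2) ^ n))
    (((IsUltrametricDist.isOpen_closedBall _ (by positivity)).preimage hc).mem_nhds
      (by simpa using h1))
  obtain ⟨j, hj⟩ := (hL l P h).1 τ n g h2 hτ hg U hU
  have e := hj _ (fun x => rw' n (a x))
    (fun v => by funext i; rw [Pi.smul_apply, nsmul_eq_mul, ZMod.natCast_self, zero_mul]; rfl)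
    (fun x _ hx => (rw_eq_zero n (hi x)).2 (by simpa using hs hx))
    (fun x y hx hy => by
      rw [← rw_add n (hi x) (hi y), rw_eq_iff n (hi _) (norm_add_le' (hi x) (hi y)), ← sub_sub]
      exact ha x y hx hy)
  rw [(rw_eq_zero n (hi τ)).2 h0, smul_zero] at e
  exact (rw_eq_zero n (hi g)).1 e

/-! ### torsion classes -/

variable {d : ℤ} {k : ℕ} {D : Set GQ} {a b : GQ → V}

theorem Tor.mono (h : Tor r d k D a) {j : ℕ} (hj : j ≤ k) : Tor r d j D a :=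
  h.imp fun _ hn g hg => (hn g hg).trans (half_anti hj)

theorem Tor.congr (h : Tor r d k D a) {e : ℤ} (he : ∀ g ∈ D, nu e g = nu d g) : Tor r e k D a :=
  h.imp fun n hn g hg => by rw [ac_congr r (he g hg)]; exact hn g hg

theorem Tor.near (h : Tor r d k D a) (hb : ∀ g ∈ D, ‖b g - a g‖ ≤ (1 / 2) ^ k) : Tor r d k D b :=
  h.imp fun n hn g hg => by
    rw [← sub_add_sub_cancel _ (a g)]; exact norm_add_le' (hb g hg) (hn g hg)

theorem tor_zero (r : Rp) (d : ℤ) (k : ℕ) (D : Set GQ) : Tor r d k D fun _ => 0 :=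
  ⟨0, fun g _ => by simp [ac_zero]⟩

theorem Tor.add (h : Tor r d k D a) (h' : Tor r d k D b) : Tor r d k D fun g => a g + b g := by
  obtain ⟨n, hn⟩ := h
  obtain ⟨n', hn'⟩ := h'
  refine ⟨n + n', fun g hg => ?_⟩
  rw [ac_add, show a g + b g - (ac r d g n + ac r d g n' - (n + n')) =
    (a g - (ac r d g n - n)) + (b g - (ac r d g n' - n')) by abel]
  exact norm_add_le' (hn g hg) (hn' g hg)

theorem Tor.smul (h : Tor r d k D a) (c : ℚ_[2]) {j : ℕ} (hc : ‖c‖ * (1 / 2) ^ k ≤ (1 / 2) ^ j) :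
    Tor r d j D fun g => c • a g := by
  obtain ⟨n, hn⟩ := h
  refine ⟨c • n, fun g hg => ?_⟩
  rw [ac_smul, ← smul_sub, ← smul_sub, norm_smul]
  exact (mul_le_mul_of_nonneg_left (hn g hg) (norm_nonneg _)).trans hc

theorem Tor.zsmul (h : Tor r d k D a) (c : ℤ) : Tor r d k D fun g => c • a g := by
  have := h.smul (c : ℚ_[2]) (j := k)
    (mul_le_of_le_one_left (by positivity) (Padic.norm_int_le_one c))
  simpa only [Int.cast_smul_eq_zsmul] using this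

theorem Tor.half (h : Tor r d (k + 1) D a) : Tor r d k D fun g => (1 / 2 : ℚ_[2]) • a g :=
  h.smul _ (by rw [norm_half, pow_succ]; linarith)

theorem Tor.sum {ι : Type} (T : Finset ι) (c : ι → ℤ) {f : ι → GQ → V}
    (h : ∀ i ∈ T, Tor r d k D (f i)) : Tor r d k D fun g => ∑ i ∈ T, c i • f i g := by
  classical
  induction T using Finset.induction_on with
  | empty => simpa using tor_zero r d k D
  | insert i T hi ih =>
    simp only [Finset.sum_insert hi]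
    exact ((h i (Finset.mem_insert_self _ _)).zsmul _).add
      (ih fun j hj => h j (Finset.mem_insert_of_mem hj))

/-- torsion classes at an unramified prime are unramified -/
theorem Tor.inert (h : Tor r d k (dec P) a) (hr : Rep r S) (ho : Ov l P) (hS : l ∉ S)
    (hd : ¬ (l : ℤ) ∣ d) {g : GQ} (hg : Inert P g) : ‖a g‖ ≤ (1 / 2) ^ k := by
  obtain ⟨n, hn⟩ := h
  have := hn g (inert_dec hg)
  rwa [ac, hr.mt_inert ho hS hg, sg_of_zero (nu_inert ho (hr.ne_two hS) hd hg), one_smul,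
    one_mulVec, sub_self, sub_zero] at this

theorem ac_sub_eq (r : Rp) (d : ℤ) (g : GQ) (n : V) : ac r d g n - n =
    sg d g • (mt r g *ᵥ n - n) - ((nu d g).val : ℚ_[2]) • (2 : ℚ_[2]) • n := by
  rw [ac, smul_sub, sg_eq, smul_smul]
  module

theorem norm_ac_sub {g : GQ} (hg : Tr r 1 g) (d : ℤ) (n : V) : ‖ac r d g n - n‖ ≤ 1 / 2 * ‖n‖ := by
  rw [ac_sub_eq]
  refine norm_sub_le' ?_ ?_
  · rw [norm_smul, norm_sg, one_mul]; simpa using hg.norm n
  · rw [norm_smul, norm_smul, norm_two]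
    exact mul_le_of_le_one_left (by positivity) (norm_val_le _)

/-- two torsion classes at a split ramified prime which agree at the tame generator -/
theorem Tor.tau (h : Tor r d k D a) {τ : GQ} (hτ : τ ∈ D) (h1 : mt r τ = 1) (h2 : nu d τ = 1)
    (h0 : ‖a τ‖ ≤ (1 / 2) ^ k) {g : GQ} (hg : g ∈ D) (ht : Tr r 1 g) : ‖a g‖ ≤ (1 / 2) ^ k := by
  obtain ⟨n, hn⟩ := h
  have e := hn τ hτ
  rw [ac, h1, sg_of_one h2, one_mulVec] at e
  have e2 : ‖(2 : ℚ_[2]) • n‖ ≤ (1 / 2) ^ k := by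
    rw [show (2 : ℚ_[2]) • n = (a τ - ((-1 : ℚ_[2]) • n - n)) - a τ by module]
    exact norm_sub_le' e h0
  rw [norm_smul, norm_two] at e2
  rw [← sub_add_cancel (a g) (ac r d g n - n)]
  exact norm_add_le' (hn g hg) ((norm_ac_sub ht d n).trans e2)

/-- the reduction of a torsion class at a split ramified prime -/
theorem Tor.red (h : Tor r d 1 D a) {τ : GQ} (hτ : τ ∈ D) (h1 : mt r τ = 1) (h2 : nu d τ = 1)
    (hi : ∀ g, ‖a g‖ ≤ 1) {g : GQ} (hg : g ∈ D) (ht : Tr r 2 g) :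
    rv (a g) = nu d g • rv (a τ) := by
  obtain ⟨n, hn⟩ := h
  have e := hn τ hτ
  rw [ac, h1, sg_of_one h2, one_mulVec, pow_one] at e
  have e1 : ‖a τ + (2 : ℚ_[2]) • n‖ ≤ 1 / 2 := by
    rwa [show a τ + (2 : ℚ_[2]) • n = a τ - ((-1 : ℚ_[2]) • n - n) by module]
  have e2 : ‖(2 : ℚ_[2]) • n‖ ≤ 1 := by
    rw [← add_sub_cancel_left (a τ) ((2 : ℚ_[2]) • n)]
    exact norm_sub_le' (e1.trans (by norm_num)) (hi τ)
  have e3 : ‖n‖ ≤ 2 := by rw [norm_smul, norm_two] at e2; linarith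
  rw [← rd_val (nu d g), ← rv_smul (norm_val_le _) (hi τ), rv_eq_iff (hi g)
    (by rw [norm_smul]; exact mul_le_one₀ (norm_val_le _) (norm_nonneg _) (hi τ))]
  have e4 := hn g hg
  rw [ac_sub_eq, pow_one] at e4
  rw [show a g - ((nu d g).val : ℚ_[2]) • a τ =
    (a g - (sg d g • (mt r g *ᵥ n - n) - ((nu d g).val : ℚ_[2]) • (2 : ℚ_[2]) • n)) +
      sg d g • (mt r g *ᵥ n - n) - ((nu d g).val : ℚ_[2]) • (a τ + (2 : ℚ_[2]) • n) -
        ((nu d g).val : ℚ_[2]) • (0 : V) by module]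
  refine norm_sub_le' (norm_sub_le' (norm_add_le' e4 ?_) ?_) (by simp)
  · rw [norm_smul, norm_sg, one_mul]
    refine (ht.norm n).trans ?_
    nlinarith
  · rw [norm_smul]
    exact (mul_le_of_le_one_left (norm_nonneg _) (norm_val_le _)).trans e1

/-! ### cup products -/

theorem cp_cob (r : Rp) (d : ℤ) (n n' : V) (g h : GQ) :
    wp (ac r d g n - n) (ac r d g (ac r d h n' - n')) =
      wp n (ac r d g n' - n') + ep r g * wp n (ac r d h n' - n') -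
        wp n (ac r d (g * h) n' - n') := by
  rw [wp_sub_left, wp_ac, ac_mul, ac_sub]
  simp only [wp_sub_right]
  ring

/-- **isotropy of torsion classes** -/
theorem Tor.iso (hr : Rep r S) {j : ℕ} {c : ℝ} (ha : Tor r d j D a) (hb : Tor r d k D b)
    (h1 : ∀ g ∈ D, ‖a g‖ ≤ 1) (h2 : ∀ g ∈ D, ‖b g‖ ≤ c) (hc : (1 / 2) ^ j * c ≤ (1 / 2) ^ k) :
    B2k r k D (cp r d a b) := by
  obtain ⟨n, hn⟩ := ha
  obtain ⟨n', hn'⟩ := hb
  refine ⟨fun g => wp n (ac r d g n' - n'), (wp_cont continuous_const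
    ((hr.ac_cont d continuous_id continuous_const).sub continuous_const)).continuousOn,
    fun g hg h hh => ?_⟩
  rw [← cp_cob, cp, show wp (a g) (ac r d g (b h)) -
      wp (ac r d g n - n) (ac r d g (ac r d h n' - n')) =
    wp (a g - (ac r d g n - n)) (ac r d g (b h)) +
      wp (ac r d g n - n) (ac r d g (b h - (ac r d h n' - n'))) by
    rw [wp_sub_left (a g), ac_sub r d g (b h), wp_sub_right]; ring]
  refine norm_add_le' ((norm_wp_le _ _).trans (le_trans ?_ hc)) ((norm_wp_le _ _).trans ?_)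
  · exact mul_le_mul (hn g hg) ((hr.norm_ac _ _ _).trans (h2 h hh)) (norm_nonneg _) (by positivity)
  · have k1 : ‖ac r d g n - n‖ ≤ 1 := by
      rw [← sub_sub_cancel (a g) (ac r d g n - n)]
      exact norm_sub_le' (h1 g hg) ((hn g hg).trans (half_pow_le _))
    exact (mul_le_of_le_one_left (norm_nonneg _) k1).trans ((hr.norm_ac _ _ _).trans (hn' h hh))

/-- **isotropy at `2`** -/
theorem Loc.iso' (Λ : Loc r) (hr : Rep r S)
    (ha : ∃ z ∈ Λ.L d, ∀ g ∈ dec Λ.P, ‖a g - z g‖ ≤ (1 / 2) ^ k)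
    (hb : ∃ z ∈ Λ.L d, ∀ g ∈ dec Λ.P, ‖b g - z g‖ ≤ (1 / 2) ^ k) (h1 : ∀ g, ‖a g‖ ≤ 1)
    (h2 : ∀ g, ‖b g‖ ≤ 1) : B2k r k (dec Λ.P) (cp r d a b) := by
  obtain ⟨z, hz, hn⟩ := ha
  obtain ⟨z', hz', hn'⟩ := hb
  obtain ⟨β, hβ, e⟩ := Λ.iso d z hz z' hz'
  refine ⟨β, hβ, fun g hg h hh => ?_⟩
  rw [← e g hg h hh, cp, cp, show wp (a g) (ac r d g (b h)) - wp (z g) (ac r d g (z' h)) =
    wp (a g - z g) (ac r d g (b h)) + wp (z g) (ac r d g (b h - z' h)) by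
    rw [wp_sub_left (a g), ac_sub r d g (b h), wp_sub_right]; ring]
  refine norm_add_le' ((norm_wp_le _ _).trans ?_) ((norm_wp_le _ _).trans ?_)
  · exact (mul_le_of_le_one_right (norm_nonneg _) ((hr.norm_ac _ _ _).trans (h2 h))).trans (hn g hg)
  · have k1 : ‖z g‖ ≤ 1 := by
      rw [← sub_sub_cancel (a g) (z g)]
      exact norm_sub_le' (h1 g) ((hn g hg).trans (half_pow_le _))
    exact (mul_le_of_le_one_left (norm_nonneg _) k1).trans ((hr.norm_ac _ _ _).trans (hn' h hh))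

/-- the cup product of two cocycles modulo `2 ^ k` -/
theorem z2k_cp (hr : Rep r S) (ca : Continuous a) (cb : Continuous b) (h1 : ∀ g, ‖a g‖ ≤ 1)
    (h2 : ∀ g, ‖b g‖ ≤ 1) (ha : ∀ g h, ‖a (g * h) - a g - ac r d g (a h)‖ ≤ (1 / 2) ^ k)
    (hb : ∀ g h, ‖b (g * h) - b g - ac r d g (b h)‖ ≤ (1 / 2) ^ k) : Z2k r k (cp r d a b) := by
  refine ⟨wp_cont (ca.comp continuous_fst) (hr.ac_cont d continuous_fst (cb.comp continuous_snd)),
    fun g h => (norm_wp_le _ _).trans (mul_le_one₀ (h1 g) (norm_nonneg _)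
      ((hr.norm_ac _ _ _).trans (h2 h))), fun g h j => ?_⟩
  have e : ep r g * cp r d a b h j - cp r d a b (g * h) j + cp r d a b g (h * j) - cp r d a b g h =
      wp (a g) (ac r d g (b (h * j) - b h - ac r d h (b j))) -
        wp (a (g * h) - a g - ac r d g (a h)) (ac r d (g * h) (b j)) := by
    simp only [cp, ← wp_ac r d g, ac_mul, ac_sub, wp_sub_left, wp_sub_right]
    ring
  rw [e]
  refine norm_sub_le' ((norm_wp_le _ _).trans ?_) ((norm_wp_le _ _).trans ?_)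
  · exact (mul_le_of_le_one_left (norm_nonneg _) (h1 g)).trans ((hr.norm_ac _ _ _).trans (hb h j))
  · exact (mul_le_of_le_one_right (norm_nonneg _) ((hr.norm_ac _ _ _).trans (h2 j))).trans (ha g h)

theorem B2k.near {z z' : GQ → GQ → ℚ_[2]} (h : B2k r k D z)
    (e : ∀ g ∈ D, ∀ j ∈ D, ‖z' g j - z g j‖ ≤ (1 / 2) ^ k) : B2k r k D z' := by
  obtain ⟨β, hβ, hz⟩ := h
  refine ⟨β, hβ, fun g hg j hj => ?_⟩
  rw [← sub_add_sub_cancel _ (z g j)]
  exact norm_add_le' (e g hg j hj) (hz g hg j hj)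

theorem SelK.mono {Λ : Loc r} (h : SelK r Λ k d a) {j : ℕ} (hj : j ≤ k) : SelK r Λ j d a :=
  ⟨h.cont, h.int, fun g x => (h.coc g x).trans (half_anti hj),
    h.two.imp fun _ hz => ⟨hz.1, fun g hg => (hz.2 g hg).trans (half_anti hj)⟩,
    fun c hc => (h.inf c hc).mono hj, fun l P ho h2 => (h.tor l P ho h2).mono hj⟩

theorem SelK.zb {Λ : Loc r} (h : SelK r Λ k d a) (hr : Rep r S) (hk : 1 ≤ k) :
    Zb r fun g => rv (a g) := by
  refine ⟨rv_lc h.cont, fun g x => ?_⟩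
  have k1 := (hr.norm_ac d g (a x)).trans (h.int x)
  rw [← hr.rv_ac d g (h.int x), ← rv_add (h.int g) k1,
    rv_eq_iff (h.int _) (norm_add_le' (h.int g) k1), ← sub_sub]
  simpa using (h.mono hk).coc g x

end Vale.Agent.P004S
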