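import Vale.Agent.P004S.Cls

/-!
# P004, block SMITH: rows WT1, WT3
-/

set_option linter.all false

noncomputable section

namespace Vale.Agent.P004S

open NumberField Matrix Filter Topology
open Vale.Agent.P022 (Qb GQ IsConj Irred UnrAt IsFrob)
open Ms

namespace Wg

variable {r : Rp} {S : Finset ℕ} {H : Submodule (ZMod 2) N} {g : GQ}

abbrev M2 : Type := Matrix (Fin 2) (Fin 2) (ZMod 2)

/-- matrices of order three -/
def o3 (A : M2) : Prop := A * A = A + 1

instance : DecidablePred o3 := fun A => inferInstanceAs (Decidable (A * A = A + 1))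

theorem d1 : ∀ A ω : M2, A.det = 1 → o3 ω →
    (A - 1) * A * (A - 1) = A - 1 ∨ (A - 1) * ω * (A - 1) = A - 1 := by
  simp only [det_fin_two]
  decide +kernel

theorem d2 : ∀ A : M2, A.det = 1 → o3 A ∨ ∃ v : W, v ≠ 0 ∧ ∀ B : M2, B.det = 1 → B *ᵥ v ≠ v →
    A = 1 ∨ o3 B ∨ o3 (A * B) := by
  simp only [det_fin_two]
  decide +kernel

theorem det_rb (h : Rep r S) (g : GQ) : (rb r g).det = 1 := by
  have := h.wp_rb g ![1, 0] ![0, 1]
  rw [wp_mulVec] at this
  simpa [wp] using this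

theorem ex_o3 (h : Rep r S) (i : IrB r) : ∃ g, o3 (rb r g) := by
  obtain ⟨g, a⟩ := i ![1, 0] (by decide)
  obtain k | ⟨v, b, c⟩ := d2 _ (det_rb h g)
  · exact ⟨g, k⟩
  obtain ⟨j, e⟩ := i v b
  obtain k | k | k := c _ (det_rb h j) e
  · exact (a (by rw [k, one_mulVec])).elim
  · exact ⟨j, k⟩
  · exact ⟨g * j, by rwa [h.rb_mul]⟩

theorem card_map {R M M' : Type} [Ring R] [AddCommGroup M] [Module R M] [AddCommGroup M']
    [Module R M'] (H : Submodule R M) (f : M →ₗ[R] M') :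
    Nat.card H = Nat.card ↥(H ⊓ LinearMap.ker f) * Nat.card (H.map f) := by
  rw [(LinearMap.ker (f.domRestrict H)).card_eq_card_quotient_mul_card,
    Nat.card_congr (f.domRestrict H).quotKerEquivRange.toEquiv, LinearMap.range_domRestrict,
    LinearMap.ker_domRestrict, ← Submodule.map_comap_subtype,
    ← Nat.card_congr (Submodule.equivMapOfInjective _ H.subtype_injective _).toEquiv]

theorem card_hq (r : Rp) (H : Submodule (ZMod 2) N) (g : GQ) :
    Nat.card H = Nat.card ↥(H ⊓ Im r g) * hq r H g := by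
  rw [card_map H (Im r g).mkQ, Submodule.ker_mkQ, hq]

theorem dg_sub (A : M2) (x : N) : (dg A - LinearMap.id : N →ₗ[ZMod 2] N) x = dg (A - 1) x := by
  rw [dg_apply, sub_mulVec, sub_mulVec, one_mulVec, one_mulVec]
  rfl

theorem half_le {v : V} (h : ‖v‖ ≤ 1 / 2) : ‖(1 / 2 : ℚ_[2]) • v‖ ≤ 1 := by
  rw [norm_smul, norm_half]
  linarith

theorem cmp_sub {e₀ w e e' : N} (h : Cmp r H e₀ w g e) (h' : Cmp r H e₀ w g e') :
    Cmp r H 0 0 g (e - e') := by
  obtain ⟨a, n, n', b, c, rfl, d, e, f⟩ := h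
  obtain ⟨a', m, m', b', c', rfl, d', e', f'⟩ := h'
  have k : ∀ n m : V, mt r g *ᵥ (n - m) - (n - m) = mt r g *ᵥ n - n - (mt r g *ᵥ m - m) :=
    fun n m => by rw [mulVec_sub]; abel
  refine ⟨by simpa using H.sub_mem a a', n - m, n' - m', norm_sub_le' b b', norm_sub_le' c c',
    by rw [rv_sub b b', rv_sub c c']; rfl, k n m ▸ norm_sub_le' d d', k n' m' ▸ norm_sub_le' e e', ?_⟩
  rw [k, k, smul_sub _ (_ - n), smul_sub _ (_ - n'), rv_sub (half_le d) (half_le d'),
    rv_sub (half_le e) (half_le e')]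
  simpa using Submodule.sub_mem _ f f'

theorem cmp_le (e₀ w : N) {X : Type} {B : Set X} (hB : B.Finite) (F : N → X)
    (h1 : ∀ e, Cmp r H 0 0 g e → F e ∈ B)
    (h2 : ∀ e e', Cmp r H 0 0 g e → Cmp r H 0 0 g e' → F e = F e' → e = e') :
    {e | Cmp r H e₀ w g e}.ncard ≤ Nat.card B := by
  rcases {e | Cmp r H e₀ w g e}.eq_empty_or_nonempty with k | ⟨x, k⟩
  · simp [k]
  · exact Set.ncard_le_ncard_of_injOn (fun e => F (e - x)) (fun e a => h1 _ (cmp_sub a k))
      (fun e a e' b c => sub_left_injective (h2 _ _ (cmp_sub a k) (cmp_sub b k) c)) hB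

theorem cmp_fix (h : Rep r S) {e : N} (k : Cmp r H 0 0 g e) :
    e ∈ H ⊓ LinearMap.ker (dg (rb r g) - LinearMap.id) := by
  obtain ⟨a, n, n', b, c, rfl, d, e, -⟩ := k
  refine ⟨by simpa using a, sub_eq_zero.2 (Prod.ext ?_ ?_)⟩
  · exact (h.rv_mt g b).symm.trans ((rv_eq_iff ((h.norm_mt g n).trans b) b).2 d)
  · exact (h.rv_mt g c).symm.trans ((rv_eq_iff ((h.norm_mt g n').trans c) c).2 e)

theorem le_ker (h : Rep r S) (e₀ w : N) : {e | Cmp r H e₀ w g e}.ncard ≤
    Nat.card ↥(H ⊓ LinearMap.ker (dg (rb r g) - LinearMap.id)) :=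
  cmp_le e₀ w (B := H ⊓ LinearMap.ker (dg (rb r g) - LinearMap.id)) (Set.toFinite _) id
    (fun e => cmp_fix h) fun _ _ _ _ => id

theorem le_hq (h : Rep r S) (e₀ w : N) (k : H ⊓ Im r g ≤ H.map (dg (rb r g) - LinearMap.id)) :
    {e | Cmp r H e₀ w g e}.ncard ≤ hq r H g := by
  refine (le_ker h e₀ w).trans (Nat.le_of_mul_le_mul_right ?_
    (Nat.card_pos (α := H.map (dg (rb r g) - LinearMap.id))))
  rw [← card_map, card_hq r H g, mul_comm]
  exact Nat.mul_le_mul_left _ (Nat.card_le_card_of_injective _ (Submodule.inclusion_injective k))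

/-- the second coordinates -/
def p1 : N →ₗ[ZMod 2] ZMod 2 × ZMod 2 := (LinearMap.proj 1).prodMap (LinearMap.proj 1)

theorem p1_apply (x : N) : p1 x = (x.1 1, x.2 1) := rfl

theorem rb_uni (h : Rep r S) (u : Uni r) (g : GQ) : rb r g = !![1, rb r g 0 1; 0, 1] := by
  have a := det_rb h g
  have b := u.low g
  rw [det_fin_two] at a
  rw [eta_fin_two (rb r g)]
  revert a b
  generalize rb r g 0 0 = x, rb r g 0 1 = y, rb r g 1 0 = z, rb r g 1 1 = t
  revert x y z t
  decide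

theorem d5 : ∀ (y : ZMod 2) (x : N), (dg !![1, y; 0, 1] - LinearMap.id : N →ₗ[ZMod 2] N) x =
    (![y * x.1 1, 0], ![y * x.2 1, 0]) := by
  simp only [dg_sub, dg_apply]
  decide +kernel

theorem im_le (h : Rep r S) (u : Uni r) (g : GQ) : Im r g ≤ LinearMap.ker p1 := by
  rintro _ ⟨x, rfl⟩
  rw [rb_uni h u, d5]
  rfl

theorem card_kap (h : Rep r S) (u : Uni r) (s : Sta r H) :
    Nat.card ↥(H ⊓ LinearMap.ker p1) = 2 ^ kap H * Nat.card (H.map p1) := by
  have k : Nat.card (H.map p1) ≤ Nat.card ↥(H ⊓ LinearMap.ker p1) := by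
    obtain ⟨g, a⟩ := u.up
    refine Nat.card_le_card_of_injective (fun x => ⟨(![x.1.1, 0], ![x.1.2, 0]), ?_, rfl⟩)
      fun x y k => Subtype.ext (Prod.ext (congrFun (congrArg (·.1.1) k) 0)
        (congrFun (congrArg (·.1.2) k) 0))
    obtain ⟨_, x, b, rfl⟩ := x
    have c : (dg (rb r g) - LinearMap.id : N →ₗ[ZMod 2] N) x ∈ H := H.sub_mem (s g x b) b
    rwa [rb_uni h u, d5, (z2 _).resolve_left a, one_mul, one_mul] at c
  have e1 : Nat.card {x : N // x ∈ H ∧ x.1 1 = 0 ∧ x.2 1 = 0} = Nat.card ↥(H ⊓ LinearMap.ker p1) :=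
    Nat.card_congr (Equiv.subtypeEquivRight fun x => and_congr Iff.rfl Prod.mk_eq_zero.symm)
  rw [kap, e1]
  change _ = 2 ^ (_ - Nat.log 2 (Nat.card (H.map p1))) * _
  rw [Module.natCard_eq_pow_finrank (K := ZMod 2) (V := H.map p1), Nat.card_zmod,
    Module.natCard_eq_pow_finrank (K := ZMod 2) (V := ↥(H ⊓ _)), Nat.card_zmod] at k ⊢
  rw [Nat.log_pow one_lt_two, Nat.log_pow one_lt_two, ← pow_add, Nat.sub_add_cancel ((Nat.pow_le_pow_iff_right one_lt_two).1 k)]

theorem kap_le (H : Submodule (ZMod 2) N) : kap H ≤ 2 := by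
  refine (Nat.sub_le _ _).trans ((Nat.log_mono_right (m := 4) ?_).trans (by norm_num))
  refine (Nat.card_le_card_of_injective (fun x => (x.1.1 0, x.1.2 0)) fun x y k => ?_).trans
    (by simp)
  refine Subtype.ext (Prod.ext (funext fun i => ?_) (funext fun i => ?_)) <;> fin_cases i
  · exact congrArg Prod.fst k
  · exact x.2.2.1.trans y.2.2.1.symm
  · exact congrArg Prod.snd k
  · exact x.2.2.2.trans y.2.2.2.symm

theorem rd_low (h : Rep r S) (u : Uni r) (g : GQ) {n : V} (k : ‖n‖ ≤ 1) :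
    rv ((1 / 2 : ℚ_[2]) • (mt r g *ᵥ n - n)) 1 =
      rd (mt r g 1 0 / 2) * rv n 0 + rd ((mt r g 1 1 - 1) / 2) * rv n 1 := by
  have p : ∀ x : ℚ_[2], ‖x‖ ≤ 1 / 2 → ‖x / 2‖ ≤ 1 := fun x k => by
    rw [norm_div, norm_two]
    linarith
  have a := p _ (rd_eq_zero.1 (u.low g))
  have b := p _ ((rd_eq_iff (h.int g 1 1) norm_one.le).1
    ((congrFun (congrFun (rb_uni h u g) 1) 1).trans rd_one.symm))
  rw [rv, rv, rv, ← rd_mul a (norm_co k 0), ← rd_mul b (norm_co k 1), ← rd_add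
    ((norm_mul_le _ _).trans (mul_le_one₀ a (norm_nonneg _) (norm_co k 0)))
    ((norm_mul_le _ _).trans (mul_le_one₀ b (norm_nonneg _) (norm_co k 1)))]
  congr 1
  simp only [Pi.smul_apply, Pi.sub_apply, mulVec, dotProduct, Fin.sum_univ_two, smul_eq_mul]
  ring

theorem cmp_low (h : Rep r S) (u : Uni r) (l : rd (mt r g 1 0 / 2) = 1) {e : N}
    (k : Cmp r H 0 0 g e) : (e.1 0 + rd ((mt r g 1 1 - 1) / 2) * e.1 1,
      e.2 0 + rd ((mt r g 1 1 - 1) / 2) * e.2 1) ∈ H.map p1 := by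
  obtain ⟨-, n, n', b, c, rfl, -, -, f⟩ := k
  obtain ⟨x, p, y, q, e⟩ := Submodule.mem_sup.1 f
  refine ⟨x, p, ?_⟩
  have := congrArg p1 e
  rw [map_add, im_le h u g q, add_zero, sub_zero] at this
  refine this.trans (Prod.ext ((rd_low h u g b).trans ?_) ((rd_low h u g c).trans ?_)) <;>
    rw [l, one_mul]

theorem d6 : ∀ (c : ZMod 2) (e e' : N), (e.1 1, e.2 1) = (e'.1 1, e'.2 1) →
    (e.1 0 + c * e.1 1, e.2 0 + c * e.2 1) = (e'.1 0 + c * e'.1 1, e'.2 0 + c * e'.2 1) →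
    e = e' := by decide +kernel

end Wg

open Wg

theorem wt1 : WT1 := fun r S h i => by
  refine ⟨fun H e₀ w g s => ?_, fun _ _ => by norm_num, fun _ _ => by norm_num, fun _ _ _ => rfl⟩
  rw [one_mul, Nat.cast_le]
  refine le_hq h e₀ w ?_
  rintro _ ⟨a, x, rfl⟩
  rcases i with i | i
  · obtain ⟨j, o⟩ := ex_o3 h i
    rcases d1 _ _ (det_rb h g) o with k | k
    · exact ⟨_, (s g).2 _ a, by rw [dg_sub, dg_sub, ← dg_mul, ← dg_mul, k]⟩
    · exact ⟨_, (s j).2 _ a, by rw [dg_sub, dg_sub, ← dg_mul, ← dg_mul, k]⟩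
  · exact ⟨0, zero_mem _, by simp [i g, dg_one]⟩

theorem wt3 : WT3 := fun r S h u => by
  have v : ∀ g, -1 ≤ stp r g ∧ stp r g ≤ 1 := fun g => by
    have a := (rb r g 0 1).val_lt
    have b := (rd (mt r g 1 0 / 2)).val_lt
    unfold stp
    omega
  refine ⟨fun H e₀ w g s => ?_, fun H g => ?_, fun H g => ?_, fun H g t => ?_⟩
  · have c := card_kap h u fun g => (s g).2
    have q := (card_hq r H g).symm.trans (card_map H p1)
    rw [gam, stp]
    rcases z2 (rb r g 0 1) with a | a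
    · have b : Im r g = ⊥ := by
        rw [eq_bot_iff]
        rintro _ ⟨x, rfl⟩
        rw [rb_uni h u, d5, a, zero_mul, zero_mul, Submodule.mem_bot]
        decide
      rw [b, inf_bot_eq, Nat.card_unique, one_mul] at q
      rcases z2 (rd (mt r g 1 0 / 2)) with l | l <;> rw [a, l]
      · simpa using le_hq h e₀ w (by simp [b])
      · have := cmp_le e₀ w (B := (H.map p1 : Set (ZMod 2 × ZMod 2)) ×ˢ
          (H.map p1 : Set (ZMod 2 × ZMod 2))) (Set.toFinite _) (fun e => (p1 e, _))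
          (fun e k => ⟨⟨e, (cmp_fix h k).1, rfl⟩, cmp_low h u l k⟩)
          fun e e' _ _ k => d6 _ e e' (congrArg Prod.fst k) (congrArg Prod.snd k)
        rw [Nat.card_congr (Equiv.Set.prod _ _), Nat.card_prod] at this
        rw [q, c]
        push_cast
        rw [mul_assoc, ← mul_assoc, ZMod.val_zero, ZMod.val_one, show (2 : ℝ) ^ ((kap H : ℤ) *
          ((0 : ℕ) - (1 : ℕ))) * 2 ^ kap H = 1 by simp, one_mul]
        exact_mod_cast this
    · have b : Im r g = LinearMap.ker p1 := (im_le h u g).antisymm fun x k =>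
        ⟨(![0, x.1 0], ![0, x.2 0]), by
          rw [rb_uni h u, d5, a]
          exact d6 0 _ _ (Eq.symm k) (by simp)⟩
      rw [b] at q
      rw [Nat.eq_of_mul_eq_mul_left Nat.card_pos q]
      have z : ∀ e, Cmp r H 0 0 g e → p1 e = 0 := fun e k => by
        have := (cmp_fix h k).2
        rw [SetLike.mem_coe, LinearMap.mem_ker, rb_uni h u, d5, a, one_mul, one_mul] at this
        exact Prod.ext (congrFun (congrArg Prod.fst this) 0) (congrFun (congrArg Prod.snd this) 0)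
      rcases z2 (rd (mt r g 1 0 / 2)) with l | l <;> rw [a, l]
      · have := cmp_le e₀ w (B := H ⊓ LinearMap.ker p1) (Set.toFinite _) id
          (fun e k => ⟨(cmp_fix h k).1, z e k⟩) fun _ _ _ _ => id
        replace := this.trans c.le
        rw [ZMod.val_zero, ZMod.val_one]
        simpa using (Nat.cast_le (α := ℝ)).2 this
      · rw [sub_self, mul_zero, zpow_zero, one_mul, Nat.cast_le]
        exact cmp_le e₀ w (B := H.map p1) (Set.toFinite _) _ (fun e => cmp_low h u l)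
          fun e e' p p' => d6 _ e e' ((z e p).trans (z e' p').symm)
  · rw [show (1 / 4 : ℝ) = 2 ^ (-2 : ℤ) by norm_num]
    exact zpow_le_zpow_right₀ one_le_two (by nlinarith [v g, kap_le H])
  · rw [show (4 : ℝ) = 2 ^ (2 : ℤ) by norm_num]
    exact zpow_le_zpow_right₀ one_le_two (by nlinarith [v g, kap_le H])
  · have a : rd (mt r g 1 0 / 2) = 0 := rd_eq_zero.2 (by
      have := t 1 0
      rw [Matrix.sub_apply, one_apply_ne (by decide), sub_zero] at this
      rw [norm_div, norm_two]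
      linarith)
    rw [gam, stp, a, h.tr_one_iff.1 (t.mono one_le_two)]
    simp

end Vale.Agent.P004S
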