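import Vale.Agent.P004S.St

/-!
# P004, block SMITH: basic lemmas on `nu`, `sg`, `ac`, `wp`, `rd`, `rv`, `rb`
-/

set_option linter.all false

noncomputable section

namespace Vale.Agent.P004S

open NumberField Matrix Filter Topology
open Vale.Agent.P022 (Qb GQ IsConj Irred UnrAt IsFrob)
open Vale.Agent.P027M.S (Inert)
open Vale.Agent.P022D.W (dec)
open Vale.Agent.P022E.GW (Ov Fb Gn Ch)

/-! ### the quadratic characters -/

theorem z2 (a : ZMod 2) : a = 0 ∨ a = 1 := by revert a; decide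

theorem ex_sqrt (d : ℤ) : ∃ w : Qb, w ^ 2 = d := IsAlgClosed.exists_pow_nat_eq _ two_pos

theorem sqrt_or {d : ℤ} {w v : Qb} (hw : w ^ 2 = d) (hv : v ^ 2 = d) : v = w ∨ v = -w :=
  sq_eq_sq_iff_eq_or_eq_neg.1 (hv.trans hw.symm)

theorem gal_sq {d : ℤ} {w : Qb} (hw : w ^ 2 = d) (g : GQ) : (g w) ^ 2 = d := by
  rw [← map_pow, hw, map_intCast]

theorem nu_eq_zero {d : ℤ} {w : Qb} (hw : w ^ 2 = d) {g : GQ} : nu d g = 0 ↔ g w = w := by
  unfold nu
  split_ifs with h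
  · exact ⟨fun _ => h w hw, fun _ => rfl⟩
  · refine ⟨fun k => absurd k one_ne_zero, fun k => (h fun v hv => ?_).elim⟩
    rcases sqrt_or hw hv with rfl | rfl
    · exact k
    · rw [map_neg, k]

theorem gal_sqrt {d : ℤ} {w : Qb} (hw : w ^ 2 = d) (g : GQ) :
    g w = if nu d g = 0 then w else -w := by
  split_ifs with h
  · exact (nu_eq_zero hw).1 h
  · exact (sqrt_or hw (gal_sq hw g)).resolve_left fun k => h ((nu_eq_zero hw).2 k)

theorem nu_zero (g : GQ) : nu 0 g = 0 :=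
  (nu_eq_zero (w := 0) (by simp)).2 (map_zero g)

theorem nu_one_left (g : GQ) : nu 1 g = 0 := (nu_eq_zero (w := 1) (by simp)).2 (map_one g)

theorem nu_eq_one {d : ℤ} (hd : d ≠ 0) {w : Qb} (hw : w ^ 2 = d) {g : GQ} :
    nu d g = 1 ↔ g w = -w := by
  have h0 : w ≠ -w := fun k => by
    have : w = 0 := self_eq_neg.1 k
    rw [this] at hw
    have h3 : (d : Qb) = 0 := by rw [← hw]; simp
    exact hd (by exact_mod_cast h3)
  rw [gal_sqrt hw g]
  rcases z2 (nu d g) with h | h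
  · simp [h, h0]
  · simp [h]

theorem nu_one (d : ℤ) : nu d 1 = 0 := by
  obtain ⟨w, hw⟩ := ex_sqrt d
  exact (nu_eq_zero hw).2 rfl

theorem nu_mul (d : ℤ) (g h : GQ) : nu d (g * h) = nu d g + nu d h := by
  by_cases hd : d = 0
  · subst hd; simp [nu_zero]
  obtain ⟨w, hw⟩ := ex_sqrt d
  rcases z2 (nu d g) with a | a <;> rcases z2 (nu d h) with b | b <;> rw [a, b]
  · exact (nu_eq_zero hw).2 (by
      rw [AlgEquiv.mul_apply, (nu_eq_zero hw).1 b, (nu_eq_zero hw).1 a])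
  · exact (nu_eq_one hd hw).2 (by
      rw [AlgEquiv.mul_apply, (nu_eq_one hd hw).1 b, map_neg, (nu_eq_zero hw).1 a])
  · exact (nu_eq_one hd hw).2 (by
      rw [AlgEquiv.mul_apply, (nu_eq_zero hw).1 b, (nu_eq_one hd hw).1 a])
  · exact (nu_eq_zero hw).2 (by
      rw [AlgEquiv.mul_apply, (nu_eq_one hd hw).1 b, map_neg, (nu_eq_one hd hw).1 a, neg_neg])

theorem nu_inv (d : ℤ) (g : GQ) : nu d g⁻¹ = nu d g := by
  have h := nu_mul d g⁻¹ g
  rw [inv_mul_cancel, nu_one] at h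
  revert h; generalize nu d g⁻¹ = a; generalize nu d g = b; revert a b; decide

theorem nu_conj (d : ℤ) (g h : GQ) : nu d (g * h * g⁻¹) = nu d h := by
  rw [nu_mul, nu_mul, nu_inv]
  generalize nu d g = a; generalize nu d h = b; revert a b; decide

theorem nu_mul_left {d e : ℤ} (hd : d ≠ 0) (he : e ≠ 0) (g : GQ) :
    nu (d * e) g = nu d g + nu e g := by
  obtain ⟨w, hw⟩ := ex_sqrt d
  obtain ⟨v, hv⟩ := ex_sqrt e
  have hm : (w * v) ^ 2 = ((d * e : ℤ) : Qb) := by rw [mul_pow, hw, hv, Int.cast_mul]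
  have h0 := mul_ne_zero hd he
  rcases z2 (nu d g) with a | a <;> rcases z2 (nu e g) with b | b <;> rw [a, b]
  · exact (nu_eq_zero hm).2 (by rw [map_mul, (nu_eq_zero hw).1 a, (nu_eq_zero hv).1 b])
  · exact (nu_eq_one h0 hm).2 (by
      rw [map_mul, (nu_eq_zero hw).1 a, (nu_eq_one he hv).1 b, mul_neg])
  · exact (nu_eq_one h0 hm).2 (by
      rw [map_mul, (nu_eq_one hd hw).1 a, (nu_eq_zero hv).1 b, neg_mul])
  · exact (nu_eq_zero hm).2 (by
      rw [map_mul, (nu_eq_one hd hw).1 a, (nu_eq_one he hv).1 b, neg_mul_neg])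

theorem nu_mul_sq {d e : ℤ} (hd : d ≠ 0) (he : e ≠ 0) (g : GQ) : nu (d * e ^ 2) g = nu d g := by
  rw [nu_mul_left hd (pow_ne_zero 2 he), sq, nu_mul_left he he, CharTwo.add_self_eq_zero, add_zero]

theorem nu_prod {ι : Type} (T : Finset ι) (f : ι → ℤ) (hf : ∀ i ∈ T, f i ≠ 0) (g : GQ) :
    nu (∏ i ∈ T, f i) g = ∑ i ∈ T, nu (f i) g := by
  classical
  induction T using Finset.induction_on with
  | empty => simp [nu_one_left]
  | insert i T hi ih =>
    rw [Finset.prod_insert hi, Finset.sum_insert hi,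
      nu_mul_left (hf i (Finset.mem_insert_self _ _))
        (Finset.prod_ne_zero_iff.2 fun j hj => hf j (Finset.mem_insert_of_mem hj)),
      ih fun j hj => hf j (Finset.mem_insert_of_mem hj)]

theorem nu_dd {ι : Type} [Fintype ι] {m : ℤ} (hm : m ≠ 0) {y : ι → ℕ} (hy : ∀ i, y i ≠ 0)
    (g : GQ) : nu (dd m y) g = nu m g + ∑ i, nu (y i) g := by
  have h : ∀ i ∈ Finset.univ, (y i : ℤ) ≠ 0 := fun i _ => Int.natCast_ne_zero.2 (hy i)
  rw [dd, nu_mul_left hm (Finset.prod_ne_zero_iff.2 h), nu_prod _ _ h]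

/-- the kernel of `nu d` -/
def kn (d : ℤ) : Subgroup GQ where
  carrier := {g | nu d g = 0}
  mul_mem' {g h} hg hh := by
    show nu d (g * h) = 0
    rw [nu_mul, hg, hh, add_zero]
  one_mem' := nu_one d
  inv_mem' {g} hg := (nu_inv d g).trans hg

theorem mem_kn {d : ℤ} {g : GQ} : g ∈ kn d ↔ nu d g = 0 := Iff.rfl

theorem kn_open (d : ℤ) : IsOpen (kn d : Set GQ) := by
  obtain ⟨w, hw⟩ := ex_sqrt d
  have h := stabilizer_isOpen_of_isIntegral (K := ℚ) w
  convert h using 1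
  ext g
  exact nu_eq_zero hw

/-- an additive function with an open kernel is locally constant -/
theorem lc_of_open {A : Type} [AddGroup A] {f : GQ → A} {U : Set GQ} (hU : IsOpen U)
    (h1 : (1 : GQ) ∈ U) (hf : ∀ g, ∀ u ∈ U, f (g * u) = f g) : IsLocallyConstant f := by
  refine (IsLocallyConstant.iff_exists_open f).2 fun g => ⟨(fun x => g⁻¹ * x) ⁻¹' U,
    hU.preimage (continuous_const.mul continuous_id), by simpa using h1, fun x hx => ?_⟩
  rw [← hf g _ hx, mul_inv_cancel_left]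

theorem nu_lc (d : ℤ) : IsLocallyConstant (nu d) :=
  lc_of_open (kn_open d) (one_mem _) fun g u hu => by rw [nu_mul, mem_kn.1 hu, add_zero]

theorem nu_ch (d : ℤ) (H : Subgroup GQ) : Ch H (nu d) :=
  ⟨(nu_lc d).comp_continuous continuous_subtype_val, fun x y => nu_mul d x y⟩

theorem ov_dvd {l : ℕ} {P : Ideal (𝓞 Qb)} (h : Ov l P) {a : ℤ} (ha : (a : 𝓞 Qb) ∈ P) :
    (l : ℤ) ∣ a := by
  by_contra k
  have hc : IsCoprime (l : ℤ) a :=
    ((Nat.prime_iff_prime_int.1 h.1).irreducible.coprime_iff_not_dvd).2 k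
  obtain ⟨u, v, e⟩ := hc
  have h1 : (1 : 𝓞 Qb) ∈ P := by
    have : ((u * l + v * a : ℤ) : 𝓞 Qb) ∈ P := by
      push_cast
      exact P.add_mem (P.mul_mem_left _ h.2.2) (P.mul_mem_left _ ha)
    simpa [e] using this
  exact h.2.1.ne_top ((Ideal.eq_top_iff_one P).2 h1)

theorem nu_inert {l : ℕ} {P : Ideal (𝓞 Qb)} (h : Ov l P) (h2 : l ≠ 2) {d : ℤ}
    (hd : ¬ (l : ℤ) ∣ d) {g : GQ} (hg : Inert P g) : nu d g = 0 := by
  obtain ⟨w, hw⟩ := ex_sqrt d
  have d0 : d ≠ 0 := fun k => hd (k ▸ dvd_zero _)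
  refine (z2 _).resolve_right fun k => ?_
  have hi : IsIntegral ℤ w := IsIntegral.of_pow two_pos (hw ▸ isIntegral_algebraMap (x := d))
  obtain ⟨x, hx⟩ : ∃ x : 𝓞 Qb, (x : Qb) = w := ⟨⟨w, hi⟩, rfl⟩
  have h1 := hg x
  have e : g • x = -x := by
    apply RingOfIntegers.ext
    have : ((g • x : 𝓞 Qb) : Qb) = g (x : Qb) := rfl
    rw [this, hx, (nu_eq_one d0 hw).1 k, ← hx]
    exact (map_neg (algebraMap (𝓞 Qb) Qb) x).symm
  have e1 : x ^ 2 = (d : 𝓞 Qb) := by
    apply RingOfIntegers.ext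
    have a1 := map_pow (algebraMap (𝓞 Qb) Qb) x 2
    have a2 := map_intCast (algebraMap (𝓞 Qb) Qb) d
    exact a1.trans (Eq.trans (by rw [← hw, ← hx]) a2.symm)
  rw [e] at h1
  have h3 : ((4 * d : ℤ) : 𝓞 Qb) ∈ P := by
    have e2 : ((4 * d : ℤ) : 𝓞 Qb) = (-x - x) * (-x - x) := by
      push_cast
      rw [← e1]; ring
    rw [e2]
    exact P.mul_mem_left _ h1
  rcases (Nat.prime_iff_prime_int.1 h.1).dvd_or_dvd (ov_dvd h h3) with k4 | k4
  · have : l ∣ 2 ^ 2 := by exact_mod_cast k4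
    exact h2 ((Nat.prime_dvd_prime_iff_eq h.1 Nat.prime_two).1 (h.1.dvd_of_dvd_pow this))
  · exact hd k4

theorem nu_gn {l : ℕ} {P : Ideal (𝓞 Qb)} (h : Ov l P) {τ : GQ} (hτ : Gn l P τ) : nu l τ = 1 := by
  obtain ⟨w, hw⟩ := ex_sqrt (l : ℤ)
  exact (nu_eq_one (Int.natCast_ne_zero.2 h.1.ne_zero) hw).2 (hτ.2 w (by exact_mod_cast hw))

/-- on the inertia group at a prime of a squarefree number -/
theorem nu_inert_dvd {l : ℕ} {P : Ideal (𝓞 Qb)} (h : Ov l P) (h2 : l ≠ 2) {d : ℤ}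
    (hs : Squarefree d) (hd : (l : ℤ) ∣ d) {g : GQ} (hg : Inert P g) : nu d g = nu l g := by
  obtain ⟨e, rfl⟩ := hd
  have he : ¬ (l : ℤ) ∣ e := fun k =>
    (Nat.prime_iff_prime_int.1 h.1).not_unit (hs _ (mul_dvd_mul_left _ k))
  rw [nu_mul_left (Int.natCast_ne_zero.2 h.1.ne_zero) (fun k => he (by rw [k]; exact dvd_zero _)),
    nu_inert h h2 he hg, add_zero]

theorem nu_tau {l : ℕ} {P : Ideal (𝓞 Qb)} (h : Ov l P) (h2 : l ≠ 2) {d : ℤ}
    (hs : Squarefree d) (hd : (l : ℤ) ∣ d) {τ : GQ} (hτ : Gn l P τ) : nu d τ = 1 :=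
  (nu_inert_dvd h h2 hs hd hτ.1).trans (nu_gn h hτ)

theorem nu_nat_conj (x : ℕ) {c : GQ} (hc : IsConj c) : nu x c = 0 := by
  obtain ⟨w, hw⟩ := ex_sqrt (x : ℤ)
  obtain ⟨φ, hφ⟩ := hc
  refine (nu_eq_zero hw).2 (φ.injective ?_)
  rw [hφ]
  have h1 : (φ w) ^ 2 = ((Real.sqrt x : ℝ) : ℂ) ^ 2 := by
    rw [← map_pow, hw, ← Complex.ofReal_pow, Real.sq_sqrt (Nat.cast_nonneg x)]
    simp
  rcases sq_eq_sq_iff_eq_or_eq_neg.1 h1 with k | k <;> rw [k] <;> simp

theorem nu_neg_conj {d : ℤ} (hd : d < 0) {c : GQ} (hc : IsConj c) : nu d c = 1 := by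
  obtain ⟨w, hw⟩ := ex_sqrt d
  obtain ⟨φ, hφ⟩ := hc
  refine (z2 _).resolve_left fun k => ?_
  have h1 := hφ w
  rw [(nu_eq_zero hw).1 k] at h1
  obtain ⟨t, ht⟩ := Complex.conj_eq_iff_real.1 h1.symm
  have h2 : ((t ^ 2 : ℝ) : ℂ) = ((d : ℝ) : ℂ) := by
    rw [Complex.ofReal_pow, ← ht, ← map_pow, hw]; simp
  have h3 : t ^ 2 = d := Complex.ofReal_injective h2
  have h4 : (d : ℝ) < 0 := by exact_mod_cast hd
  nlinarith [sq_nonneg t]

/-! ### signs and the action -/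

theorem sg_or (d : ℤ) (g : GQ) : sg d g = 1 ∨ sg d g = -1 := by
  unfold sg; split_ifs <;> simp

theorem sg_of_zero {d : ℤ} {g : GQ} (h : nu d g = 0) : sg d g = 1 := if_pos h

theorem sg_of_one {d : ℤ} {g : GQ} (h : nu d g = 1) : sg d g = -1 :=
  if_neg (h ▸ one_ne_zero)

theorem sg_congr {d e : ℤ} {g h : GQ} (k : nu d g = nu e h) : sg d g = sg e h := by
  unfold sg; rw [k]

theorem sg_add {d e f : ℤ} {g h k : GQ} (x : nu d g = nu e h + nu f k) :
    sg d g = sg e h * sg f k := by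
  unfold sg
  rw [x]
  rcases z2 (nu e h) with a | a <;> rcases z2 (nu f k) with b | b <;> rw [a, b] <;> simp
  exact fun k => absurd (by decide) k

theorem sg_mul (d : ℤ) (g h : GQ) : sg d (g * h) = sg d g * sg d h := sg_add (nu_mul d g h)

theorem sg_one (d : ℤ) : sg d 1 = 1 := sg_of_zero (nu_one d)

theorem sg_sq (d : ℤ) (g : GQ) : sg d g * sg d g = 1 := by
  rcases sg_or d g with h | h <;> simp [h]

theorem norm_sg (d : ℤ) (g : GQ) : ‖sg d g‖ = 1 := by
  rcases sg_or d g with h | h <;> simp [h]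

theorem sg_eq (d : ℤ) (g : GQ) : sg d g = 1 - 2 * ((nu d g).val : ℚ_[2]) := by
  rcases z2 (nu d g) with h | h
  · rw [sg_of_zero h, h]; simp
  · rw [sg_of_one h, h, ZMod.val_one]; norm_num

theorem sg_cont (d : ℤ) : Continuous (sg d) :=
  ((nu_lc d).comp fun a => if a = 0 then (1 : ℚ_[2]) else -1).continuous

variable {r : Rp} {S : Finset ℕ}

theorem mt_mul (r : Rp) (g h : GQ) : mt r (g * h) = mt r g * mt r h := by
  simp only [mt, map_mul, Units.val_mul]

theorem mt_one (r : Rp) : mt r 1 = 1 := by simp only [mt, map_one, Units.val_one]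

theorem ep_mul (r : Rp) (g h : GQ) : ep r (g * h) = ep r g * ep r h := by
  simp only [ep, mt_mul, det_mul]

theorem ep_one (r : Rp) : ep r 1 = 1 := by simp only [ep, mt_one, det_one]

theorem ac_mul (r : Rp) (d : ℤ) (g h : GQ) (v : V) :
    ac r d (g * h) v = ac r d g (ac r d h v) := by
  simp only [ac, sg_mul, mt_mul, mulVec_smul, smul_smul, mulVec_mulVec]

theorem ac_one (r : Rp) (d : ℤ) (v : V) : ac r d 1 v = v := by
  simp only [ac, sg_one, mt_one, one_mulVec, one_smul]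

theorem ac_add (r : Rp) (d : ℤ) (g : GQ) (u v : V) :
    ac r d g (u + v) = ac r d g u + ac r d g v := by simp only [ac, mulVec_add, smul_add]

theorem ac_sub (r : Rp) (d : ℤ) (g : GQ) (u v : V) :
    ac r d g (u - v) = ac r d g u - ac r d g v := by simp only [ac, mulVec_sub, smul_sub]

theorem ac_neg (r : Rp) (d : ℤ) (g : GQ) (u : V) : ac r d g (-u) = -ac r d g u := by
  simp only [ac, mulVec_neg, smul_neg]

theorem ac_zero (r : Rp) (d : ℤ) (g : GQ) : ac r d g 0 = 0 := by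
  simp only [ac, mulVec_zero, smul_zero]

theorem ac_smul (r : Rp) (d : ℤ) (g : GQ) (a : ℚ_[2]) (u : V) :
    ac r d g (a • u) = a • ac r d g u := by simp only [ac, mulVec_smul, smul_comm a]

theorem ac_congr (r : Rp) {d e : ℤ} {g : GQ} (h : nu d g = nu e g) (v : V) :
    ac r d g v = ac r e g v := by rw [ac, ac, sg_congr h]

/-- the action as a linear map -/
def acL (r : Rp) (d : ℤ) (g : GQ) : V →ₗ[ℚ_[2]] V where
  toFun := ac r d g
  map_add' := ac_add r d g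
  map_smul' := ac_smul r d g

theorem norm_add_le' {E : Type} [SeminormedAddCommGroup E] [IsUltrametricDist E] {x y : E} {c : ℝ}
    (hx : ‖x‖ ≤ c) (hy : ‖y‖ ≤ c) : ‖x + y‖ ≤ c :=
  (IsUltrametricDist.norm_add_le_max x y).trans (max_le hx hy)

theorem norm_sub_le' {E : Type} [SeminormedAddCommGroup E] [IsUltrametricDist E] {x y : E} {c : ℝ}
    (hx : ‖x‖ ≤ c) (hy : ‖y‖ ≤ c) : ‖x - y‖ ≤ c := by
  rw [sub_eq_add_neg]; exact norm_add_le' hx (by rwa [norm_neg])

theorem norm_mulVec_le {M : Matrix (Fin 2) (Fin 2) ℚ_[2]} {c : ℝ} (hM : ∀ i j, ‖M i j‖ ≤ c)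
    (v : V) : ‖M *ᵥ v‖ ≤ c * ‖v‖ := by
  have hc : 0 ≤ c := (norm_nonneg _).trans (hM 0 0)
  refine (pi_norm_le_iff_of_nonneg (by positivity)).2 fun i => ?_
  rw [mulVec, dotProduct, Fin.sum_univ_two]
  refine norm_add_le' ?_ ?_ <;> rw [norm_mul] <;>
    exact mul_le_mul (hM _ _) (norm_le_pi_norm v _) (norm_nonneg _) hc

theorem Rep.norm_mt (h : Rep r S) (g : GQ) (v : V) : ‖mt r g *ᵥ v‖ ≤ ‖v‖ := by
  simpa using norm_mulVec_le (h.int g) v

theorem Rep.norm_ac (h : Rep r S) (d : ℤ) (g : GQ) (v : V) : ‖ac r d g v‖ ≤ ‖v‖ := by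
  rw [ac, norm_smul, norm_sg, one_mul]; exact h.norm_mt g v

theorem Rep.mt_cont (h : Rep r S) : Continuous (mt r) :=
  continuous_pi fun i => continuous_pi fun j => h.cont i j

theorem Rep.ep_cont (h : Rep r S) : Continuous (ep r) := h.mt_cont.matrix_det

theorem Rep.ac_cont (h : Rep r S) (d : ℤ) {X : Type} [TopologicalSpace X] {f : X → GQ}
    {a : X → V} (hf : Continuous f) (ha : Continuous a) :
    Continuous fun x => ac r d (f x) (a x) :=
  ((sg_cont d).comp hf).smul ((h.mt_cont.comp hf).matrix_mulVec ha)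

theorem Rep.mt_inert (h : Rep r S) {l : ℕ} {P : Ideal (𝓞 Qb)} (ho : Ov l P) (hl : l ∉ S) {g : GQ}
    (hg : Inert P g) : mt r g = 1 := by
  rw [mt, h.unr l ho.1 hl P ho.2.1 ho.2.2 g hg, Units.val_one]

theorem Rep.ne_two (h : Rep r S) {l : ℕ} (hl : l ∉ S) : l ≠ 2 := fun k => hl (k ▸ h.two)

theorem Rep.mono (h : Rep r S) {S' : Finset ℕ} (hS : S ⊆ S') : Rep r S' :=
  ⟨h.cont, h.int, hS h.two, fun l hl k => h.unr l hl fun j => k (hS j),
    fun l hl k => h.frob l hl fun j => k (hS j), h.irr⟩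

/-! ### the alternating form -/

section wp

variable {R : Type} [CommRing R]

theorem wp_add_left (u u' v : Fin 2 → R) : wp (u + u') v = wp u v + wp u' v := by
  simp only [wp, Pi.add_apply]; ring

theorem wp_add_right (u v v' : Fin 2 → R) : wp u (v + v') = wp u v + wp u v' := by
  simp only [wp, Pi.add_apply]; ring

theorem wp_sub_left (u u' v : Fin 2 → R) : wp (u - u') v = wp u v - wp u' v := by
  simp only [wp, Pi.sub_apply]; ring

theorem wp_sub_right (u v v' : Fin 2 → R) : wp u (v - v') = wp u v - wp u v' := by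
  simp only [wp, Pi.sub_apply]; ring

theorem wp_smul_left (a : R) (u v : Fin 2 → R) : wp (a • u) v = a * wp u v := by
  simp only [wp, Pi.smul_apply, smul_eq_mul]; ring

theorem wp_smul_right (a : R) (u v : Fin 2 → R) : wp u (a • v) = a * wp u v := by
  simp only [wp, Pi.smul_apply, smul_eq_mul]; ring

theorem wp_zero_left (v : Fin 2 → R) : wp 0 v = 0 := by simp [wp]

theorem wp_zero_right (v : Fin 2 → R) : wp v 0 = 0 := by simp [wp]

theorem wp_mulVec (M : Matrix (Fin 2) (Fin 2) R) (u v : Fin 2 → R) :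
    wp (M *ᵥ u) (M *ᵥ v) = M.det * wp u v := by
  simp only [wp, mulVec, dotProduct, Fin.sum_univ_two, det_fin_two]; ring

end wp

theorem wp_ac (r : Rp) (d : ℤ) (g : GQ) (u v : V) :
    wp (ac r d g u) (ac r d g v) = ep r g * wp u v := by
  rw [ac, ac, wp_smul_left, wp_smul_right, ← mul_assoc, sg_sq, one_mul, wp_mulVec, ep]

theorem norm_wp_le (u v : V) : ‖wp u v‖ ≤ ‖u‖ * ‖v‖ := by
  refine norm_sub_le' ?_ ?_ <;> rw [norm_mul] <;>
    exact mul_le_mul (norm_le_pi_norm u _) (norm_le_pi_norm v _) (norm_nonneg _) (norm_nonneg _)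

theorem wp_cont {X : Type} [TopologicalSpace X] {a b : X → V} (ha : Continuous a)
    (hb : Continuous b) : Continuous fun x => wp (a x) (b x) := by
  unfold wp; fun_prop

end Vale.Agent.P004S
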