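import Vale.Agent.P004S.Bas3
import Vale.Agent.P022K.Cheb.Main
import Vale.Agent.P022K.G2.Lpc

/-!
# P004, block SMITH: the rows `PL`, `CYC`, `LOCF` (helper7)
-/

set_option linter.all false

noncomputable section

namespace Vale.Agent.P004S

open NumberField Matrix Filter Topology
open Vale.Agent.P022 (Qb GQ IsConj Irred UnrAt IsFrob)
open Vale.Agent.P027M.S (Inert)
open Vale.Agent.P022D.W (dec)
open Vale.Agent.P022E.GW (Ov Fb Gn Ch)

/-- **row PL** -/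
theorem pl_ex : PL := by
  have : ∀ p : ℕ, ∃ (P : Ideal (𝓞 Qb)) (σ τ : GQ), p.Prime → Ov p P ∧ Fb p P σ ∧ Gn p P τ :=
    fun p => by
      by_cases hp : p.Prime
      · obtain ⟨P, h⟩ := P022.H916.exists_prime hp
        obtain ⟨F, e⟩ := P022D.W.exists_phi hp h.1 h.2
        obtain ⟨τ, k⟩ := P022E.GW.Tg.ex_gn' (q := p) (P := P) ⟨hp, h⟩
        exact ⟨P, F, τ, fun _ => ⟨⟨hp, h⟩, e, k⟩⟩
      · exact ⟨⊥, 1, 1, fun e => absurd e hp⟩
  choose P σ τ h using this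
  exact ⟨⟨P, σ, τ, fun l hl => (h l hl).1, fun l hl => (h l hl).2.1, fun l hl _ => (h l hl).2.2⟩⟩

/-- **row CYC** -/
theorem cyc_ep : CYC := by
  intro r S h g n a z hz ha
  have o1 : IsOpen {φ : GQ | ‖ep r φ - ep r g‖ < (1 / 2) ^ n} :=
    isOpen_lt (h.ep_cont.sub continuous_const).norm continuous_const
  have o2 : IsOpen {φ : GQ | φ z = g z} := by
    have := (P022E.GW.Kc.stab_open z).preimage (f := fun φ : GQ => g⁻¹ * φ)
      (continuous_const.mul continuous_id)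
    convert this using 1
    ext φ
    show φ z = g z ↔ (g⁻¹ * φ) z = z
    rw [AlgEquiv.mul_apply]
    constructor
    · intro e
      rw [e, ← AlgEquiv.mul_apply, inv_mul_cancel]; rfl
    · intro e
      conv_rhs => rw [← e, ← AlgEquiv.mul_apply, mul_inv_cancel]
      rfl
  obtain ⟨l, φ, hl, hS, hF, h1, h2⟩ := P022K.Cheb.exists_fr (o1.inter o2) (g := g)
    ⟨by simp, rfl⟩ S
  have e := (h.frob l hl hS φ hF).1
  haveI : NeZero (2 ^ n) := ⟨pow_ne_zero _ two_ne_zero⟩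
  have nd : ¬ l ∣ 2 ^ n := fun k =>
    h.ne_two hS ((Nat.prime_dvd_prime_iff_eq hl Nat.prime_two).1 (hl.dvd_of_dvd_pow k))
  have c1 := P022.H853.cyc_spec (m := 2 ^ n) φ hz
  rw [P022.H853.cyc_frob hl nd hF, ZMod.val_natCast, ← pow_eq_pow_mod l hz] at c1
  have h3 : ‖(((l : ℤ) - a : ℤ) : ℚ_[2])‖ ≤ ((2 : ℕ) : ℝ) ^ (-(n : ℤ)) := by
    have e1 : (((l : ℤ) - a : ℤ) : ℚ_[2]) = (ep r φ - ep r g) + (ep r g - a) := by
      rw [e]; push_cast; ring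
    have e2 : ((2 : ℕ) : ℝ) ^ (-(n : ℤ)) = (1 / 2) ^ n := by
      rw [_root_.zpow_neg, _root_.zpow_natCast, one_div, inv_pow]; norm_num
    rw [e1, e2]
    exact norm_add_le' (le_of_lt h1) ha
  have h4 : a ≡ l [MOD 2 ^ n] := by
    rw [Nat.modEq_iff_dvd]
    exact_mod_cast (Padic.norm_int_le_pow_iff_dvd _ n).1 h3
  have h5 : φ z = g z := h2
  rw [← h5, c1, pow_eq_pow_mod l hz, pow_eq_pow_mod a hz, h4]

open P022K in
/-- **row LOCF** -/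
theorem locf : LOCF := by
  intro H l P hH hP
  have pd : G2.Pd ∅ (H ⊓ dec P) H (G2.tr GQ (ZMod 2)) (G2.om 2 (ZMod 2)) :=
    ⟨inferInstance, ⟨rfl, fun _ _ _ _ => (mul_one _).symm, ⊤, G2.Lv.top _, fun _ _ _ => rfl⟩,
      ⟨{1}, 1, ⟨fun r hr => Finset.mem_singleton.1 hr ▸ one_mem _,
        fun g hg => ⟨1, Finset.mem_singleton_self _, by simpa using hg.1⟩,
        fun r hr r' hr' _ => (Finset.mem_singleton.1 hr).trans (Finset.mem_singleton.1 hr').symm⟩,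
        fun _ _ _ => rfl, by simp [G2.tr]⟩,
      fun g hg u hu => H.mul_mem (H.mul_mem hg.1 hu) (H.inv_mem hg.1), G2.le_of_open hH _,
      fun _ _ _ => rfl, ⟨G2.om_two _ _, fun _ _ _ _ => by simp [G2.om_two]⟩,
      fun _ _ _ => G2.om_two _ _⟩
  have e := G2.lpc 2 (ZMod 2) (ZMod 2) H H l P _ hH hH (G2.le_gz_two H) hP pd
  have lt : G2.rk (G2.Z1 ∅ (H ⊓ dec P) (G2.tr GQ (ZMod 2))) < Cardinal.aleph0 := by
    rw [e]
    exact Cardinal.add_lt_aleph0 (Module.rank_lt_aleph0 _ _) (Cardinal.mul_lt_aleph0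
      (Cardinal.add_lt_aleph0 Cardinal.one_lt_aleph0 (Cardinal.natCast_lt_aleph0))
      (Module.rank_lt_aleph0 _ _))
  haveI : Module.Finite (ZMod 2) (G2.Z1 ∅ (H ⊓ dec P) (G2.tr GQ (ZMod 2))) :=
    Module.rank_lt_aleph0_iff.1 lt
  haveI : Finite (G2.Z1 ∅ (H ⊓ dec P) (G2.tr GQ (ZMod 2))) := Module.finite_of_finite (ZMod 2)
  refine (Set.toFinite (G2.Z1 ∅ (H ⊓ dec P) (G2.tr GQ (ZMod 2)) : Set (GQ → ZMod 2))).subset
    fun ξ ⟨h1, h2⟩ => ⟨fun g hg k hk => h1.2 ⟨g, hg⟩ ⟨k, hk⟩, h2, ?_⟩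
  have z : ξ 1 = 0 := by simpa using h1.2 1 1
  obtain ⟨O, hO, eO⟩ := isOpen_induced_iff.1 (h1.1.isOpen_fiber 0)
  have m : ∀ x : ↥(H ⊓ dec P), (x : GQ) ∈ O ↔ ξ x = 0 := fun x => Set.ext_iff.1 eO x
  obtain ⟨W, hW, k⟩ := G2.ex_lv hO ((m 1).2 z)
  exact ⟨W, hW, fun w hw mw => (m ⟨w, hw⟩).1 (k mw)⟩

end Vale.Agent.P004S
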