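import Vale.Agent.P004S.Gn3

/-!
# P004, block SMITH: the row GEN2 (helper25)
-/

set_option linter.all false

noncomputable section

namespace Vale.Agent.P004S

open NumberField Matrix Filter Topology
open Vale.Agent.P022 (Qb GQ IsConj Irred UnrAt IsFrob)
open Vale.Agent.P027M.S (Inert)
open Vale.Agent.P022D.W (dec)
open Vale.Agent.P022E.GW (Ov Fb Gn Ch)

namespace Gn

variable {r r' r₀ : Rp} {S : Finset ℕ} {pl : Pl} {U : Subgroup GQ} {s : ℕ} {y : Fin s → ℕ} {m : ℤ}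
  {Λ : Loc r} {Λ' : Loc r'} {Λ₀ : Loc r₀} {c c' : GQ → V} {u w : GL (Fin 2) ℚ_[2]}

/-- the step of the walk -/
def dm : GL (Fin 2) ℚ_[2] := ⟨!![1, 0; 0, 2], !![1, 0; 0, 1 / 2], by simp [← one_fin_two],
  by simp [← one_fin_two]⟩

/-- the exchange of the coordinates -/
def sw : GL (Fin 2) ℚ_[2] := ⟨!![0, 1; 1, 0], !![0, 1; 1, 0], by simp [← one_fin_two],
  by simp [← one_fin_two]⟩

theorem dm_inv (v : V) : dm⁻¹.1 *ᵥ v = ![v 0, v 1 / 2] := by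
  ext i
  fin_cases i <;> simp [dm, mulVec, dotProduct]
  ring

theorem sw_inv (v : V) : sw⁻¹.1 *ᵥ v = ![v 1, v 0] := by
  ext i
  fin_cases i <;> simp [sw, mulVec, dotProduct]

theorem dm_mt (k : ∀ g, r' g = dm⁻¹ * r g * dm) (g : GQ) :
    mt r' g = !![mt r g 0 0, 2 * mt r g 0 1; mt r g 1 0 / 2, mt r g 1 1] := by
  rw [Cg.mt_eq k]
  ext i j
  fin_cases i <;> fin_cases j <;> simp [dm, mul_apply, vecMul, dotProduct] <;> ring

theorem sw_mt (k : ∀ g, r' g = sw⁻¹ * r g * sw) (g : GQ) :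
    mt r' g = !![mt r g 1 1, mt r g 1 0; mt r g 0 1, mt r g 0 0] := by
  rw [Cg.mt_eq k]
  ext i j
  fin_cases i <;> fin_cases j <;> simp [sw, mul_apply, vecMul, dotProduct]

theorem sw_int (i j : Fin 2) : ‖sw.1 i j‖ ≤ 1 := by fin_cases i <;> fin_cases j <;> simp [sw]

theorem rel (h : Chg r₀ Λ₀ r Λ u) (h' : Chg r₀ Λ₀ r' Λ' (u * w)) : Chg r Λ r' Λ' w :=
  ⟨fun g => by rw [h'.1, h.1]; group, fun d c => (h'.2 d c).trans (by
    rw [h.2]; simp only [Units.val_mul, mulVec_mulVec])⟩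

theorem mle {A B : Matrix (Fin 2) (Fin 2) ℚ_[2]} {a b : ℝ} (hA : ∀ i j, ‖A i j‖ ≤ a)
    (hB : ∀ i j, ‖B i j‖ ≤ b) (i j : Fin 2) : ‖(A * B) i j‖ ≤ a * b := by
  rw [mul_apply, Fin.sum_univ_two]
  refine norm_add_le' ?_ ?_ <;> rw [norm_mul] <;>
    exact mul_le_mul (hA _ _) (hB _ _) (norm_nonneg _) ((norm_nonneg _).trans (hA 0 0))

theorem iso (k : ∀ g, r' g = w⁻¹ * r g * w) (a : ∀ i j, ‖w.1 i j‖ ≤ 1) (b : ∀ i j, ‖w⁻¹.1 i j‖ ≤ 1)
    (h : Rep r S) (t : TrB r) : Rep r' S ∧ TrB r' := by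
  have h' := Cg.rep k h fun g i j => by simpa [Cg.mt_eq k] using mle (mle b (h.int g)) a i j
  refine ⟨h', fun g => h'.tr_one_iff.1 fun i j => ?_⟩
  have := mle (mle b (h.tr_one_iff.2 (t g))) a i j
  rwa [Matrix.mul_sub, Matrix.sub_mul, Matrix.mul_one, Units.inv_mul, ← Cg.mt_eq k, one_mul,
    mul_one] at this

/-- some element is diagonal with the eigenvalues `1` and `-1` -/
def Dg (r : Rp) : Prop := ∃ g, mt r g 0 1 = 0 ∧ mt r g 1 0 = 0 ∧ mt r g 1 1 = -mt r g 0 0 ∧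
  mt r g 0 0 ^ 2 = 1

theorem ex_diag (h : Rep r S) (hc : Cyc r) (t : TrB r) : ∃ u : GL (Fin 2) ℚ_[2],
    (∀ i j, ‖u.1 i j‖ ≤ 1) ∧ (∀ i j, ‖u⁻¹.1 i j‖ ≤ 1) ∧
      ∀ r' : Rp, (∀ g, r' g = u⁻¹ * r g * u) → Dg r' := by
  obtain ⟨j, -, a, b⟩ := ex_cj hc
  have k : ∀ i i', ‖(mt r j - 1) i i' / 2‖ ≤ 1 := fun i i' => by
    simpa [div_eq_inv_mul] using Oc.half_le (h.tr_one_iff.2 (t j)) i i'
  have k0 := k 0 0
  have k1 := k 0 1
  have k2 := k 1 0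
  simp only [Matrix.sub_apply, one_apply_eq, ne_eq, zero_ne_one, one_ne_zero, not_false_eq_true,
    one_apply_ne, sub_zero] at k0 k1 k2
  obtain ⟨ε, e1, e2⟩ : ∃ ε : ℚ_[2], (ε = 1 ∨ ε = -1) ∧ ‖(1 + ε * mt r j 0 0) / 2‖ = 1 := by
    by_cases n : ‖(mt r j 0 0 - 1) / 2‖ < 1
    · refine ⟨1, .inl rfl, ?_⟩
      rw [show (1 + 1 * mt r j 0 0) / 2 = (mt r j 0 0 - 1) / 2 + 1 by ring,
        IsUltrametricDist.norm_add_eq_max_of_norm_ne_norm (by rw [norm_one]; exact n.ne), norm_one,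
        max_eq_right k0]
    · exact ⟨-1, .inr rfl, by
        rw [show (1 + -1 * mt r j 0 0) / 2 = -((mt r j 0 0 - 1) / 2) by ring, norm_neg,
          k0.eq_of_not_lt n]⟩
  have e3 : ε ^ 2 = 1 := by rcases e1 with rfl | rfl <;> simp
  have e4 : ‖ε‖ = 1 := by rcases e1 with rfl | rfl <;> simp
  obtain ⟨α, hα⟩ : ∃ α, α = (1 + ε * mt r j 0 0) / 2 := ⟨_, rfl⟩
  obtain ⟨β, hβ⟩ : ∃ β, β = ε * (mt r j 0 1 / 2) := ⟨_, rfl⟩
  obtain ⟨γ, hγ⟩ : ∃ γ, γ = ε * (mt r j 1 0 / 2) := ⟨_, rfl⟩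
  have n1 : ‖β‖ ≤ 1 := by rwa [hβ, norm_mul, e4, one_mul]
  have n2 : ‖γ‖ ≤ 1 := by rwa [hγ, norm_mul, e4, one_mul]
  rw [← hα] at e2
  have α0 : α ≠ 0 := norm_ne_zero_iff.1 (by rw [e2]; simp)
  have q : α * α + β * γ = α := by
    rw [hα, hβ, hγ]
    linear_combination (ε ^ 2 / 4) * b + (1 / 4 : ℚ_[2]) * e3
  have M : mt r j = ε • !![2 * α - 1, 2 * β; 2 * γ, 1 - 2 * α] := by
    ext i i'
    fin_cases i <;> fin_cases i' <;> simp [hα, hβ, hγ, a]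
    exacts [by linear_combination (-mt r j 0 0) * e3, by linear_combination (-mt r j 0 1) * e3,
      by linear_combination (-mt r j 1 0) * e3, by linear_combination (mt r j 0 0) * e3]
  refine ⟨⟨!![α, -β; γ, α], !![1, β / α; -γ / α, 1], ?_, ?_⟩, fun i i' => ?_, fun i i' => ?_,
    fun r' k => ⟨j, ?_⟩⟩
  · ext i i'
    fin_cases i <;> fin_cases i' <;> simp [mul_apply] <;> field_simp <;>
      first | linear_combination q | ring
  · ext i i'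
    fin_cases i <;> fin_cases i' <;> simp [mul_apply] <;> field_simp <;>
      first | linear_combination q | ring
  · fin_cases i <;> fin_cases i' <;> simp [n1, n2, e2]
  · fin_cases i <;> fin_cases i' <;> simp [n1, n2, e2]
  · have : mt r' j = !![ε, 0; 0, -ε] := by
      rw [Cg.mt_eq k, Matrix.mul_assoc, Units.inv_mul_eq_iff_eq_mul, M]
      ext i i'
      fin_cases i <;> fin_cases i' <;> simp [mul_apply]
      exacts [by linear_combination 2 * ε * q, by ring, by ring, by linear_combination -2 * ε * q]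
    simp [this, e3]

attribute [local instance] dF dN dZ

theorem d12 : ∀ (A : Matrix (Fin 2) (Fin 2) (ZMod 2)) (x : N), A 0 1 = 0 → A 1 0 = 0 →
    A 0 0 = A 1 1 + 1 → tn (pj 0 x) ![1, 0] = dg A x - A 1 1 • x := by
  simp only [pj_apply, Ms.dg_apply]
  decide +kernel

theorem d13 : ∀ (A : Matrix (Fin 2) (Fin 2) (ZMod 2)) (f : F), f ≠ 0 →
    pj 1 (dg A (tn f ![1, 0])) = 0 → A 1 0 = 0 := by
  simp only [pj_apply, Ms.dg_apply]
  decide +kernel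

theorem core (P : Pt r S pl m y) (t : TrB r) (D : Dg r) (hU : Gd S U) (k : Kil S ⊤ U)
    (oc : Occ pl U y) (ng : ¬ Gen r S Λ pl (fun _ _ => 1) m y) (p₀ : Pair r Λ (dd m y) c c') :
    (∃ x ∈ Hh r pl y c c', pj 0 x ≠ 0 ∨ pj 1 x ≠ 0) ∧ ((∃ x ∈ Hh r pl y c c', pj 0 x ≠ 0) →
      Chg r Λ r' Λ' dm → (∀ g, bb r g = 0) ∧
        ∃ c₁ c₁', Pair r' Λ' (dd m y) c₁ c₁' ∧ ∃ x ∈ Hh r' pl y c₁ c₁', pj 0 x ≠ 0) := by
  have h := P.rep
  obtain ⟨i, -⟩ := occ_all hU oc 1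
  obtain ⟨c, c', p, nm, e⟩ := P.norm p₀ i fun g => by rw [t g, Ms.dg_one]
  rw [← e]
  have st : Stab r (Hh r pl y c c') := by_contra fun n =>
    ng ⟨_, _, _, P.cl p i, .inl ⟨fun _ => rfl, n⟩⟩
  have Z : ∀ f : F, f ≠ 0 → ∃ x ∈ Hh r pl y c c', dt f (pj 0 x) = 1 ∨ dt f (pj 1 x) = 1 :=
    fun f f0 => by
      by_contra! n
      exact f0 (Prod.swap_injective (P.zero p (fun φ _ a => ⟨0, fun g => by simp [a g (t g)]⟩) hU
        (by rwa [show P.rep.Kn 1 = ⊤ from eq_top_iff.2 fun g _ => h.tr_one_iff.2 (t g)]) oc fun q hq => funext fun i => by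
          fin_cases i
          exacts [(z2 _).resolve_right (n _ (nm q hq)).1, (z2 _).resolve_right (n _ (nm q hq)).2]))
  have E : ∀ x ∈ Hh r pl y c c', tn (pj 0 x) ![1, 0] ∈ Hh r pl y c c' ∧
      tn (pj 1 x) ![0, 1] ∈ Hh r pl y c c' := fun x hx => by
    obtain ⟨g, a1, a2, a3, a4⟩ := D
    have a := st g (h.tr_one_iff.2 (t g)) x hx
    have b : tn (pj 0 x) ![1, 0] ∈ Hh r pl y c c' := d12 (Am r g) x (by simp [Am, a1, rd_zero])
      (by simp [Am, a2, rd_zero]) (am_cj h a3 (by rw [a4, a1]; simp) (t g)).1 ▸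
        sub_mem a (Submodule.smul_mem _ _ hx)
    exact ⟨b, by rw [eq_sub_of_add_eq' (dcp x).symm]; exact sub_mem hx b⟩
  have R : ∀ x ∈ Hh r pl y c c', ∀ z ∈ Hh r pl y c c', dt (pj 0 x) (pj 1 z) ≠ 1 :=
    fun x a z b e => ng (P.rich p nm e (E x a).1 (E z b).2 (by decide))
  refine ⟨(Z (1, 0) (by decide)).imp fun x a => ⟨a.1, a.2.imp (fun b n => by
    rw [n] at b; exact absurd b (by decide)) fun b n => by rw [n] at b; exact absurd b (by decide)⟩,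
    fun ⟨x, hx, n⟩ ch => ?_⟩
  have B : ∀ z ∈ Hh r pl y c c', pj 1 z = 0 := fun z hz => by
    obtain ⟨v, hv, a⟩ := Z _ n
    exact (by decide : ∀ f f' z : F, dt f z ≠ 1 → dt f' z ≠ 1 → dt f f' = 1 → z = 0) _ _ _
      (R x hx z hz) (R v hv z hz) (a.resolve_right (R x hx v hv))
  have b0 : ∀ g, bb r g = 0 := fun g => by
    simpa [Am, bb] using d13 _ _ n (B _ (st g (h.tr_one_iff.2 (t g)) _ (E x hx).1))
  obtain ⟨c₁, c₁', p₁, s₁, e₁⟩ := P.down p (fun g => by rw [t g]; rfl) (K := ⊤)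
    (fun g => by simp [b0]) hU k oc fun q hq => B _ (nm q hq)
  have e₂ : ∀ g, pj 0 (ph (Cg.ul dm⁻¹ c₁) (Cg.ul dm⁻¹ c₁') g) = pj 0 (ph c₁ c₁' g) := fun g => by
    simp only [ph, Cg.ul_apply, dm_inv]
    rfl
  obtain ⟨x', a, b⟩ := hs_map (r' := r') (π := pj 0) (π' := pj 0) (E' := fun t => ph (Cg.ul dm⁻¹ c₁)
    (Cg.ul dm⁻¹ c₁') (pl.τ (y t))) (fun g _ => by rw [t g, Ms.dg_one])
    (fun t t' => by rw [e₂, e₂, ← map_sub, e₁, map_sub]) hx
  exact ⟨b0, _, _, p₁.chg ch (fun i j => by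
    fin_cases i <;> fin_cases j <;> simp [dm, norm_two]
    norm_num) (fun g => dm_inv _ ▸ vec_le (small (p₁.i1 g) (s₁ g).1).symm)
    (fun g => dm_inv _ ▸ vec_le (small (p₁.i2 g) (s₁ g).2).symm), x', a, b ▸ n⟩

theorem dm_step (k : ∀ g, r' g = dm⁻¹ * r g * dm) (h : Rep r S) (t : TrB r) (D : Dg r)
    (b0 : ∀ g, bb r g = 0) : Rep r' S ∧ TrB r' ∧ Dg r' := by
  have a : ∀ g, ‖mt r g 1 0 / 2‖ ≤ 1 / 2 := fun g => rd_eq_zero.1 (b0 g)
  have b : ∀ g, ‖2 * mt r g 0 1‖ ≤ 1 / 2 := fun g => by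
    rw [norm_mul, norm_two]
    linarith [h.int g 0 1]
  refine ⟨Cg.rep k h fun g i j => ?_, fun g => ?_, D.imp fun g e => by simp [dm_mt k, e]⟩
  · rw [dm_mt k]
    fin_cases i <;> fin_cases j
    exacts [h.int g 0 0, (b g).trans (by norm_num), (a g).trans (by norm_num), h.int g 1 1]
  · ext i j
    rw [rb, dm_mt k]
    fin_cases i <;> fin_cases j
    exacts [congrFun (congrFun (t g) 0) 0, rd_eq_zero.2 (b g), b0 g, congrFun (congrFun (t g) 1) 1]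

end Gn

open Gn in
theorem igen2 : iGEN2 := fun cy lt cnt _ _ _ _ _ chg r S Λ pl h t => by
  choose R L ch tw _ using chg r Λ
  obtain ⟨U, hU, k⟩ := ex_kil cnt (gd_top (S := S))
  obtain ⟨u₀, i1, i2, D⟩ := ex_diag h (cy r S h) t
  obtain ⟨h₀, t₀⟩ := iso (ch u₀).1 i1 i2 h t
  have D := D _ (ch u₀).1
  have cs := rel (ch u₀) (ch (u₀ * sw))
  obtain ⟨h₁, t₁⟩ := iso cs.1 sw_int sw_int h₀ t₀
  let v : Bool → GL (Fin 2) ℚ_[2] := fun b => if b then u₀ * sw else u₀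
  have cd := fun b j => rel (ch (v b * dm ^ j)) (ch (v b * dm ^ j * dm))
  have bd : ∀ b, ∃ B : ℕ, ∀ j, Rep (R (v b * dm ^ j)) S → j < B := fun b => by
    have hb : Rep (R (v b)) S := by cases b; exacts [h₀, h₁]
    obtain ⟨g, e⟩ := hb.irr ![1, 0] (by simp)
    have n : mt (R (v b)) g 1 0 ≠ 0 := fun n => e (mt (R (v b)) g 0 0) (by
      ext i
      rw [mt] at n
      fin_cases i <;> simp [mulVec, dotProduct, n, mt])
    have a : ∀ j, mt (R (v b * dm ^ j)) g 1 0 = mt (R (v b)) g 1 0 / 2 ^ j := fun j => by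
      induction j with
      | zero => simp
      | succ j ih => rw [pow_succ, ← mul_assoc, dm_mt (cd b j).1]; simp [ih, pow_succ, div_div]
    obtain ⟨B, hB⟩ := exists_pow_lt_of_lt_one (norm_pos_iff.2 n) (show (1 / 2 : ℝ) < 1 by norm_num)
    refine ⟨B, fun j e => lt_of_not_ge fun le => ?_⟩
    have := e.int g 1 0
    rw [a, norm_div, norm_two_pow, div_le_one (by positivity)] at this
    exact (hB.trans_le this).not_ge (half_anti le)
  choose B hB using bd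
  have fin : Finite {z : Bool × ℕ // Rep (R (v z.1 * dm ^ z.2)) S ∧ TrB (R (v z.1 * dm ^ z.2))} :=
    (Set.finite_univ.prod (Set.finite_Iio (B true + B false))).subset
      (s := Set.univ ×ˢ Set.Iio _) fun ⟨b, j⟩ a => ⟨trivial, by
        have := hB b j a.1
        cases b <;> simp <;> omega⟩
  let e := (Finite.equivFin
    {z : Bool × ℕ // Rep (R (v z.1 * dm ^ z.2)) S ∧ TrB (R (v z.1 * dm ^ z.2))}).symm
  refine ⟨_, fun i => R (v (e i).1.1 * dm ^ (e i).1.2), fun i => L _, U, fun i => (e i).2, hU.opn,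
    hU.nrm, hU.uns, fun m s X K y a b T nu oc => by_contra fun ng => ?_⟩
  have H : ∀ b j, Rep (R (v b * dm ^ j)) S → TrB (R (v b * dm ^ j)) →
      ¬ Ub (R (v b * dm ^ j)) S pl m y ∧ ¬ Gen _ S (L (v b * dm ^ j)) pl (fun _ _ => 1) m y :=
    fun b j a1 a2 => by
      obtain ⟨i, hi⟩ := e.surjective ⟨(b, j), a1, a2⟩
      have := And.intro (nu i) (not_exists.1 ng i)
      beta_reduce at this
      rwa [hi] at this
  let G : GL (Fin 2) ℚ_[2] → Prop := fun u => Rep (R u) S ∧ TrB (R u) ∧ Dg (R u) ∧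
    ∃ c c', Pair (R u) (L u) (dd m y) c c' ∧ ∃ x ∈ Hh (R u) pl y c c', pj 0 x ≠ 0
  have W : ∀ β, G (v β) → False := fun β g0 => by
    have : ∀ j, G (v β * dm ^ j) := fun j => by
      induction j with
      | zero => rwa [pow_zero, mul_one]
      | succ j ih =>
        obtain ⟨a1, a2, a3, c, c', p, x⟩ := ih
        obtain ⟨b0, q⟩ := (core ⟨lt, a1, ⟨X, K, a, b⟩, (H β j a1 a2).1⟩ a2 a3 hU k oc
          (H β j a1 a2).2 p).2 x (cd β j)
        obtain ⟨b1, b2, b3⟩ := dm_step (cd β j).1 a1 a2 a3 b0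
        rw [pow_succ, ← mul_assoc]
        exact ⟨b1, b2, b3, q⟩
    exact (hB β _ (this _).1).false
  obtain ⟨c, c', p⟩ := ex_pair h₀ ((tw u₀ _).1 T)
  have H0 := H false 0
  rw [pow_zero, mul_one] at H0
  obtain ⟨x, hx, n | n⟩ := (core (Λ' := Λ) ⟨lt, h₀, ⟨X, K, a, b⟩, (H0 h₀ t₀).1⟩ t₀ D hU k oc
    (H0 h₀ t₀).2 p).1
  · exact W false ⟨h₀, t₀, D, c, c', p, x, hx, n⟩
  have e₂ : ∀ g, pj 0 (ph (Cg.ul sw⁻¹ c) (Cg.ul sw⁻¹ c') g) = pj 1 (ph c c' g) := fun g => by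
    simp only [ph, Cg.ul_apply, sw_inv]
    rfl
  obtain ⟨x', a', b'⟩ := hs_map (r' := R (u₀ * sw)) (π := pj 1) (π' := pj 0)
    (E' := fun t => ph (Cg.ul sw⁻¹ c) (Cg.ul sw⁻¹ c') (pl.τ (y t)))
    (fun g _ => by rw [t₀ g, Ms.dg_one]) (fun t t' => by rw [e₂, e₂]) hx
  exact W true ⟨h₁, t₁, D.imp fun g e => by simp [v, sw_mt cs.1, e], _, _, p.chg cs sw_int
    (fun g => sw_inv _ ▸ vec_le ⟨norm_co (p.i1 g) 1, norm_co (p.i1 g) 0⟩)
    (fun g => sw_inv _ ▸ vec_le ⟨norm_co (p.i2 g) 1, norm_co (p.i2 g) 0⟩), x', a', b' ▸ n⟩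

end Vale.Agent.P004S
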