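import Vale.Agent.P004S.All0
import Vale.Agent.P004S.Gn2

/-!
# P004, block SMITH: the output
-/

set_option linter.all false

namespace Vale.Agent.P004S

/-- the Selmer space has dimension at most one for almost all twists -/
theorem smith : SMITH :=
  smith0 (igen1 cyc_ep lt cnt cnz (cls lt) sl lp sat) (igen2 cyc_ep lt cnt cnz (cls lt) sl lp sat chg)
    (igen3 cyc_ep lt cnt cnz (cls lt) sl lp sat)

end Vale.Agent.P004S
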