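import Vale.Agent.P004S.Bx1

/-!
# P004, block SMITH, row `BOX`: typical boxes cover almost all integers
-/

set_option linter.all false

noncomputable section

namespace Vale.Agent.P004S

namespace Bq

open Finset Filter

variable {y R : ℕ}

theorem real_aux {C a M x n : ℝ} (ha : 1 ≤ a) (hM : 1 ≤ M) (hx : 0 ≤ x) (hn : 0 ≤ n)
    (h1 : C * a ^ 4 * M * x ≤ 1) (h2 : 1 ≤ C * x * n) : C * a ^ 3 * M * x ≤ 1 / a ∧ a ≤ n := by
  have h3 : 0 ≤ C * x := by
    by_contra k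
    nlinarith
  refine ⟨(le_div_iff₀ (by linarith)).2 (by linarith), ?_⟩
  have h4 : a ≤ a ^ 4 * M := (le_self_pow₀ ha (by norm_num)).trans
    (le_mul_of_one_le_right (by positivity) hM)
  have h5 : C * x * a ≤ 1 := (mul_le_mul_of_nonneg_left h4 h3).trans (by linarith)
  nlinarith

theorem nice {pl : Pl} {S : Finset ℕ} {A t₀ N : ℕ} {C δ : ℝ} (hδ : 0 < δ)
    (hP : ∀ (n t t' : ℕ) (L : ℝ), t₀ ≤ t → (t : ℝ) + t / Real.log t ≤ t' → t' ≤ 2 * t → 1 ≤ L →
      Equi pl (pr t t') n L (C * n ^ 3 * L * (t : ℝ) ^ (-δ)) ∧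
        1 ≤ C * (t : ℝ) ^ (-δ) * (pr t t').card)
    (hA : 1 ≤ A) (ht : t₀ ≤ y) (hS : S.sup id ≤ y) (h2 : 2 ≤ R) (hy : R ≤ y)
    (hl : (R : ℝ) ≤ Real.log y) {d : ℤ} (hd : Squarefree d) (hN : |d| ≤ N)
    (hi : Set.InjOn (ix y R) (bp y d)) (h1 : A * (ff (pp 0 y) d.natAbs + 1) ≤ (bp y d).card)
    {L : ℝ} (hL : L = Real.log N + (1 + ∑ l ∈ S, Real.log l))
    (h3 : C * A ^ (4 * (bp y d).card + 1) * ((bp y d).card + 1) * L ≤ (y : ℝ) ^ δ) :
    Nice pl S A (bx y R L (lb y R d)) := by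
  have es : (lb y R d).2.card = (bp y d).card := card_image_of_injOn hi
  rw [← es] at h1 h3
  obtain ⟨z, hz, -, hz'⟩ := cover (L := L) hd.ne_zero hi rfl
  have dv : (lb y R d).1 ∣ d := ⟨_, (lb_mul d).symm⟩
  have s0 : 0 ≤ ∑ l ∈ S, Real.log l := sum_nonneg fun l _ => Real.log_natCast_nonneg l
  have n0 := Real.log_natCast_nonneg N
  have r0 : (2 : ℝ) ≤ R := by exact_mod_cast h2
  have rA : (1 : ℝ) ≤ A := by exact_mod_cast hA
  have key : ∀ j, A ^ (lb y R d).2.card ≤ (iv y R j).card ∧ Equi pl (iv y R j)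
      (A ^ (lb y R d).2.card) (A * ((lb y R d).2.card + 1) * L) ((1 / A) ^ (lb y R d).2.card) := by
    intro j
    generalize (lb y R d).2.card = s at h3 ⊢
    have ty : (y : ℝ) ≤ tt y R j := by exact_mod_cast le_tt y R j
    have y0 : (0 : ℝ) < y := by exact_mod_cast (by omega : 0 < y)
    have t0 := y0.trans_le ty
    have M1 : 1 ≤ A * (s + 1) * L := one_le_mul_of_one_le_of_one_le
      (one_le_mul_of_one_le_of_one_le rA (by linarith [Nat.cast_nonneg (α := ℝ) s])) (by linarith)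
    obtain ⟨k1, k2⟩ := hP (A ^ s) (tt y R j) (tt y R (j + 1)) _ (ht.trans (le_tt y R j))
      (le_trans (add_le_add le_rfl (div_le_div_of_nonneg_left t0.le (by linarith)
        (hl.trans (Real.log_le_log y0 ty)))) (tt_le h2 hy j).2)
      (by exact_mod_cast (tt_le h2 hy j).1.trans (mul_le_mul_of_nonneg_right (two_div h2) t0.le)) M1
    obtain ⟨k3, k4⟩ := real_aux (a := (A : ℝ) ^ s) (one_le_pow₀ rA) M1 (Real.rpow_nonneg t0.le _)
      (Nat.cast_nonneg _) (by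
        rw [Real.rpow_neg t0.le, ← div_eq_mul_inv, div_le_one (Real.rpow_pos_of_pos t0 _)]
        exact le_trans (le_of_eq (by ring)) (h3.trans (Real.rpow_le_rpow y0.le ty hδ.le))) k2
    exact ⟨by exact_mod_cast k4, k1.mono le_rfl le_rfl (by rwa [one_div_pow, Nat.cast_pow])⟩
  refine ⟨⟨hd.squarefree_of_dvd dv, fun i x hx => ?_, fun i j x h h' => ?_, ?_, ?_⟩,
    le_trans (Nat.mul_le_mul_left _ (Nat.succ_le_succ (card_le_card fun p hp => ?_))) h1,
    fun i => (key _).1, fun i => (key _).2⟩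
  · obtain ⟨k1, k2, -⟩ := mem_iv.1 hx
    refine ⟨k1, fun k => ?_, not_dvd (R := R) hd k1 k2, ?_⟩
    · exact not_le.2 k2 ((le_sup (f := id) k).trans hS)
    · have k3 : (z i : ℤ) ≤ N := (Int.le_of_dvd (abs_pos.2 hd.ne_zero)
        ((dvd_abs _ _).2 ((mem_bp hd.ne_zero).1 (hz' i)).2.2)).trans hN
      have k4 : (z i : ℝ) ≤ N := by exact_mod_cast k3
      have k5 := (iv_le h2 hy (mem_pts.1 hz i) hx).trans (mul_le_mul (two_div h2) k4
        (Nat.cast_nonneg _) zero_le_two)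
      have k6 : (0 : ℝ) < x := by exact_mod_cast k1.pos
      refine (Real.log_le_log k6 k5).trans ?_
      rw [Real.log_mul two_ne_zero (by linarith)]
      show _ ≤ L
      linarith [Real.log_le_sub_one_of_pos two_pos]
  · exact (orderEmbOfFin _ rfl).injective ((mem_iv.1 h).2.2.symm.trans (mem_iv.1 h').2.2)
  · have k3 : |(lb y R d).1| ≤ N := (Int.le_of_dvd (abs_pos.2 hd.ne_zero)
      ((abs_dvd_abs _ _).2 dv)).trans hN
    have k4 : (0 : ℤ) < |(lb y R d).1| := abs_pos.2 (ne_zero_of_dvd_ne_zero hd.ne_zero dv)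
    refine (Real.log_le_log (by exact_mod_cast k4) (by exact_mod_cast k3 : _ ≤ (N : ℝ))).trans ?_
    show _ ≤ L
    linarith
  · show _ ≤ L
    linarith
  · obtain ⟨k1, k2, -⟩ := Nat.mem_primeFactors.1 hp
    refine mem_filter.2 ⟨mem_filter.2 ⟨mem_Ioc.2 ⟨k1.pos, not_lt.1 fun k => ?_⟩, k1⟩,
      k2.trans (Int.natAbs_dvd_natAbs.2 dv)⟩
    exact not_dvd (R := R) hd k1 k (Int.natCast_dvd.2 k2)

theorem bp_eq {N : ℕ} {d : ℤ} (hd : d ≠ 0) (hN : |d| ≤ N) :
    bp y d = (pp y N).filter (· ∣ d.natAbs) := by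
  ext p
  rw [mem_bp hd, pp, mem_filter, mem_filter, mem_Ioc, Int.natCast_dvd]
  refine ⟨fun h => ⟨⟨⟨h.2.1, ?_⟩, h.1⟩, h.2.2⟩, fun h => ⟨h.1.2, h.1.1.1, h.2⟩⟩
  have := Nat.le_of_dvd (Int.natAbs_pos.2 hd) h.2.2
  rw [Int.abs_eq_natAbs] at hN
  omega

open Classical in
/-- squarefree integers -/
theorem sqf (hP : PNT) {pl : Pl} {S : Finset ℕ} {Q : ℤ → Prop}
    (h : Few pl S 0 fun B y => Q (dd B.m y)) {ε : ℝ} (hε : 0 < ε) (h5 : ε ≤ 1 / 2) :
    ∀ᶠ N : ℕ in atTop,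
      (((Icc (-(N : ℤ)) N).filter fun d => Squarefree d ∧ Q d).card : ℝ) ≤ 49 * ε * N := by
  obtain ⟨C, δ, t₀, hδ, hP⟩ := hP pl
  obtain ⟨A, hA, h⟩ := h.ev hε
  have s0 : 0 ≤ ∑ l ∈ S, Real.log l := sum_nonneg fun l _ => Real.log_natCast_nonneg l
  filter_upwards [par hε hδ A (max t₀ (S.sup id)) C (1 + ∑ l ∈ S, Real.log l) (by linarith),
    eventually_ge_atTop 1] with N ⟨y, R, p1, p2, p3, p4, p5, p6, p7, p8⟩ hN
  have hp : ∀ p ∈ pp y N, p.Prime := fun p hp => (mem_filter.1 hp).2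
  have r0 : (0 : ℝ) < R := by exact_mod_cast (by omega : 0 < R)
  have rN : (1 : ℝ) ≤ N := by exact_mod_cast hN
  have b1 := badT N hp ((card_filter_le _ _).trans (by simp)) p5
  have b2 := badM N (pp 0 y) hε
  have b3 := badP N hp (ix y R) (η := 2 / R) fun p _ => le_trans
    (sum_le_sum_of_subset_of_nonneg (fun q hq => by
      simp only [pp, mem_filter, mem_Ioc] at hq
      exact mem_iv.2 ⟨hq.1.2, hq.1.1.1, hq.2⟩) fun q _ _ => by positivity) (mu_iv p2 p3 (ix y R p))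
  have b4 : mu (pp y N) * (2 / R) ≤ 2 * ε := by
    rw [mul_div_assoc', div_le_iff₀ r0]; linarith
  set E : ℕ → Prop := fun n => ¬ (mu (pp y N) / 2 ≤ ff (pp y N) n ∧ ff (pp y N) n ≤
    2 * mu (pp y N)) ∨ ¬ (ff (pp 0 y) n : ℝ) ≤ (mu (pp 0 y) + 1) / ε ∨
      ¬ Set.InjOn (ix y R) ((pp y N).filter (· ∣ n) : Finset ℕ) with hE
  have b5 : (((Ioc 0 N).filter E).card : ℝ) ≤ 15 * ε * N := by
    simp only [hE, filter_or]
    refine (Nat.cast_le.2 ((card_union_le _ _).trans (Nat.add_le_add_left (card_union_le _ _)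
      _))).trans ?_
    rw [Nat.cast_add, Nat.cast_add]
    linarith [mul_le_mul_of_nonneg_left b4 (Nat.cast_nonneg (α := ℝ) N)]
  have b6 : (((Icc (-(N : ℤ)) N).filter fun d => d ≠ 0 ∧ E d.natAbs).card : ℝ) ≤
      2 * ((Ioc 0 N).filter E).card := by exact_mod_cast cnt_abs N E
  have b7 := cov (L := Real.log N + (1 + ∑ l ∈ S, Real.log l)) p2 p3 N Q
    ((Icc (-(N : ℤ)) N).filter fun d => (Squarefree d ∧ Q d) ∧ ¬ E d.natAbs) hε.le fun d hd => by
      obtain ⟨k0, ⟨k1, k2⟩, k3⟩ := mem_filter.1 hd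
      have k4 : |d| ≤ N := abs_le.2 (mem_Icc.1 k0)
      simp only [hE, not_or, not_not, ff, ← bp_eq k1.ne_zero k4] at k3
      obtain ⟨⟨k5, k6⟩, k7, k8⟩ := k3
      refine ⟨k1, k4, k2, k8, ?_, ?_⟩
      · have : ((bp y d).card : ℝ) ≤ R := by nlinarith
        exact_mod_cast this
      · refine (h A le_rfl _ (nice hδ hP hA (le_of_max_le_left p1) (le_of_max_le_right p1) p2 p3 p4
          k1 k4 k8 ?_ rfl (p8 _ k6))).trans_eq (by rw [zero_add])
        have : (A : ℝ) * (ff (pp 0 y) d.natAbs + 1) ≤ (bp y d).card := le_trans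
          (mul_le_mul_of_nonneg_left (add_le_add k7 le_rfl) (Nat.cast_nonneg _)) (p7.trans k5)
        exact_mod_cast this
  have b8 : ((Icc (-(N : ℤ)) N).filter fun d => Squarefree d ∧ Q d) ⊆
      ((Icc (-(N : ℤ)) N).filter fun d => (Squarefree d ∧ Q d) ∧ ¬ E d.natAbs) ∪
        (Icc (-(N : ℤ)) N).filter fun d => d ≠ 0 ∧ E d.natAbs := fun d hd => by
    rw [mem_filter] at hd
    rw [mem_union, mem_filter, mem_filter]
    by_cases k : E d.natAbs
    · exact Or.inr ⟨hd.1, hd.2.1.ne_zero, k⟩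
    · exact Or.inl ⟨hd.1, hd.2, k⟩
  refine (Nat.cast_le.2 ((card_le_card b8).trans (card_union_le _ _))).trans ?_
  push_cast
  nlinarith only [b5, b6, b7, rN, hε]

open Classical in
/-- removing the squares -/
theorem unsq {Q : ℤ → Prop} (hQ : ∀ d e : ℤ, d ≠ 0 → e ≠ 0 → Q (d * e ^ 2) → Q d) (N : ℕ) {k : ℕ}
    (hk : k ≠ 0) : (((Icc (-(N : ℤ)) N).filter fun d => d ≠ 0 ∧ Q d).card : ℝ) ≤
      k * ((Icc (-(N : ℤ)) N).filter fun d => Squarefree d ∧ Q d).card + 2 * N / k := by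
  have h1 : ((Icc (-(N : ℤ)) N).filter fun d => d ≠ 0 ∧ Q d) ⊆
      ((Ioc 0 k).biUnion fun e : ℕ => ((Icc (-(N : ℤ)) N).filter fun d =>
        Squarefree d ∧ Q d).image (· * (e : ℤ) ^ 2)) ∪ (Ioc k (k + N)).biUnion fun e =>
          (Icc (-(N : ℤ)) N).filter fun d => d ≠ 0 ∧ e ^ 2 ∣ d.natAbs := fun d hd => by
    obtain ⟨k0, k1, k2⟩ := mem_filter.1 hd
    obtain ⟨a, e, ha, he, h, hs⟩ := Nat.sq_mul_squarefree_of_pos (Int.natAbs_pos.2 k1)
    have k3 : d.natAbs ≤ N := by rw [mem_Icc] at k0; omega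
    have k4 : a ≤ N := (Nat.le_of_dvd (Int.natAbs_pos.2 k1) (Dvd.intro_left _ h)).trans k3
    have k5 : e ≤ N := (Nat.le_of_dvd (Int.natAbs_pos.2 k1)
      ((dvd_pow_self e two_ne_zero).trans (Dvd.intro _ h))).trans k3
    rw [mem_union, mem_biUnion, mem_biUnion]
    rcases le_or_gt e k with q | q
    · obtain ⟨b, hb, e1⟩ : ∃ b : ℤ, b.natAbs = a ∧ b * (e : ℤ) ^ 2 = d := by
        have : ((e ^ 2 * a : ℕ) : ℤ) = d.natAbs := by rw [h]
        push_cast at this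
        rcases abs_cases d with q | q
        · exact ⟨a, by simp, by linarith [q.1]⟩
        · exact ⟨-a, by simp, by linarith [q.1]⟩
      exact Or.inl ⟨e, mem_Ioc.2 ⟨he, q⟩, mem_image.2 ⟨b, mem_filter.2 ⟨mem_Icc.2 (by omega),
        Int.squarefree_natAbs.1 (hb ▸ hs), hQ b e (by omega) (by omega) (e1 ▸ k2)⟩, e1⟩⟩
    · exact Or.inr ⟨e, mem_Ioc.2 ⟨q, by omega⟩, mem_filter.2 ⟨k0, k1, Dvd.intro _ h⟩⟩
  refine (Nat.cast_le.2 ((card_le_card h1).trans ((card_union_le _ _).trans (Nat.add_le_add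
    (card_biUnion_le_card_mul _ _ _ fun e _ => card_image_le) card_biUnion_le)))).trans ?_
  rw [Nat.card_Ioc, Nat.sub_zero, Nat.cast_add, Nat.cast_mul, Nat.cast_sum]
  refine add_le_add le_rfl ((sum_le_sum (g := fun e : ℕ => 2 * N * ((e : ℝ) ^ 2)⁻¹)
    fun e _ => ?_).trans ?_)
  · refine (Nat.cast_le.2 (cnt_abs N (e ^ 2 ∣ ·))).trans ?_
    have := cnt_le N (e ^ 2)
    rw [one_div, Nat.cast_pow] at this
    push_cast
    linarith
  · rw [← mul_sum, div_eq_mul_inv]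
    exact mul_le_mul_of_nonneg_left ((sum_Ioc_inv_sq_le_sub hk (Nat.le_add_right k N)).trans
      (sub_le_self _ (by positivity))) (by positivity)

end Bq

open Filter

/-- **Row `BOX`.** -/
theorem box : BOX := by
  intro hP pl S Q hQ h
  refine Metric.tendsto_nhds.2 fun ε hε => ?_
  obtain ⟨k, hk⟩ := exists_nat_gt (max 1 (4 / ε))
  have k1 : (1 : ℝ) < k := (le_max_left _ _).trans_lt hk
  have k2 : 2 / (k : ℝ) < ε / 2 := by
    have := (div_lt_iff₀ hε).1 ((le_max_right _ _).trans_lt hk)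
    rw [div_lt_div_iff₀ (by linarith) two_pos]
    linarith
  filter_upwards [Bq.sqf hP h (ε := min (1 / 2) (ε / (98 * k))) (by positivity) (min_le_left _ _),
    eventually_gt_atTop 0] with N h1 hN
  have n0 : (0 : ℝ) < N := by exact_mod_cast hN
  rw [Real.dist_0_eq_abs, abs_of_nonneg (by positivity), div_lt_iff₀ n0]
  refine (Bq.unsq hQ N (k := k) (by rintro rfl; norm_num at k1)).trans_lt ?_
  have h2 := mul_le_mul_of_nonneg_left (h1.trans (mul_le_mul_of_nonneg_right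
    (mul_le_mul_of_nonneg_left (min_le_right _ _) (by norm_num)) n0.le)) (Nat.cast_nonneg (α := ℝ) k)
  have e : k * (49 * (ε / (98 * k)) * N) = ε / 2 * N := by field_simp; norm_num
  have h3 := mul_lt_mul_of_pos_right k2 n0
  rw [mul_div_right_comm]
  linarith

end Vale.Agent.P004S
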