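import Vale.Agent.P004S.Cnz

/-!
# P004, block SMITH: row CHG
-/

set_option linter.all false

noncomputable section

namespace Vale.Agent.P004S

open NumberField Matrix Filter Topology
open Vale.Agent.P022 (Qb GQ IsConj Irred UnrAt IsFrob)
open Vale.Agent.P027M.S (Inert)
open Vale.Agent.P022D.W (dec)
open Vale.Agent.P022E.GW (Ov Fb Gn Ch)

namespace Cg

variable {r r' : Rp} {u : GL (Fin 2) ℚ_[2]} {d : ℤ} {D : Set GQ}

/-- the cochain in the old basis -/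
def ul (u : GL (Fin 2) ℚ_[2]) : (GQ → V) →ₗ[ℚ_[2]] GQ → V :=
  u.1.mulVecLin.compLeft GQ

theorem ul_apply (c : GQ → V) (g : GQ) : ul u c g = u.1 *ᵥ c g := rfl

theorem u_inv (v : V) : u⁻¹.1 *ᵥ u.1 *ᵥ v = v := by
  rw [mulVec_mulVec, Units.inv_mul, one_mulVec]

theorem u_inv' (v : V) : u.1 *ᵥ u⁻¹.1 *ᵥ v = v :=
  u_inv (u := u⁻¹) v

theorem u_inj {v w : V} : u.1 *ᵥ v = u.1 *ᵥ w ↔ v = w :=
  ⟨fun k => by rw [← u_inv (u := u) v, k, u_inv], fun k => k ▸ rfl⟩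

theorem ul_inv' (c : GQ → V) : ul u (ul u⁻¹ c) = c := funext fun g => u_inv' _

variable (h : ∀ g, r' g = u⁻¹ * r g * u)
include h

theorem mt_eq (g : GQ) : mt r' g = u⁻¹.1 * mt r g * u.1 := by
  rw [mt, h, Units.val_mul, Units.val_mul, mt]

theorem mt_u (g : GQ) (v : V) :
    mt r g *ᵥ u.1 *ᵥ v = u.1 *ᵥ mt r' g *ᵥ v := by
  rw [mt_eq h, ← mulVec_mulVec, ← mulVec_mulVec, u_inv']

theorem ac_u (g : GQ) (v : V) :
    ac r d g (u.1 *ᵥ v) = u.1 *ᵥ ac r' d g v := by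
  rw [ac, ac, mt_u h, mulVec_smul]

theorem ep_eq (g : GQ) : ep r' g = ep r g := by rw [ep, mt_eq h, det_units_conj', ep]

theorem z1 {c : GQ → V} : Z1 r' d D c ↔ Z1 r d D (ul u c) := by
  refine and_congr ⟨fun k => (continuous_const.matrix_mulVec continuous_id).comp_continuousOn k,
    fun k => ((continuous_const.matrix_mulVec continuous_id).comp_continuousOn k).congr fun g _ =>
      (u_inv (u := u) _).symm⟩ ?_
  simp only [ul_apply, ac_u h, ← mulVec_add, u_inj]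

theorem b1 {c : GQ → V} : B1 r' d D c ↔ B1 r d D (ul u c) := by
  refine ⟨fun ⟨n, k⟩ => ⟨_, fun g a => by rw [ul_apply, k g a, mulVec_sub, ac_u h]⟩, fun ⟨n, k⟩ =>
    ⟨u⁻¹.1 *ᵥ n, fun g a => (u_inj (u := u)).1 ?_⟩⟩
  rw [mulVec_sub, ← ac_u h, u_inv']
  exact k g a

/-- the local condition in the new basis -/
def loc (Λ : Loc r) : Loc r' where
  P := Λ.P
  ov := Λ.ov
  L d := (Λ.L d).comap (ul u)
  dep d d' k := by rw [Λ.dep d d' k]
  coc d a k := (z1 h).2 (Λ.coc d _ k)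
  cob d n := by
    convert Λ.cob d (u.1 *ᵥ n) using 0
    rw [Submodule.mem_comap]
    congr! 2
    rw [ul_apply, mulVec_sub, ac_u h]
  iso d a ha b hb := by
    obtain ⟨β, k1, k2⟩ := Λ.iso d _ ha _ hb
    have n := (GeneralLinearGroup.det_ne_zero u)
    refine ⟨fun g => (u.1.det)⁻¹ * β g, (continuousOn_const (c := (u.1.det)⁻¹)).mul k1,
      fun g p j q => ?_⟩
    have := k2 g p j q
    rw [cp, ul_apply, ul_apply, ac_u h, wp_mulVec, ← ep_eq h] at this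
    rw [cp, ← inv_mul_cancel_left₀ n (wp _ _), this]
    ring

theorem sel (Λ : Loc r) {c : GQ → V} : Sel r' (loc h Λ) d c ↔ Sel r Λ d (ul u c) := by
  refine and_congr (z1 h) (and_congr ⟨fun ⟨z, a, b⟩ => ⟨_, a, fun g k => by
    rw [ul_apply, b g k, ul_apply]⟩, fun ⟨z, a, b⟩ => ⟨ul u⁻¹ z, ?_, fun g k => ?_⟩⟩ ?_)
  · show ul u _ ∈ Λ.L d
    rwa [ul_inv']
  · rw [ul_apply, ← b g k, ul_apply, u_inv]
  · simp only [b1 h]

theorem rep {S : Finset ℕ} (k : Rep r S) (i : ∀ g i j, ‖mt r' g i j‖ ≤ 1) : Rep r' S := by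
  refine ⟨fun a b => ?_, i, k.two, fun l a b P c e g f => by
    rw [h, k.unr l a b P c e g f, mul_one, inv_mul_cancel], fun l a b g c => ?_, fun v a => ?_⟩
  · simp only [mt_eq h]
    exact ((continuous_const.matrix_mul k.mt_cont).matrix_mul continuous_const).matrix_elem a b
  · rw [ep_eq h, mt_eq h, trace_units_conj']
    exact k.frob l a b g c
  · obtain ⟨g, b⟩ := k.irr (u.1 *ᵥ v) fun c => a (u_inj.1 (c.trans (mulVec_zero _).symm))
    exact ⟨g, fun x c => b x ((mt_u h g v).trans (by rw [← mulVec_smul]; exact u_inj.2 c))⟩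

theorem two {Λ : Loc r} {Λ' : Loc r'} (s : ∀ c, Sel r' Λ' d c ↔ Sel r Λ d (ul u c)) :
    Two r Λ d ↔ Two r' Λ' d := by
  refine ⟨fun ⟨c, c', a, b, e⟩ => ⟨ul u⁻¹ c, ul u⁻¹ c', (s _).2 ((ul_inv' c).symm ▸ a),
    (s _).2 ((ul_inv' c').symm ▸ b), fun x y k => e x y ?_⟩, fun ⟨c, c', a, b, e⟩ =>
    ⟨_, _, (s _).1 a, (s _).1 b, fun x y k => e x y ((b1 h).2 ?_)⟩⟩
  · simpa only [map_add, map_smul, ul_inv'] using (b1 h).1 k
  · simpa only [map_add, map_smul] using k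

end Cg

open Cg in
theorem chg : CHG := fun r Λ u =>
  have h : ∀ g, ((MulAut.conj u⁻¹).toMonoidHom.comp r) g = u⁻¹ * r g * u := fun g => by simp
  ⟨_, loc h Λ, ⟨h, fun d c => sel h Λ⟩, fun d => two h fun c => sel h Λ, fun S => rep h⟩

end Vale.Agent.P004S
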