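import Vale.Agent.P004S.Bas2

/-!
# P004, block SMITH, row CLS: the class of a pair of residual Selmer cocycles
-/

set_option linter.all false

noncomputable section

namespace Vale.Agent.P004S

open NumberField Matrix Filter Topology
open Vale.Agent.P022 (Qb GQ IsConj Irred UnrAt IsFrob)
open Vale.Agent.P027M.S (Inert)
open Vale.Agent.P022D.W (dec)
open Vale.Agent.P022E.GW (Ov Fb Gn Ch)
open scoped Pointwise

namespace Ms

variable {r : Rp} {S : Finset ℕ}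

theorem dg_apply (A : Matrix (Fin 2) (Fin 2) (ZMod 2)) (x : N) :
    dg A x = (A *ᵥ x.1, A *ᵥ x.2) := rfl

theorem dg_one (x : N) : dg 1 x = x := by simp [dg_apply]

theorem dg_mul (A B : Matrix (Fin 2) (Fin 2) (ZMod 2)) (x : N) : dg (A * B) x = dg A (dg B x) := by
  simp only [dg_apply, mulVec_mulVec]

theorem add_self {M : Type} [AddCommGroup M] [Module (ZMod 2) M] (x : M) : x + x = 0 := by
  rw [← two_smul (ZMod 2) x, show (2 : ZMod 2) = 0 from rfl, zero_smul]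

theorem neg_self {M : Type} [AddCommGroup M] [Module (ZMod 2) M] (x : M) : -x = x :=
  neg_eq_of_add_eq_zero_left (add_self x)

theorem card_N : Fintype.card N = 16 := by simp

/-- `H` is stable -/
def Sta (r : Rp) (H : Submodule (ZMod 2) N) : Prop := ∀ g, ∀ x ∈ H, dg (rb r g) x ∈ H

theorem hs_mem {E : Set N} (g : GQ) {e e' : N} (he : e ∈ E) (he' : e' ∈ E) :
    dg (rb r g) e - e' ∈ Hs r E := Submodule.subset_span ⟨g, e, he, e', he', rfl⟩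

theorem hs_sub {E : Set N} {e e' : N} (he : e ∈ E) (he' : e' ∈ E) : e - e' ∈ Hs r E := by
  have := hs_mem (r := r) 1 he he'
  rwa [rb_one, dg_one] at this

theorem hs_mono {E E' : Set N} (h : E ⊆ E') : Hs r E ≤ Hs r E' :=
  Submodule.span_mono fun x ⟨g, e, he, e', he', k⟩ => ⟨g, e, h he, e', h he', k⟩

theorem hs_sta (h : Rep r S) (E : Set N) : Sta r (Hs r E) := fun g x hx => by
  refine Submodule.span_le.2 (?_ : _ ⊆ ((Hs r E).comap (dg (rb r g)) : Set N)) hx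
  rintro _ ⟨k, e, he, e', he', rfl⟩
  show dg (rb r g) (dg (rb r k) e - e') ∈ Hs r E
  have := (Hs r E).sub_mem (hs_mem (r := r) (g * k) he he') (hs_mem (r := r) g he' he')
  rwa [h.rb_mul, dg_mul, sub_sub_sub_cancel_right, ← map_sub] at this

theorem hs_stb (h : Rep r S) {E : Set N} {e e₀ : N} (he : e ∈ E) (h0 : e - e₀ ∈ Hs r E) :
    Stb r (Hs r E) e₀ := fun g => ⟨by
  have := (Hs r E).add_mem ((Hs r E).sub_mem (hs_mem (r := r) g he he) (hs_sta h E g _ h0)) h0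
  rwa [map_sub, show dg (rb r g) e - e - (dg (rb r g) e - dg (rb r g) e₀) + (e - e₀) =
    dg (rb r g) e₀ - e₀ by abel] at this, hs_sta h E g⟩

theorem hs_le {H : Submodule (ZMod 2) N} (hH : Sta r H) {E : Set N} {e₀ : N}
    (h0 : ∀ g, dg (rb r g) e₀ - e₀ ∈ H) (hE : ∀ e ∈ E, e - e₀ ∈ H) : Hs r E ≤ H := by
  refine Submodule.span_le.2 ?_
  rintro _ ⟨g, e, he, e', he', rfl⟩
  have := H.sub_mem (H.add_mem (hH g _ (hE e he)) (h0 g)) (hE e' he')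
  rwa [map_sub, show dg (rb r g) e - dg (rb r g) e₀ + (dg (rb r g) e₀ - e₀) - (e' - e₀) =
    dg (rb r g) e - e' by abel] at this

/-- cocycles modulo `H` -/
def Cm (r : Rp) (H : Submodule (ZMod 2) N) (w : GQ → N) : Prop :=
  ∀ g h, w (g * h) - w g - dg (rb r g) (w h) ∈ H

section

variable {H : Submodule (ZMod 2) N} {w : GQ → N}

theorem Cm.one (c : Cm r H w) : w 1 ∈ H := by
  have := c 1 1
  rwa [mul_one, sub_self, rb_one, dg_one, zero_sub, neg_mem_iff] at this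

theorem Cm.inv_mul (c : Cm r H w) (hH : Sta r H) {g k : GQ} (h : w k - w g ∈ H) :
    w (g⁻¹ * k) ∈ H := by
  have h1 := c g⁻¹ g
  rw [inv_mul_cancel] at h1
  have := H.add_mem (H.add_mem (c g⁻¹ k) (H.sub_mem c.one h1)) (hH g⁻¹ _ h)
  rwa [map_sub, show w (g⁻¹ * k) - w g⁻¹ - dg (rb r g⁻¹) (w k) +
    (w 1 - (w 1 - w g⁻¹ - dg (rb r g⁻¹) (w g))) + (dg (rb r g⁻¹) (w k) - dg (rb r g⁻¹) (w g)) =
      w (g⁻¹ * k) by abel] at this

theorem Cm.conj (c : Cm r H w) (h : Rep r S) (hH : Sta r H) {k : GQ} (h1 : rb r k = 1)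
    (hk : w k ∈ H) (g : GQ) : w (g * k * g⁻¹) ∈ H := by
  have a := c (g * k) g⁻¹
  rw [h.rb_mul, h1, mul_one] at a
  have d := c g g⁻¹
  rw [mul_inv_cancel] at d
  have := H.add_mem (H.add_mem (H.add_mem a (c g k)) (hH g _ hk)) (H.sub_mem c.one d)
  rwa [show w (g * k * g⁻¹) - w (g * k) - dg (rb r g) (w g⁻¹) +
    (w (g * k) - w g - dg (rb r g) (w k)) + dg (rb r g) (w k) +
      (w 1 - (w 1 - w g - dg (rb r g) (w g⁻¹))) = w (g * k * g⁻¹) by abel] at this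

/-- the kernel of a cocycle modulo `H` -/
def Cm.ker (c : Cm r H w) (hH : Sta r H) : Subgroup GQ where
  carrier := {g | w g ∈ H}
  mul_mem' {g k} hg hk := by
    have := H.add_mem (H.add_mem (c g k) hg) (hH g _ hk)
    rwa [show w (g * k) - w g - dg (rb r g) (w k) + w g + dg (rb r g) (w k) = w (g * k) by abel]
      at this
  one_mem' := c.one
  inv_mem' {g} hg := by
    have := c.inv_mul hH (g := g) (k := 1) (H.sub_mem c.one hg)
    rwa [mul_one] at this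

theorem Cm.ker_open (c : Cm r H w) (hH : Sta r H) (l : IsLocallyConstant fun g => H.mkQ (w g)) :
    IsOpen (c.ker hH : Set GQ) := by
  convert l {0} using 1
  ext g
  exact (Submodule.Quotient.mk_eq_zero H).symm

theorem card_quot (H : Submodule (ZMod 2) N) : Nat.card (N ⧸ H) ≤ 16 :=
  (Nat.card_le_card_of_surjective H.mkQ H.mkQ_surjective).trans
    (by rw [Nat.card_eq_fintype_card, card_N])

theorem Cm.ker_index (c : Cm r H w) (hH : Sta r H) : (c.ker hH).index ≤ 16 := by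
  have : Finite (N ⧸ H) := Finite.of_surjective H.mkQ H.mkQ_surjective
  refine (Nat.card_le_card_of_injective (fun x : GQ ⧸ c.ker hH => H.mkQ (w x.out))
    fun x y k => ?_).trans (card_quot H)
  rw [← x.out_eq, ← y.out_eq]
  exact QuotientGroup.eq.2 (c.inv_mul hH ((Submodule.Quotient.eq H).1 k.symm))

end

/-- the primes above `l` are conjugate -/
theorem inert_conj {l : ℕ} {P Q : Ideal (𝓞 Qb)} (h : Ov l P) (h' : Ov l Q) :
    ∃ g : GQ, ∀ k, Inert Q k → Inert P (g⁻¹ * k * g) := by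
  have key : ∀ R : Ideal (𝓞 Qb), Ov l R → ∀ x : 𝓞 ℚ, x ∈ P022.below (algebraMap ℚ Qb) R ↔
      (l : ℤ) ∣ Rat.ringOfIntegersEquiv x := fun R hR x => by
    obtain ⟨z, rfl⟩ := Rat.ringOfIntegersEquiv.symm.surjective x
    rw [RingEquiv.apply_symm_apply, eq_intCast]
    show RingOfIntegers.mapRingHom _ (z : 𝓞 ℚ) ∈ R ↔ _
    rw [map_intCast]
    refine ⟨ov_dvd hR, fun ⟨k, hk⟩ => ?_⟩
    rw [hk, Int.cast_mul, Int.cast_natCast]
    exact Ideal.mul_mem_right _ _ hR.2.2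
  obtain ⟨g, hg⟩ := P022.H916.exists_smul (algebraMap ℚ Qb) h.2.1 h'.2.1
    (Ideal.ext fun x => (key P h x).trans (key Q h' x).symm)
  refine ⟨g, fun k hk x => ?_⟩
  have := hk ((g : GQ) • x)
  rw [hg, Ideal.mem_pointwise_smul_iff_inv_smul_mem, smul_sub, inv_smul_smul] at this
  rwa [mul_smul, mul_smul]

theorem rb_inert (h : Rep r S) {l : ℕ} {P : Ideal (𝓞 Qb)} (ho : Ov l P) (hl : l ∉ S) {g : GQ}
    (hg : Inert P g) : rb r g = 1 := h.tr_one_iff.1 (tr_of_eq (h.mt_inert ho hl hg))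

/-- a cocycle modulo `H` which vanishes at the tame generator is unramified -/
theorem Cm.un {H : Submodule (ZMod 2) N} {w : GQ → N} (c : Cm r H w) (lt : LT) (h : Rep r S)
    (hH : Sta r H) (lc : IsLocallyConstant fun g => H.mkQ (w g)) (pl : Pl) {l : ℕ}
    {P : Ideal (𝓞 Qb)} (ho : Ov l P) (hl : l ∉ S) (h0 : w (pl.τ l) ∈ H) {g : GQ}
    (hg : Inert P g) : w g ∈ H := by
  have ho' := pl.ov l ho.1
  obtain ⟨k, hk⟩ := inert_conj ho' ho
  have hi := hk g hg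
  obtain ⟨j, hj⟩ := (lt l _ ho').1 (pl.τ l) 1 _ (h.ne_two hl) (pl.gn l ho.1 (h.ne_two hl)) hi
    (c.ker hH) (c.ker_open hH lc)
  have h1 := hj (N ⧸ H) (fun g => H.mkQ (w g)) (fun a => by rw [pow_one, two_smul, add_self])
    (fun g _ k => (Submodule.Quotient.mk_eq_zero H).2 k) fun a b ha hb => by
      have := c a b
      rw [rb_inert h ho' hl ha, dg_one, sub_sub] at this
      show H.mkQ _ = H.mkQ _ + H.mkQ _
      rw [← map_add]
      exact (Submodule.Quotient.eq H).2 this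
  have h2 : H.mkQ (w (pl.τ l)) = 0 := (Submodule.Quotient.mk_eq_zero H).2 h0
  simp only [h2, smul_zero] at h1
  have := c.conj h hH (rb_inert h ho' hl hi) ((Submodule.Quotient.mk_eq_zero H).1 h1) k
  rwa [show k * (k⁻¹ * g * k) * k⁻¹ = g by group] at this

/-- the twisted pair -/
def wf (d : ℤ) (e₀ : N) (Φ : GQ → N) (g : GQ) : N := Φ g + nu d g • e₀

section

variable {H : Submodule (ZMod 2) N} {e₀ : N} {d : ℤ} {Φ : GQ → N}

theorem pre_coc (hp : Pre2 r S d Φ) (g k : GQ) : Φ (g * k) = Φ g + dg (rb r g) (Φ k) :=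
  Prod.ext (hp.1.1.2 g k) (hp.2.1.2 g k)

theorem pre_lc (hp : Pre2 r S d Φ) : IsLocallyConstant Φ := hp.1.1.1.prodMk hp.2.1.1

theorem wf_cm (hp : Pre2 r S d Φ) (hs : Stb r H e₀) : Cm r H (wf d e₀ Φ) := fun g k => by
  have := H.neg_mem (H.smul_mem (nu d k) (hs g).1)
  convert this using 1
  simp only [wf, pre_coc hp, nu_mul, add_smul, map_add, map_smul, smul_sub]
  abel

theorem wf_lc (hp : Pre2 r S d Φ) : IsLocallyConstant (wf d e₀ Φ) :=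
  ((pre_lc hp).prodMk (nu_lc d)).comp fun z : N × ZMod 2 => z.1 + z.2 • e₀

theorem wf_tau (h : Rep r S) (sq : Squarefree d) (pl : Pl) {q : ℕ} (hq : q.Prime) (hS : q ∉ S)
    (hd : (q : ℤ) ∣ d) : wf d e₀ Φ (pl.τ q) = Φ (pl.τ q) - e₀ := by
  rw [wf, nu_tau (pl.ov q hq) (h.ne_two hS) sq hd (pl.gn q hq (h.ne_two hS)), one_smul,
    sub_eq_add_neg, neg_self]

theorem wf_un (lt : LT) (h : Rep r S) (hp : Pre2 r S d Φ) (hs : Stb r H e₀) (sq : Squarefree d)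
    (pl : Pl) {l : ℕ} {P : Ideal (𝓞 Qb)} (ho : Ov l P) (hl : l ∉ S)
    (h0 : (l : ℤ) ∣ d → Φ (pl.τ l) - e₀ ∈ H) {g : GQ} (hg : Inert P g) : wf d e₀ Φ g ∈ H := by
  by_cases hd : (l : ℤ) ∣ d
  · refine (wf_cm hp hs).un lt h (fun g => (hs g).2) ((wf_lc hp).comp H.mkQ) pl ho hl ?_ hg
    rw [wf_tau h sq pl ho.1 hl hd]
    exact h0 hd
  · have e : Φ g = 0 :=
      Prod.ext (hp.1.2.1 l P ho ⟨hl, hd⟩ g hg) (hp.2.2.1 l P ho ⟨hl, hd⟩ g hg)
    rw [wf, e, nu_inert ho (h.ne_two hl) hd hg, zero_smul, add_zero]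
    exact H.zero_mem

theorem norm_half_le {v : V} (h : ‖(1 / 2 : ℚ_[2]) • v‖ ≤ 1) : ‖v‖ ≤ 1 / 2 := by
  rw [norm_smul, norm_half] at h
  linarith

/-- the local structure of a residual Selmer cocycle at a prime of `d` -/
theorem pre_pt (h : Rep r S) {φ : GQ → W} (hp : Pre r S d d φ) (sq : Squarefree d) (pl : Pl)
    {q : ℕ} (hq : q.Prime) (hS : q ∉ S) (hd : (q : ℤ) ∣ d) :
    ∃ n : V, ‖n‖ ≤ 1 ∧ rv n = φ (pl.τ q) ∧ ‖mt r (pl.σ q) *ᵥ n - n‖ ≤ 1 / 2 ∧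
      rv ((1 / 2 : ℚ_[2]) • (mt r (pl.σ q) *ᵥ n - n)) =
        φ (pl.σ q) + nu d (pl.σ q) • φ (pl.τ q) := by
  have ho := pl.ov q hq
  have hτ := pl.gn q hq (h.ne_two hS)
  obtain ⟨n, hn⟩ := hp.2.2 q _ ho hS hd
  obtain ⟨t1, t2⟩ := hn (pl.τ q) (P022D.W.inP_le_dec hτ.1)
  obtain ⟨s1, s2⟩ := hn (pl.σ q) (P022D.W.phi_mem hq ho.2.1 (pl.fb q hq))
  rw [ac, sg_of_one (nu_tau ho (h.ne_two hS) sq hd hτ), h.mt_inert ho hS hτ.1, one_mulVec]
    at t1 t2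
  have key : ‖(1 / 2 : ℚ_[2]) • (mt r (pl.σ q) *ᵥ ((-1 : ℚ_[2]) • n - n) - ((-1 : ℚ_[2]) • n - n))‖
      ≤ 1 ∧ rv ((1 / 2 : ℚ_[2]) • (mt r (pl.σ q) *ᵥ ((-1 : ℚ_[2]) • n - n) -
        ((-1 : ℚ_[2]) • n - n))) = φ (pl.σ q) + nu d (pl.σ q) • φ (pl.τ q) := by
    rcases z2 (nu d (pl.σ q)) with k | k
    · rw [ac, sg_of_zero k] at s1 s2
      have e : (1 / 2 : ℚ_[2]) • (mt r (pl.σ q) *ᵥ ((-1 : ℚ_[2]) • n - n) -
          ((-1 : ℚ_[2]) • n - n)) = -((1 : ℚ_[2]) • mt r (pl.σ q) *ᵥ n - n) := by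
        rw [mulVec_sub, mulVec_smul]; module
      rw [e, norm_neg, rv_neg, s2, k, zero_smul, add_zero]
      exact ⟨s1, rfl⟩
    · rw [ac, sg_of_one k] at s1 s2
      have e : (1 / 2 : ℚ_[2]) • (mt r (pl.σ q) *ᵥ ((-1 : ℚ_[2]) • n - n) -
          ((-1 : ℚ_[2]) • n - n)) = ((-1 : ℚ_[2]) • mt r (pl.σ q) *ᵥ n - n) -
            ((-1 : ℚ_[2]) • n - n) := by
        rw [mulVec_sub, mulVec_smul]; module
      refine ⟨e ▸ norm_sub_le' s1 t1, ?_⟩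
      rw [e, rv_sub s1 t1, s2, t2, k, one_smul, sub_eq_add_neg (φ _), neg_self]
  exact ⟨_, t1, t2, norm_half_le key.1, key.2⟩

/-- the patterns are compatible -/
theorem wf_cmp (h : Rep r S) (hp : Pre2 r S d Φ) (sq : Squarefree d) (pl : Pl) {q : ℕ}
    (hq : q.Prime) (hS : q ∉ S) (hd : (q : ℤ) ∣ d) (h0 : Φ (pl.τ q) - e₀ ∈ H) :
    Cmp r H e₀ (wf d e₀ Φ (pl.σ q)) (pl.σ q) (Φ (pl.τ q)) := by
  obtain ⟨n, a1, a2, a3, a4⟩ := pre_pt h hp.1 sq pl hq hS hd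
  obtain ⟨n', b1, b2, b3, b4⟩ := pre_pt h hp.2 sq pl hq hS hd
  refine ⟨h0, n, n', a1, b1, Prod.ext a2 b2, a3, b3, Submodule.mem_sup_left ?_⟩
  rw [a4, b4]
  convert H.smul_mem (nu d (pl.σ q)) h0 using 1
  show Φ (pl.σ q) + nu d (pl.σ q) • Φ (pl.τ q) - _ = _
  rw [wf, smul_sub]
  abel

theorem cmp_congr {w w' e : N} {g : GQ} (h : Cmp r H e₀ w g e) (k : w - w' ∈ H) :
    Cmp r H e₀ w' g e := by
  obtain ⟨h0, n, n', a, b, c, d, e, f⟩ := h
  refine ⟨h0, n, n', a, b, c, d, e, ?_⟩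
  have := (H ⊔ Im r g).add_mem f (Submodule.mem_sup_left k)
  rwa [sub_add_sub_cancel] at this

theorem rv_tr {g : GQ} (ht : Tr r 2 g) {n : V} (hn : ‖n‖ ≤ 1) :
    ‖mt r g *ᵥ n - n‖ ≤ 1 / 2 ∧ rv ((1 / 2 : ℚ_[2]) • (mt r g *ᵥ n - n)) = 0 := by
  have := ht.norm n
  refine ⟨by linarith, rv_eq_zero.2 ?_⟩
  rw [norm_smul, norm_half]
  linarith

theorem im_bot (h : Rep r S) {g : GQ} (ht : Tr r 2 g) : Im r g = ⊥ := by
  rw [Im, h.tr_one_iff.1 (ht.mono one_le_two), LinearMap.range_eq_bot]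
  exact LinearMap.ext fun x => by simp [dg_one]

theorem cmp_tr (h : Rep r S) {w e : N} {g : GQ} (ht : Tr r 2 g) :
    Cmp r H e₀ w g e ↔ e - e₀ ∈ H ∧ w ∈ H := by
  constructor
  · rintro ⟨h0, n, n', a, b, -, -, -, f⟩
    rw [(rv_tr ht a).2, (rv_tr ht b).2, im_bot h ht, sup_bot_eq, Prod.mk_zero_zero, zero_sub,
      neg_mem_iff] at f
    exact ⟨h0, f⟩
  · rintro ⟨h0, f⟩
    refine ⟨h0, lf e.1, lf e.2, norm_lf _, norm_lf _, by rw [rv_lf, rv_lf],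
      (rv_tr ht (norm_lf _)).1, (rv_tr ht (norm_lf _)).1, Submodule.mem_sup_left ?_⟩
    rwa [(rv_tr ht (norm_lf _)).2, (rv_tr ht (norm_lf _)).2, Prod.mk_zero_zero, zero_sub,
      neg_mem_iff]

end

theorem mem_pf {M : ℤ} (hM : M ≠ 0) {q : ℕ} : q ∈ pf S M ↔ q.Prime ∧ (q : ℤ) ∣ M ∧ q ∉ S := by
  rw [pf, Finset.mem_sdiff, Nat.mem_primeFactors, Int.natCast_dvd]
  simp [hM, and_assoc]

end Ms

open Ms in
theorem cls : iCLS := by
  intro lt r S pl h m s X L y Φ i hF hy hU hp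
  rw [Fintype.mem_piFinset] at hy
  have sq := hF.sqf hy
  refine ⟨hp, rfl, fun q hq => ?_⟩
  obtain ⟨q1, q2, q3⟩ := (mem_pf sq.ne_zero).1 hq
  generalize hH : Hs r (Set.range fun i => Φ (pl.τ (y i))) = H
  have h0 : ∀ j, Φ (pl.τ (y j)) - Φ (pl.τ (y i)) ∈ H := fun j => hH ▸ hs_sub ⟨j, rfl⟩ ⟨i, rfl⟩
  have hs : Stb r H (Φ (pl.τ (y i))) := hH ▸ hs_stb h ⟨i, rfl⟩ (hH ▸ h0 i)
  have dv : ∀ j, (y j : ℤ) ∣ dd m y := fun j =>
    (hF.dvd_iff hy (hF.pm j _ (hy j)).1).2 (Or.inr ⟨j, rfl⟩)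
  by_contra hn
  obtain ⟨f, f1, f2⟩ := H.exists_dual_map_eq_bot_of_notMem hn inferInstance
  have f0 : ∀ x ∈ H, f x = 0 := fun x hx => by
    have : f x ∈ H.map f := ⟨x, hx, rfl⟩
    rwa [f2] at this
  have c := wf_cm hp hs
  refine hU ⟨h.Kn 1, fun g => f (wf (dd m y) (Φ (pl.τ (y i))) Φ g), fun g => Iff.rfl,
    ⟨((wf_lc hp).comp f).comp_continuous continuous_subtype_val, fun a b => ?_⟩,
    fun l P ho hl g hg => f0 _ (wf_un lt h hp hs sq pl ho hl.1 (fun k => ?_) hg), fun k => ?_,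
    fun t g ht => f0 _ ?_⟩
  · have := f0 _ (c a b)
    rw [h.tr_one_iff.1 a.2, dg_one, sub_sub, map_sub, map_add, sub_eq_zero] at this
    exact this
  · obtain ⟨j, rfl⟩ := ((hF.dvd_iff hy ho.1).1 k).resolve_left hl.2
    exact h0 j
  · have := k q _ (pl.ov q q1) q3 _ (pl.gn q q1 (h.ne_two q3)).1
    exact f1 (wf_tau h sq pl q1 q3 q2 ▸ this)
  · have p := hF.pm t _ (hy t)
    exact c.conj h (fun g => (hs g).2) (h.tr_one_iff.1 (ht.mono one_le_two))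
      ((cmp_tr h ht).1 (wf_cmp h hp sq pl p.1 p.2.1 (dv t) (h0 t))).2 g

end Vale.Agent.P004S
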