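import Mathlib

/-!
# P004, block SMITH, row MAS: counting and product masses
-/

set_option linter.all false

noncomputable section

namespace Vale.Agent.P004S.Ms

open Finset

/-- finite with at most `x` elements -/
def Le {α : Type} (Z : Set α) (x : ℝ) : Prop := Z.Finite ∧ (Z.ncard : ℝ) ≤ x

section

variable {α β : Type} {Z Z' : Set α} {x x' : ℝ}

theorem Le.mono (h : Le Z x) (hs : Z' ⊆ Z) (hx : x ≤ x') : Le Z' x' :=
  ⟨h.1.subset hs, ((Nat.cast_le.2 (Set.ncard_le_ncard hs h.1)).trans h.2).trans hx⟩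

theorem Le.of_ne (hx : 0 ≤ x) (h : ∀ z ∈ Z, Le Z x) : Le Z x := by
  rcases Z.eq_empty_or_nonempty with e | ⟨z, hz⟩
  · subst e; exact ⟨Set.finite_empty, by simpa using hx⟩
  · exact h z hz

theorem Le.union (h : Le Z x) (h' : Le Z' x') : Le (Z ∪ Z') (x + x') :=
  ⟨h.1.union h'.1, by
    have := (Nat.cast_le (α := ℝ)).2 (Set.ncard_union_le Z Z')
    rw [Nat.cast_add] at this
    linarith [h.2, h'.2]⟩

theorem Le.cover (T : Finset β) (Y : β → Set α) (g : β → ℝ) (h : ∀ t ∈ T, Le (Y t) (g t))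
    (hZ : ∀ z ∈ Z, ∃ t ∈ T, z ∈ Y t) : Le Z (∑ t ∈ T, g t) := by
  classical
  induction T using Finset.induction_on generalizing Z with
  | empty => exact Le.of_ne (by simp) fun z hz => by simpa using hZ z hz
  | insert a T ha ih =>
    rw [sum_insert ha]
    refine ((h a (mem_insert_self _ _)).union (ih (Z := Z \ Y a)
      (fun t ht => h t (mem_insert_of_mem ht)) fun z hz => ?_)).mono (fun z hz => ?_) le_rfl
    · obtain ⟨t, ht, k⟩ := hZ z hz.1
      rcases mem_insert.1 ht with rfl | ht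
      · exact absurd k hz.2
      · exact ⟨t, ht, k⟩
    · by_cases k : z ∈ Y a
      · exact Or.inl k
      · exact Or.inr ⟨hz, k⟩

theorem Le.inj {Y : Set β} (h : Le Y x) (f : α → β) (hf : Set.InjOn f Z) (hm : ∀ z ∈ Z, f z ∈ Y) :
    Le Z x :=
  ⟨Set.Finite.of_injOn hm hf h.1,
    (Nat.cast_le.2 (Set.ncard_le_ncard_of_injOn f hm hf h.1)).trans h.2⟩

end

section

variable {Z I A B : Type} [Fintype I] [DecidableEq I] [Fintype A] [DecidableEq A] [Fintype B]
  [DecidableEq B] (u : Z → ℝ)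

open Classical in
/-- the mass of an event for a product weight -/
def ms (Y : I → Finset Z) (F : (I → Z) → Prop) : ℝ :=
  ∑ z ∈ Fintype.piFinset Y, if F z then ∏ i, u (z i) else 0

theorem ms_true (Y : I → Finset Z) : ms u Y (fun _ => True) = ∏ i, ∑ z ∈ Y i, u z := by
  simp only [ms, if_true]
  rw [prod_univ_sum]

theorem ms_not (Y : I → Finset Z) (F : (I → Z) → Prop) :
    ms u Y (fun z => ¬ F z) = ∏ i, ∑ z ∈ Y i, u z - ms u Y F := by
  rw [← ms_true, eq_sub_iff_add_eq]
  simp only [ms]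
  rw [← sum_add_distrib]
  refine sum_congr rfl fun z _ => ?_
  by_cases h : F z <;> simp [h]

theorem ms_equiv (e : A ≃ I) (Y : I → Finset Z) (F : (A → Z) → Prop) :
    ms u Y (fun z => F fun a => z (e a)) = ms u (fun a => Y (e a)) F := by
  simp only [ms]
  refine sum_nbij' (fun z a => z (e a)) (fun z i => z (e.symm i)) ?_ ?_ ?_ ?_ ?_
  · intro z hz
    rw [Fintype.mem_piFinset] at hz ⊢
    exact fun a => hz _
  · intro z hz
    rw [Fintype.mem_piFinset] at hz ⊢
    intro i
    simpa using hz (e.symm i)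
  · intro z _; funext i; simp
  · intro z _; funext i; simp
  · intro z _
    rw [← e.prod_comp fun i => u (z i)]

theorem ms_sum (Y : A ⊕ B → Finset Z) (F : (A → Z) → Prop) (G : (B → Z) → Prop) :
    ms u Y (fun z => (F fun a => z (.inl a)) ∧ G fun b => z (.inr b)) =
      ms u (fun a => Y (.inl a)) F * ms u (fun b => Y (.inr b)) G := by
  simp only [ms]
  rw [sum_mul_sum, ← sum_product']
  refine sum_nbij' (fun z => (fun a => z (.inl a), fun b => z (.inr b)))
    (fun p => Sum.elim p.1 p.2) ?_ ?_ ?_ ?_ ?_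
  · intro z hz
    rw [Fintype.mem_piFinset] at hz
    rw [mem_product, Fintype.mem_piFinset, Fintype.mem_piFinset]
    exact ⟨fun a => hz _, fun b => hz _⟩
  · intro z hz
    rw [mem_product, Fintype.mem_piFinset, Fintype.mem_piFinset] at hz
    rw [Fintype.mem_piFinset]
    rintro (a | b)
    · exact hz.1 a
    · exact hz.2 b
  · intro z _; funext i; cases i <;> rfl
  · intro z _; rfl
  · intro z _
    rw [Fintype.prod_sum_type]
    by_cases h : F fun a => z (.inl a) <;> by_cases k : G fun b => z (.inr b) <;> simp [h, k]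

theorem ms_prod (Y : A × B → Finset Z) (G : A → (B → Z) → Prop) :
    ms u Y (fun z => ∀ a, G a fun b => z (a, b)) = ∏ a, ms u (fun b => Y (a, b)) (G a) := by
  simp only [ms]
  rw [prod_univ_sum]
  refine sum_nbij' (fun z a b => z (a, b)) (fun p i => p i.1 i.2) ?_ ?_ ?_ ?_ ?_
  · intro z hz
    simp only [Fintype.mem_piFinset] at hz ⊢
    exact fun a b => hz _
  · intro z hz
    simp only [Fintype.mem_piFinset] at hz ⊢
    exact fun i => hz i.1 i.2
  · intro z _; rfl
  · intro z _; rfl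
  · intro z _
    by_cases h : ∀ a, G a fun b => z (a, b)
    · rw [if_pos h, Fintype.prod_prod_type]
      exact prod_congr rfl fun a _ => (if_pos (h a)).symm
    · rw [if_neg h]
      obtain ⟨a, ha⟩ := not_forall.1 h
      exact (prod_eq_zero (mem_univ a) (if_neg ha)).symm

variable {u}

theorem ms_nonneg (hu : ∀ z, 0 ≤ u z) (Y : I → Finset Z) (F : (I → Z) → Prop) : 0 ≤ ms u Y F :=
  sum_nonneg fun z _ => by
    split_ifs
    · exact prod_nonneg fun i _ => hu _
    · exact le_rfl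

theorem ms_inj (hu : ∀ z, 0 ≤ u z) (b : A → I) (hb : Function.Injective b) (Y : I → Finset Z)
    (a : I → ℝ) (ha : ∀ i, ∑ z ∈ Y i, u z ≤ a i) (F : (A → Z) → Prop) (θ : ℝ)
    (hF : ms u (fun k => Y (b k)) F ≤ θ * ∏ k, a (b k)) :
    ms u Y (fun z => F fun k => z (b k)) ≤ θ * ∏ i, a i := by
  classical
  let e : A ⊕ {i // i ∉ Set.range b} ≃ I :=
    ((Equiv.ofInjective b hb).sumCongr (Equiv.refl _)).trans (Equiv.sumCompl (· ∈ Set.range b))
  have h1 := ms_equiv u e Y fun z => (F fun a => z (.inl a)) ∧ (fun _ => True) fun b => z (.inr b)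
  rw [ms_sum u (fun i => Y (e i)) F fun _ => True, ms_true] at h1
  have h2 : ms u Y (fun z => F fun k => z (b k)) = _ := (congrArg (ms u Y)
    (funext fun z => propext ⟨fun h => ⟨h, trivial⟩, fun h => h.1⟩)).trans h1
  rw [h2, ← e.prod_comp a, Fintype.prod_sum_type, ← mul_assoc]
  have s0 : ∀ i, 0 ≤ ∑ z ∈ Y i, u z := fun i => sum_nonneg fun z _ => hu z
  exact mul_le_mul hF (prod_le_prod (fun i _ => s0 _) fun i _ => ha _)
    (prod_nonneg fun i _ => s0 _) ((ms_nonneg hu _ _).trans hF)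

/-- two families of disjoint blocks -/
theorem ms_two {T T' ι ι' : Type} [Fintype T] [DecidableEq T] [Fintype T'] [DecidableEq T']
    [Fintype ι] [DecidableEq ι] [Fintype ι'] [DecidableEq ι'] (hu : ∀ z, 0 ≤ u z)
    (b : T × ι → I) (b' : T' × ι' → I) (hb : Function.Injective b) (hb' : Function.Injective b')
    (hd : ∀ x y, b x ≠ b' y) (Y : I → Finset Z) (a : I → ℝ) (ha : ∀ i, ∑ z ∈ Y i, u z ≤ a i)
    (F : (ι → Z) → Prop) (F' : (ι' → Z) → Prop) (θ θ' : ℝ)
    (hF : ∀ t, ms u (fun k => Y (b (t, k))) F ≤ θ * ∏ k, a (b (t, k)))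
    (hF' : ∀ t, ms u (fun k => Y (b' (t, k))) F' ≤ θ' * ∏ k, a (b' (t, k))) :
    ms u Y (fun z => (∀ t, F fun k => z (b (t, k))) ∧ ∀ t, F' fun k => z (b' (t, k))) ≤
      (θ ^ Fintype.card T * θ' ^ Fintype.card T') * ∏ i, a i := by
  have hi : Function.Injective (Sum.elim b b') := hb.sumElim hb' hd
  refine ms_inj hu (Sum.elim b b') hi Y a ha
    (fun z => (∀ t, F fun k => z (.inl (t, k))) ∧ ∀ t, F' fun k => z (.inr (t, k))) _ ?_
  rw [ms_sum u (fun k => Y (Sum.elim b b' k)) (fun z => ∀ t, F fun k => z (t, k))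
    (fun z => ∀ t, F' fun k => z (t, k)), ms_prod u _ fun _ => F, ms_prod u _ fun _ => F',
    Fintype.prod_sum_type, Fintype.prod_prod_type, Fintype.prod_prod_type, mul_mul_mul_comm]
  have e1 : θ ^ Fintype.card T = ∏ t : T, θ := by simp
  have e2 : θ' ^ Fintype.card T' = ∏ t : T', θ' := by simp
  rw [e1, e2, ← prod_mul_distrib, ← prod_mul_distrib]
  exact mul_le_mul (prod_le_prod (fun t _ => ms_nonneg hu _ _) fun t _ => hF t)
    (prod_le_prod (fun t _ => ms_nonneg hu _ _) fun t _ => hF' t)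
    (prod_nonneg fun t _ => ms_nonneg hu _ _)
    (prod_nonneg fun t _ => (ms_nonneg hu _ _).trans (hF t))

/-- a lower bound for a mass -/
theorem ms_ge {P Q : Type} [Fintype Q] {u : P × Q → ℝ} (hu : ∀ z, 0 ≤ u z) (X X' : I → Finset P)
    (hX : ∀ i, X' i ⊆ X i) (f : I → Q) (c : ℝ) (hc : 0 ≤ c) (hf : ∀ i, ∀ x ∈ X' i, c ≤ u (x, f i))
    (F : (I → P × Q) → Prop) (hF : ∀ y : I → P, F fun i => (y i, f i)) :
    ∏ i, (c * (X' i).card) ≤ ms u (fun i => X i ×ˢ univ) F := by
  classical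
  have h1 : ∏ i, (c * (X' i).card) ≤ ∏ i, ∑ x ∈ X' i, u (x, f i) :=
    prod_le_prod (fun i _ => by positivity) fun i _ => by
      rw [mul_comm, ← nsmul_eq_mul]
      exact card_nsmul_le_sum _ _ _ (hf i)
  refine h1.trans ?_
  rw [prod_univ_sum]
  have hi : Set.InjOn (fun (y : I → P) i => (y i, f i)) (Fintype.piFinset X' : Set (I → P)) :=
    fun y _ y' _ h => funext fun i => congrArg Prod.fst (congrFun h i)
  have h2 := sum_image (f := fun z : I → P × Q => if F z then ∏ i, u (z i) else 0) hi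
  simp only [hF, if_true] at h2
  rw [← h2]
  unfold ms
  refine le_of_le_of_eq (sum_le_sum_of_subset_of_nonneg (t := Fintype.piFinset
    fun i => X i ×ˢ univ) (fun z hz => ?_) fun z _ _ => ?_) ?_
  · obtain ⟨y, hy, rfl⟩ := mem_image.1 hz
    rw [Fintype.mem_piFinset] at hy ⊢
    exact fun i => mem_product.2 ⟨hX i (hy i), mem_univ _⟩
  · split_ifs
    · exact prod_nonneg fun i _ => hu _
    · exact le_rfl
  · congr

open Classical in
/-- the mass as a double sum -/
theorem ms_pair {P Q : Type} [Fintype Q] (u : P × Q → ℝ) (X : I → Finset P)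
    (E : (I → P) → (I → Q) → Prop) :
    ms u (fun i => X i ×ˢ univ) (fun z => E (fun i => (z i).1) fun i => (z i).2) =
      ∑ y ∈ Fintype.piFinset X, ∑ e : I → Q, if E y e then ∏ i, u (y i, e i) else 0 := by
  unfold ms
  rw [← sum_product']
  refine sum_nbij' (fun z => (fun i => (z i).1, fun i => (z i).2))
    (fun p i => (p.1 i, p.2 i)) ?_ ?_ ?_ ?_ ?_
  · intro z hz
    rw [Fintype.mem_piFinset] at hz
    rw [mem_product, Fintype.mem_piFinset]
    exact ⟨fun i => (mem_product.1 (hz i)).1, mem_univ _⟩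
  · intro z hz
    rw [mem_product, Fintype.mem_piFinset] at hz
    rw [Fintype.mem_piFinset]
    exact fun i => mem_product.2 ⟨hz.1 i, mem_univ _⟩
  · intro z _; rfl
  · intro z _; rfl
  · intro z _; rfl

end

end Vale.Agent.P004S.Ms
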