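import Vale.Agent.P004S.Fm1
import Vale.Agent.P004S.MasA

/-!
# P004, block SMITH, row FM: the first moment with fixed patterns (helper48)
-/

set_option linter.all false

noncomputable section

namespace Vale.Agent.P004S.Fm

open NumberField Finset Matrix
open Vale.Agent.P022 (Qb GQ IsConj)
open Vale.Agent.P027M.S (Inert)
open Vale.Agent.P022D.W (dec)
open Vale.Agent.P022E.GW (Ov Fb Gn Ch)
open Vale.Agent.P004S.Ms

variable {r : Rp} {S : Finset ℕ}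

theorem ex_c : ∃ c : GQ, IsConj c := by
  have := P022.H443.galQb
  let φ : Qb →+* ℂ := (IsAlgClosed.lift (R := ℚ) (S := Qb) (M := ℂ)).toRingHom
  obtain ⟨g, hg⟩ := ComplexEmbedding.exists_comp_symm_eq_of_comp_eq (k := ℚ) φ
    (ComplexEmbedding.conjugate φ) (Subsingleton.elim _ _)
  exact ⟨g.symm, φ, fun x => RingHom.congr_fun hg x⟩

/-! ### finiteness -/

theorem fin_un (cnt : CNT) (cnz : CNZ) (h : Rep r S) :
    {w : GQ → Nh | w ∈ Zh h ∧ Un (· ∉ S) w}.Finite := by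
  obtain ⟨C, hC⟩ := cnt (h.Kn 1 ⊓ ⊤) ((h.Kn_open 1).inter isOpen_univ)
  refine (cnz Nh (rh h) (h.Kn 1) ⊤ {g | ∃ l P, Ov l P ∧ l ∉ S ∧ Inert P g} _
    (idx_ne (h.Kn_open 1)) (fun g hg x => by rw [rh_tr h hg]; rfl) ((hC S).1.subset
      fun ξ a => ⟨a.1, a.2.1, fun l P o n g i => a.2.2 g ⟨l, P, o, n, i⟩⟩) le_rfl).1.subset
    fun w a => ⟨a.1.1.comp_continuous continuous_subtype_val, fun g _ k _ => a.1.2 g k,
      fun g n => absurd trivial n, fun g ⟨l, P, o, n, i⟩ => a.2 l P o n g i⟩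

open Classical in
/-- restriction to a subgroup -/
def rs (D : Subgroup GQ) : (GQ → Nh) →ₗ[ZMod 2] GQ → Nh :=
  LinearMap.pi fun g => if g ∈ D then LinearMap.proj g else 0

theorem rs_mem {D : Subgroup GQ} {g : GQ} (hg : g ∈ D) (w : GQ → Nh) : rs D w g = w g := by
  simp [rs, hg]

theorem rs_not {D : Subgroup GQ} {g : GQ} (hg : g ∉ D) (w : GQ → Nh) : rs D w g = 0 := by
  simp [rs, hg]

theorem fin_loc (lf : LOCF) (cnz : CNZ) (h : Rep r S) {l : ℕ} {P : Ideal (𝓞 Qb)} (o : Ov l P) :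
    (rs (dec P) '' Zh h).Finite := by
  refine (cnz Nh (rh h) (h.Kn 1) (dec P) ∅ _
    (idx_ne (h.Kn_open 1)) (fun g hg x => by rw [rh_tr h hg]; rfl)
    ((lf _ l P (h.Kn_open 1) o).subset fun ξ a => ⟨a.1, a.2.1⟩) le_rfl).1.subset ?_
  rintro _ ⟨w, a, rfl⟩
  refine ⟨?_, fun g m k n => ?_, fun g n => rs_not n w, fun g n => n.elim⟩
  · simp only [fun g : dec P => rs_mem g.2 w]
    exact a.1.comp_continuous continuous_subtype_val
  · rw [rs_mem m, rs_mem n, rs_mem (mul_mem m n), a.2]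

/-- all restrictions -/
def ra (S : Finset ℕ) (pl : Pl) (c : GQ) :
    (GQ → Nh) →ₗ[ZMod 2] (S.filter Nat.Prime → GQ → Nh) × Nh :=
  (LinearMap.pi fun l : S.filter Nat.Prime => rs (dec (pl.P l))).prod (LinearMap.proj c)

theorem fin_ra (lf : LOCF) (cnz : CNZ) (h : Rep r S) (pl : Pl) (c : GQ) :
    (ra S pl c '' Zh h).Finite := by
  refine ((Set.Finite.pi' fun l : S.filter Nat.Prime =>
    fin_loc lf cnz h (pl.ov l (mem_filter.1 l.2).2)).prod Set.finite_univ).subset ?_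
  rintro _ ⟨w, a, rfl⟩
  exact ⟨fun l => ⟨w, a, rfl⟩, trivial⟩

/-! ### test cocycles -/

theorem orth_fix (lt : LT) (h : Rep r S) (pl : Pl) {q : ℕ} (hq : q.Prime) (hS : q ∉ S) {x : N}
    (hx : x ∈ Bn.orthogonal (Im r (pl.σ q))) {g : GQ} (hg : g ∈ dec (pl.P q)) :
    dg (rb r g) x = x := by
  have h1 : dg (rb r (pl.σ q)) x = x := sub_eq_zero.1 (Bn_sep fun y => by
    obtain ⟨y, rfl⟩ : ∃ u, dg (rb r (pl.σ q)) u = y := ⟨dg (rb r (pl.σ q)⁻¹) y, by
      rw [← dg_mul, ← h.rb_mul, mul_inv_cancel, rb_one, dg_one]⟩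
    have := LinearMap.BilinForm.mem_orthogonal_iff.1 hx _ ⟨y, rfl⟩
    rw [LinearMap.sub_apply, map_sub, LinearMap.sub_apply, sub_eq_zero] at this
    rw [map_sub, Bn_dg h, this, LinearMap.id_apply, sub_self])
  obtain ⟨j, i, hi, k⟩ := (lt q _ (pl.ov q hq)).2 _ g (pl.fb q hq) hg _ (h.Kn_open 1)
  have h2 : ∀ j : ℕ, dg (rb r (pl.σ q ^ j)) x = x := fun j => by
    induction j with
    | zero => rw [pow_zero, rb_one, dg_one]
    | succ j ih => rw [pow_succ, h.rb_mul, dg_mul, h1, ih]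
  rw [← mul_inv_cancel_left (pl.σ q ^ j * i) g, h.rb_mul, h.tr_one_iff.1 k, mul_one, h.rb_mul,
    rb_inert h (pl.ov q hq) hS hi, mul_one, h2]

theorem ex_one (lt : LT) (D : Dat r S) (pl : Pl) {q : ℕ} (hq : q.Prime) (hS : q ∉ S) {x : N}
    (hx : x ∈ Bn.orthogonal (Im r (pl.σ q))) (a : ZMod 2) :
    ∃ Θ ∈ Zh D.rep, Un (fun l => l ∉ S ∧ l ≠ q) Θ ∧ Θ (pl.τ q) = (x, a) := by
  have h := D.rep
  have o := pl.ov q hq
  have t := pl.gn q hq (h.ne_two hS)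
  obtain ⟨u, u1, u2, u3⟩ := D.ex q _ _ x.1 o hS t fun g hg =>
    congrArg Prod.fst (orth_fix lt h pl hq hS hx hg)
  obtain ⟨v, v1, v2, v3⟩ := D.ex q _ _ x.2 o hS t fun g hg =>
    congrArg Prod.snd (orth_fix lt h pl hq hS hx hg)
  refine ⟨fun g => ((u g, v g), a * nu q g), ⟨(u1.1.prodMk v1.1).prodMk ((nu_lc q).comp (a * ·)),
    fun g k => Prod.ext (Prod.ext (u1.2 g k) (v1.2 g k)) (by
      simp only [nu_mul, mul_add]; rfl)⟩, fun l P o' n g hg => ?_, ?_⟩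
  · beta_reduce
    rw [u2 l P o' n g hg, v2 l P o' n g hg, nu_inert o' (h.ne_two n.1) (fun k => n.2
      ((Nat.prime_dvd_prime_iff_eq o'.1 hq).1 (Int.natCast_dvd_natCast.1 k))) hg, mul_zero]
    rfl
  · simp only [u3, v3, nu_gn o t, mul_one]

/-- the parameters -/
abbrev La (r : Rp) (S : Finset ℕ) (pl : Pl) (M : ℤ) : Type :=
  ∀ q : pf S M, Bn.orthogonal (Im r (pl.σ q))

theorem ex_sec (lt : LT) (D : Dat r S) (pl : Pl) {M : ℤ} (hM : M ≠ 0) (e : ℕ → N) :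
    ∃ s : La r S pl M →ₗ[ZMod 2] GQ → Nh, ∀ a, s a ∈ Zh D.rep ∧
      Un (fun l => l ∉ S ∧ l ∉ pf S M) (s a) ∧
      ∀ q : pf S M, s a (pl.τ q) = ((a q : N), Bn (a q) (e q)) := by
  let R : Submodule (ZMod 2) (La r S pl M × (GQ → Nh)) :=
    { carrier := {p | p.2 ∈ Zh D.rep ∧ Un (fun l => l ∉ S ∧ l ∉ pf S M) p.2 ∧
        ∀ q : pf S M, p.2 (pl.τ q) = ((p.1 q : N), Bn (p.1 q) (e q))}
      add_mem' := fun {a b} ha hb => ⟨add_mem ha.1 hb.1, fun l P o n g i => by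
        rw [Prod.snd_add, Pi.add_apply, ha.2.1 l P o n g i, hb.2.1 l P o n g i, add_zero],
        fun q => by simp [ha.2.2 q, hb.2.2 q]⟩
      zero_mem' := ⟨zero_mem _, fun _ _ _ _ _ _ => rfl, fun q => by simp [Prod.ext_iff]⟩
      smul_mem' := fun c a ha => ⟨Submodule.smul_mem _ c ha.1, fun l P o n g i => by
        rw [Prod.smul_snd, Pi.smul_apply, ha.2.1 l P o n g i, smul_zero],
        fun q => by simp [ha.2.2 q]⟩ }
  refine sec R fun a => ?_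
  have k : ∀ q : pf S M, ∃ Θ, (Pi.single q (a q), Θ) ∈ R := fun q => by
    obtain ⟨b, -, c⟩ := (mem_pf hM).1 q.2
    obtain ⟨Θ, h1, h2, h3⟩ := ex_one lt D pl b c (a q).2 (Bn (a q) (e q))
    refine ⟨Θ, h1, fun l P o n => h2 l P o ⟨n.1, fun k => n.2 (k ▸ q.2)⟩, fun p => ?_⟩
    by_cases k : p = q
    · subst k; simpa using h3
    · obtain ⟨b', -, c'⟩ := (mem_pf hM).1 p.2
      simpa [Pi.single_eq_of_ne k, Prod.mk_zero_zero] using h2 p _ (pl.ov p b') ⟨c', fun j => k (Subtype.ext j)⟩ _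
        (pl.gn p b' (D.rep.ne_two c')).1
  choose Θ hΘ using k
  have := R.sum_mem fun q (_ : q ∈ univ) => hΘ q
  rw [← prod_mk_sum, univ_sum_single] at this
  exact ⟨_, this⟩

/-- the stabiliser of a pattern -/
def sb (h : Rep r S) (x : N) : Subgroup GQ where
  carrier := {g | dg (rb r g) x = x}
  mul_mem' {g k} hg hk := by
    show dg _ x = x
    rw [h.rb_mul, dg_mul, hk, hg]
  one_mem' := by
    show dg _ x = x
    rw [rb_one, dg_one]
  inv_mem' {g} hg := by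
    show dg _ x = x
    conv_lhs => rw [← show dg (rb r g) x = x from hg]
    rw [← dg_mul, ← h.rb_mul, inv_mul_cancel, rb_one, dg_one]

theorem kn_sb (h : Rep r S) (x : N) : h.Kn 1 ≤ sb h x := fun g hg => by
  show dg _ x = x
  rw [h.tr_one_iff.1 hg, dg_one]

theorem sb_open (h : Rep r S) (x : N) : IsOpen (sb h x : Set GQ) :=
  Subgroup.isOpen_mono (kn_sb h x) (h.Kn_open 1)

theorem sb_index (h : Rep r S) (x : N) : (sb h x).index ≤ 16 :=
  (Nat.le_of_dvd (Nat.pos_of_ne_zero (idx_ne (h.Kn_open 1)))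
    (Subgroup.index_dvd_of_le (kn_sb h x))).trans h.Kn_one_index

theorem xi_mul {h : Rep r S} {Θ : GQ → Nh} (z : Θ ∈ Zh h) {x : N} {g : GQ} (hg : g ∈ sb h x)
    (k : GQ) : Bh (Θ (g * k)) (x, 1) = Bh (Θ g) (x, 1) + Bh (Θ k) (x, 1) := by
  rw [z.2, map_add, LinearMap.add_apply, ← Bh_rh h g (Θ k), rh_apply h g (x, 1), hg]

theorem xi_conj {h : Rep r S} {Θ : GQ → Nh} (z : Θ ∈ Zh h) {x : N} {g k : GQ} (hg : g ∈ sb h x)
    (hk : k ∈ sb h x) : Bh (Θ (k⁻¹ * g * k)) (x, 1) = Bh (Θ g) (x, 1) := by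
  have := xi_mul z hk (k⁻¹ * g * k)
  rw [← mul_assoc, mul_inv_cancel_left, xi_mul z hg, add_comm] at this
  exact (add_left_cancel this).symm

theorem xi_orth {h : Rep r S} {Θ : GQ → Nh} (z : Θ ∈ Zh h) {J : Type} {f : J → N}
    (h0 : ∀ j, ∀ g ∈ sb h (f j), Bh (Θ g) (f j, 1) = 0) {τ : GQ} (hτ : τ ∈ h.Kn 1) :
    (Θ τ).1 ∈ Bn.orthogonal (Hs r (Set.range f)) := by
  have k : ∀ g j, Bn (Θ τ).1 (dg (rb r g) (f j)) + (Θ τ).2 = 0 := fun g j => by
    have := h0 j _ (kn_sb h _ ((h.Kn_normal 1).conj_mem τ hτ g⁻¹))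
    rwa [z_conj z _ (rh_tr h hτ), ← Bh_rh h g, ← Module.End.mul_apply, ← map_mul, mul_inv_cancel,
      map_one, Module.End.one_apply, Bh_apply, rh_apply, mul_one] at this
  have l : Hs r (Set.range f) ≤ LinearMap.ker (Bn (Θ τ).1) := Submodule.span_le.2 (by
    rintro _ ⟨g, _, ⟨i, rfl⟩, _, ⟨j, rfl⟩, rfl⟩
    have := k 1 j
    rw [rb_one, dg_one, ← k g i, add_left_inj] at this
    rw [SetLike.mem_coe, LinearMap.mem_ker, map_sub, this, sub_self])
  exact LinearMap.BilinForm.mem_orthogonal_iff.2 fun n hn => (Bn_comm _ _).trans (l hn)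

theorem log_le {M : ℤ} (hM : M ≠ 0) : ∑ l ∈ pf S M, Real.log l ≤ Real.log |(M : ℝ)| := by
  refine (sum_le_sum_of_subset_of_nonneg sdiff_subset fun l _ _ =>
    Real.log_natCast_nonneg l).trans ?_
  have k : ∀ l ∈ M.natAbs.primeFactors, (0 : ℝ) < l := fun l m => by
    exact_mod_cast (Nat.prime_of_mem_primeFactors m).pos
  rw [← Real.log_prod fun l m => (k l m).ne', ← Int.cast_abs, Int.abs_eq_natAbs, Int.cast_natCast]
  refine Real.log_le_log (prod_pos k) ?_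
  rw [← Nat.cast_prod]
  exact Nat.cast_le.2 (Nat.le_of_dvd (Int.natAbs_pos.2 hM) (Nat.prod_primeFactors_dvd _))

/-! ### counting -/

variable {J : Type} [Fintype J] [DecidableEq J] {pl : Pl} {M : ℤ} {X : J → Finset ℕ} {L κ : ℝ}
  {e : ℕ → N} {f : J → N}

open Classical in
/-- the points with a solution -/
def GS (r : Rp) (S : Finset ℕ) (pl : Pl) (M : ℤ) (X : J → Finset ℕ) (e : ℕ → N) (f : J → N) :
    Finset (J → ℕ) := (Fintype.piFinset X).filter fun x => ∃ Φ, (x, Φ) ∈ ZS r S pl M X e f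

theorem mem_GS {x : J → ℕ} (hx : x ∈ GS r S pl M X e f) : ∃ Φ, (x, Φ) ∈ ZS r S pl M X e f := by
  classical
  exact (mem_filter.1 hx).2

theorem fib (lt : LT) (h : Rep r S) (hF : Fam S M X L)
    (f0 : {w : GQ → Nh | w ∈ Zh h ∧ Un (· ∉ S) w}.Finite) : Le (ZS r S pl M X e f)
      ((GS r S pl M X e f).card * {w : GQ → Nh | w ∈ Zh h ∧ Un (· ∉ S) w}.ncard) := by
  classical
  rw [← nsmul_eq_mul, ← sum_const]
  refine Le.cover _ (fun x => {z | z ∈ ZS r S pl M X e f ∧ z.1 = x}) _ (fun x hx => ?_)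
    fun z hz => ⟨z.1, mem_filter.2 ⟨hz.1, z.2, hz⟩, hz, rfl⟩
  obtain ⟨Φ, hΦ⟩ := (mem_filter.1 hx).2
  refine Le.inj ⟨f0, le_rfl⟩ (fun z => hat (dd M z.1) z.2 - hat (dd M x) Φ) (fun z a y b k => ?_)
    fun z a => ⟨sub_mem (hat_mem h a.1.2.1) (hat_mem h hΦ.2.1), fun l P o n g i =>
      zs_un lt h hF a.1 hΦ o n (fun j => by rw [a.2]) i⟩
  exact Prod.ext (a.2.trans b.2.symm) (funext fun g =>
    congrArg Prod.fst (congrFun (sub_left_injective k) g))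

section

variable {h : Rep r S} {s : La r S pl M →ₗ[ZMod 2] GQ → Nh} (hs : ∀ a, s a ∈ Zh h ∧
  Un (fun l => l ∉ S ∧ l ∉ pf S M) (s a) ∧
  ∀ q : pf S M, s a (pl.τ q) = ((a q : N), Bn (a q) (e q)))
include hs

theorem equi (hF : Fam S M X L) {j : J} (hE : Equi pl (X j) 16 (2 * L) κ) (t : La r S pl M)
    (n : ¬ ∀ g ∈ sb h (f j), Bh (s t g) (f j, 1) = 0) :
    |∑ x ∈ X j, chs pl (sb h (f j)) (fun g => Bh (s t g) (f j, 1)) x| ≤ κ * (X j).card := by
  have := hE (sb h (f j)) (fun g => Bh (s t g) (f j, 1)) (S ∪ pf S M) (sb_open h _) (sb_index h _)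
    ⟨((hs t).1.1.comp fun w => Bh w (f j, 1)).comp_continuous continuous_subtype_val,
      fun x y => xi_mul (hs t).1 x.2 y⟩
    (by
      have d : Disjoint S (pf S M) := disjoint_sdiff
      rw [sum_union d]
      linarith [hF.lS, hF.lm, log_le (S := S) hF.ne])
    (fun l P o k g i => kn_sb h _ (h.Kn_uns 1 l P o (fun m => k (mem_union_left _ m)) g i))
    (fun l P o k g i => by
      beta_reduce
      rw [(hs t).2.1 l P o (by simpa using k) g i, LinearMap.map_zero₂])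
  rwa [if_neg n, sub_zero] at this

theorem rel (lt : LT) (rc : REC) {c : GQ} (hc : IsConj c) (hF : Fam S M X L)
    {z z' : (J → ℕ) × (GQ → N)} (hz : z ∈ ZS r S pl M X e f) (hz' : z' ∈ ZS r S pl M X e f)
    {t : La r S pl M} (ht : ra S pl c (s t) = 0) :
    ∑ j, Bh (s t (pl.σ (z.1 j))) (f j, 1) = ∑ j, Bh (s t (pl.σ (z'.1 j))) (f j, 1) := by
  refine key lt rc h hF hz hz' (hs t).1 (hs t).2.1
    (fun q m => ?_) (fun l m p g k => ?_) ⟨c, hc, congrArg Prod.snd ht⟩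
  · rw [(hs t).2.2 ⟨q, m⟩]
    exact ⟨(t ⟨q, m⟩).2, rfl⟩
  · rw [← rs_mem k (s t)]
    exact congrFun (congrFun (congrArg Prod.fst ht) ⟨l, mem_filter.2 ⟨m, p⟩⟩) g

theorem triv (hM : M ≠ 0) {t : La r S pl M}
    (ht : ∀ j, ∀ g ∈ sb h (f j), Bh (s t g) (f j, 1) = 0) (q : pf S M) :
    (t q : N) ∈ Bn.orthogonal (Hs r (Set.range f) ⊔ Im r (pl.σ q)) := by
  obtain ⟨b, -, d⟩ := (mem_pf hM).1 q.2
  have := xi_orth (hs t).1 ht (h.Kn_uns 1 q _ (pl.ov q b) d _ (pl.gn q b (h.ne_two d)).1)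
  rw [(hs t).2.2 q] at this
  refine LinearMap.BilinForm.mem_orthogonal_iff.2 fun n hn => ?_
  obtain ⟨u, hu, v, hv, rfl⟩ := Submodule.mem_sup.1 hn
  rw [map_add, LinearMap.add_apply, LinearMap.BilinForm.mem_orthogonal_iff.1 this u hu,
    LinearMap.BilinForm.mem_orthogonal_iff.1 (t q).2 v hv, add_zero]

theorem cnt2 (hM : M ≠ 0) {T : Type} {ι : T → La r S pl M} (hι : Function.Injective ι) :
    Nat.card {t : T // ∀ j, ∀ g ∈ sb h (f j), Bh (s (ι t) g) (f j, 1) = 0} *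
      ∏ q ∈ pf S M, hq r (Hs r (Set.range f)) (pl.σ q) ≤ Nat.card (La r S pl M) := by
  rw [Nat.card_pi, ← prod_coe_sort, prod_congr rfl fun (q : pf S M) _ =>
    (card_hq r (Hs r (Set.range f)) (pl.σ q)).symm, prod_mul_distrib, ← Nat.card_pi]
  exact Nat.mul_le_mul_right _ (Nat.card_le_card_of_injective
    (fun t q => ⟨ι t.1 q, triv hs hM t.2 q⟩) fun t u k => Subtype.ext (hι (funext fun q =>
      Subtype.ext (Subtype.ext_iff.1 (congrFun k q) :))))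

theorem cnt1 {c : GQ} (f1 : (ra S pl c '' Zh h).Finite) : Nat.card (La r S pl M) ≤
    Nat.card (LinearMap.ker ((ra S pl c).comp s)) * (ra S pl c '' Zh h).ncard := by
  rw [card_kr ((ra S pl c).comp s)]
  refine Nat.mul_le_mul_left _ (Set.ncard_le_ncard ?_ f1)
  rintro _ ⟨u, rfl⟩
  exact ⟨_, (hs u).1, rfl⟩

theorem fr (lt : LT) (rc : REC) {c : GQ} (hc : IsConj c) (hF : Fam S M X L)
    (hE : ∀ j, Equi pl (X j) 16 (2 * L) κ) (hκ : 0 ≤ κ) {z : (J → ℕ) × (GQ → N)}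
    (hz : z ∈ ZS r S pl M X e f) {T : Type} [AddCommGroup T] [Fintype T] (ι : T → La r S pl M)
    (hι : ∀ t t', ι (t + t') = ι t + ι t') (hT : ∀ t, ra S pl c (s (ι t)) = 0) :
    (Fintype.card T : ℝ) * (GS r S pl M X e f).card ≤
      (16 : ℕ) ^ Fintype.card J * (∏ j, ((X j).card : ℝ)) *
      (Nat.card {t : T // ∀ j, ∀ g ∈ sb h (f j), Bh (s (ι t) g) (f j, 1) = 0} +
        κ * Fintype.card T) := by
  have a : ∀ (t t' : T) j g, Bh (s (ι (t + t')) g) (f j, 1) =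
      Bh (s (ι t) g) (f j, 1) + Bh (s (ι t') g) (f j, 1) := fun t t' j g => by
    rw [hι, map_add, Pi.add_apply, LinearMap.map_add₂]
  refine four pl X (fun j => sb h (f j)) (fun t j g => Bh (s (ι t) g) (f j, 1))
    (fun t => ∑ j, Bh (s (ι t) (pl.σ (z.1 j))) (f j, 1)) 16 hκ
    (fun j => idx_ne (sb_open h _)) (fun j => sb_index h _) a
    (fun t t' => ?_) (fun t j g m k n => xi_conj (hs _).1 m n)
    (fun t j n => equi hs hF (hE j) _ n) (GS r S pl M X e f) fun x hx => ?_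
  · rw [← sum_add_distrib]
    exact sum_congr rfl fun j _ => a t t' j _
  · obtain ⟨Φ, hΦ⟩ := mem_GS hx
    exact ⟨hΦ.1, fun j => zs_fix h hF hΦ j, fun t => rel hs lt rc hc hF hΦ hz (hT t)⟩

end

theorem ar0 {t g a n p c k : ℝ} (h : t * g ≤ a * (n + k * t)) (t0 : 0 < t) (p0 : 0 < p)
    (ha : 0 ≤ a) (c3 : n * p ≤ t * c) : g ≤ a * (c * p⁻¹ + k) := by
  rw [← le_mul_inv_iff₀ p0] at c3
  refine le_of_mul_le_mul_left (h.trans ?_) t0
  rw [mul_left_comm]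
  exact mul_le_mul_of_nonneg_left (by linarith) ha

theorem pts (lt : LT) (rc : REC) (D : Dat r S) {c : GQ} (hc : IsConj c)
    (f1 : (ra S pl c '' Zh D.rep).Finite) (hF : Fam S M X L)
    (hE : ∀ j, Equi pl (X j) 16 (2 * L) κ) (hκ : 0 ≤ κ) {z : (J → ℕ) × (GQ → N)}
    (hz : z ∈ ZS r S pl M X e f) :
    ((GS r S pl M X e f).card : ℝ) ≤ (16 : ℕ) ^ Fintype.card J * (∏ j, ((X j).card : ℝ)) *
      ((ra S pl c '' Zh D.rep).ncard *
        (∏ q ∈ pf S M, (hq r (Hs r (Set.range f)) (pl.σ q) : ℝ))⁻¹ + κ) := by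
  obtain ⟨s, hs⟩ := ex_sec lt D pl hF.ne e
  haveI : Fintype (LinearMap.ker ((ra S pl c).comp s)) := Fintype.ofFinite _
  have c3 := (Nat.cast_le (α := ℝ)).2 ((cnt2 (f := f) hs hF.ne
    (T := LinearMap.ker ((ra S pl c).comp s)) Subtype.val_injective).trans (cnt1 hs f1))
  rw [Nat.cast_mul, Nat.cast_prod, Nat.cast_mul,
    Nat.card_eq_fintype_card (α := LinearMap.ker ((ra S pl c).comp s))] at c3
  exact ar0 (fr hs lt rc hc hF hE hκ hz (T := LinearMap.ker ((ra S pl c).comp s)) Subtype.val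
    (fun _ _ => rfl) fun t => t.2) (Nat.cast_pos.2 Fintype.card_pos)
    (prod_pos fun q _ => Nat.cast_pos.2 Nat.card_pos) (by positivity) c3

theorem arith {a b c u p k g n : ℝ} (h : g ≤ a * p * (c * u + k)) (hab : a ≤ b) (ha : 0 ≤ a)
    (hc : 0 ≤ c) (hu : 0 ≤ u) (hp : 0 ≤ p) (hk : 0 ≤ k) (hn : 0 ≤ n) :
    g * n ≤ b * (c + 1) * n * p * (u + k) := by
  rw [show b * (c + 1) * n * p * (u + k) = b * p * ((c + 1) * (u + k)) * n by ring]
  refine mul_le_mul_of_nonneg_right (h.trans (mul_le_mul (mul_le_mul_of_nonneg_right hab hp) ?_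
    (by positivity) (mul_nonneg (ha.trans hab) hp))) hn
  linarith [mul_nonneg hc hk]

end Vale.Agent.P004S.Fm

namespace Vale.Agent.P004S

open Fm

/-- **row FM** -/
theorem fm : iFM := by
  intro lt cnt lf cnz rc r S pl D
  obtain ⟨c, hc⟩ := ex_c
  have f0 := fin_un cnt cnz D.rep
  have f1 := fin_ra lf cnz D.rep pl c
  refine ⟨16 ^ 5 * ((ra S pl c '' Zh D.rep).ncard + 1) *
    {w | w ∈ Zh D.rep ∧ Un (· ∉ S) w}.ncard, 16, fun J _ _ M X L κ e f hJ hF hE hκ => ?_⟩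
  exact Ms.Le.of_ne (Z := ZS r S pl M X e f) (by positivity) fun z hz =>
    (fib lt D.rep hF f0).mono le_rfl (arith (pts lt rc D hc f1 hF hE hκ hz)
      (pow_le_pow_right₀ (by norm_num) hJ) (by positivity) (by positivity) (by positivity)
      (by positivity) hκ (by positivity))

end Vale.Agent.P004S
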