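import Vale.Agent.P004S.Bas2

/-!
# P004, block SMITH: the rows OCC, OCP, UU
-/

set_option linter.all false

noncomputable section

namespace Vale.Agent.P004S

open NumberField Finset
open Vale.Agent.P022 (Qb GQ)
open Vale.Agent.P027M.S (Inert)
open Vale.Agent.P022E.GW (Ov Ch)
open scoped Classical

namespace Oc

variable {pl : Pl} {X T : Finset ℕ} {n : ℕ} {L κ : ℝ} {H : Subgroup GQ} {ξ : GQ → ZMod 2}

theorem ch0 (H : Subgroup GQ) : Ch H (0 : GQ → ZMod 2) := zero_mem _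

theorem fin_bd (hH : IsOpen (H : Set GQ)) (hn : H.index ≤ n) (h0 : (X.card : ℝ) * (1 - κ) ≤
    ∑ x ∈ X, chs pl H 0 x) (h1 : 0 ≤ κ * X.card) (Q : ℕ → Prop) (f : ℕ → ℝ)
    (hf : ∀ x, chs pl H 0 x - f x ≤ if Q x then 2 * (H.index : ℝ) else 0)
    (h2 : ∑ x ∈ X, f x ≤ κ * X.card) : (1 / (2 * n) - κ) * X.card ≤ (X.filter Q).card := by
  have k1 := sum_le_sum fun x (_ : x ∈ X) => hf x
  rw [sum_sub_distrib, ← sum_filter, sum_const, nsmul_eq_mul] at k1
  have k2 : (1 : ℝ) ≤ H.index := by exact_mod_cast Nat.one_le_iff_ne_zero.2 (idx_ne hH)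
  have k3 : (H.index : ℝ) ≤ n := by exact_mod_cast hn
  have k4 : (0 : ℝ) ≤ (X.filter Q).card := Nat.cast_nonneg _
  rw [sub_mul, div_mul_eq_mul_div, sub_le_iff_le_add, div_le_iff₀ (by linarith)]
  nlinarith

theorem chs_sub (hH : IsOpen (H : Set GQ)) (x : ℕ) (Q : Prop) (b : ℝ) (hb : b = 0 ∨ b = 1)
    (h : ∀ g, g⁻¹ * pl.σ x * g ∈ H → b = 0 ∨ ξ (g⁻¹ * pl.σ x * g) ≠ 0 → Q) :
    chs pl H 0 x - b * chs pl H ξ x ≤ if Q then 2 * (H.index : ℝ) else 0 := by
  haveI := H.quotient_finite_of_isOpen hH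
  haveI := Fintype.ofFinite (GQ ⧸ H)
  rw [chs, chs, finsum_eq_sum_of_fintype, finsum_eq_sum_of_fintype, mul_sum, ← sum_sub_distrib]
  refine (sum_le_card_nsmul _ _ (if Q then 2 else 0) fun c _ => ?_).trans (by
    rw [Subgroup.index, Nat.card_eq_fintype_card, card_univ]; split_ifs <;> simp [mul_comm])
  by_cases e : pl.σ x • c = c
  · have k := h c.out (by
      rw [mul_assoc, ← QuotientGroup.eq, ← smul_eq_mul, ← MulAction.Quotient.smul_coe,
        QuotientGroup.out_eq', e])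
    by_cases e' : Q
    · rcases hb with rfl | rfl <;> simp only [e, e', if_true, sgn, Pi.zero_apply] <;> split_ifs <;>
        norm_num
    · rw [imp_iff_not e', not_or, not_not] at k
      simp [e, e', sgn, k.2, hb.resolve_left k.1]
  · simp only [e, if_false]
    split_ifs <;> norm_num

variable (h : Equi pl X n L κ) (hH : IsOpen (H : Set GQ)) (hn : H.index ≤ n) (hT : UnS T H)
  (hL : ∑ l ∈ T, Real.log l ≤ L)

include h hH hn hT hL

theorem cnt (b : ℝ) (hb : b = 0 ∨ b = 1) (hb' : b * ∑ x ∈ X, chs pl H ξ x ≤ κ * X.card)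
    (Q : ℕ → Prop) (hQ : ∀ x g, g⁻¹ * pl.σ x * g ∈ H → b = 0 ∨ ξ (g⁻¹ * pl.σ x * g) ≠ 0 → Q x) :
    (1 / (2 * n) - κ) * X.card ≤ (X.filter Q).card := by
  have k := h H 0 T hH hn (ch0 H) hL hT fun _ _ _ _ _ _ => rfl
  rw [if_pos (by exact fun _ _ => rfl)] at k
  exact fin_bd hH hn (by linarith [(abs_le.1 k).1]) ((abs_nonneg _).trans k) Q _
    (fun x => chs_sub hH x _ b hb (hQ x)) (by rwa [← mul_sum])

/-- primes with a conjugate of Frobenius in `H` -/
theorem cnt0 (Q : ℕ → Prop) (hQ : ∀ x g, g⁻¹ * pl.σ x * g ∈ H → Q x) :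
    (1 / (2 * n) - κ) * X.card ≤ (X.filter Q).card :=
  cnt h hH hn hT hL (ξ := 0) 0 (Or.inl rfl) (by
    rw [zero_mul]
    exact (abs_nonneg _).trans (h H 0 T hH hn (ch0 H) hL hT fun _ _ _ _ _ _ => rfl)) Q
    fun x g k _ => hQ x g k

/-- primes with a conjugate of Frobenius in `H` on which `ξ` does not vanish -/
theorem cnt1 (hξ : Ch H ξ) (hu : Un (· ∉ T) ξ) (h1 : ∃ g ∈ H, ξ g ≠ 0) (Q : ℕ → Prop)
    (hQ : ∀ x g, g⁻¹ * pl.σ x * g ∈ H → ξ (g⁻¹ * pl.σ x * g) ≠ 0 → Q x) :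
    (1 / (2 * n) - κ) * X.card ≤ (X.filter Q).card := by
  have k := h H ξ T hH hn hξ hL hT hu
  rw [if_neg (by push Not; exact h1), sub_zero] at k
  exact cnt h hH hn hT hL 1 (Or.inr rfl) (by rw [one_mul]; exact (abs_le.1 k).2) Q
    fun x g e e' => hQ x g e (e'.resolve_left one_ne_zero)

end Oc

open Oc

theorem occ : OCC := by
  intro pl X T n j L κ U g h hU hN hn hT hL hg
  by_cases h1 : g ∈ U
  · refine cnt0 h hU hn hT hL _ fun x a k => ⟨1, 1, odd_one, ?_⟩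
    simpa using mul_mem (inv_mem h1) (by simpa [mul_assoc] using hN.conj_mem _ k a)
  set π := QuotientGroup.mk' U
  have h2 : 2 ∣ orderOf (π g) := by
    obtain ⟨r, -, e⟩ := (Nat.dvd_prime_pow Nat.prime_two).1 (orderOf_dvd_of_pow_eq_one
      (show π g ^ 2 ^ j = 1 from (QuotientGroup.eq_one_iff _).2 hg))
    exact e ▸ dvd_pow_self 2 fun k => h1 ((QuotientGroup.eq_one_iff _).1
      (orderOf_eq_one_iff.1 (e.trans (by rw [k, pow_zero]))))
  have h3 : ∀ a : ℤ, π g ^ a ∈ Subgroup.zpowers (π g ^ 2) ↔ Even a := fun a =>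
    ⟨fun ⟨b, e⟩ => by
      have k := (Int.natCast_dvd_natCast.2 h2).trans ((zpow_eq_zpow_iff_modEq.1
        (show π g ^ (2 * b) = π g ^ a by rw [zpow_mul]; exact_mod_cast e)).dvd)
      exact even_iff_two_dvd.2 (by omega), fun ⟨b, e⟩ => ⟨b, by
        rw [e, ← two_mul, zpow_mul]; norm_cast⟩⟩
  have h4 : U ≤ (Subgroup.zpowers (π g)).comap π := fun u hu =>
    Subgroup.mem_comap.2 (by rw [show π u = 1 from (QuotientGroup.eq_one_iff _).2 hu]; exact one_mem _)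
  have h5 : ∀ u ∈ U, π u = 1 := fun u hu => (QuotientGroup.eq_one_iff _).2 hu
  refine cnt1 h (Subgroup.isOpen_mono h4 hU) ((Nat.le_of_dvd (Nat.pos_of_ne_zero (idx_ne hU))
    (Subgroup.index_dvd_of_le h4)).trans hn) (fun l P a b c d => h4 (hT l P a b c d)) hL
    (ξ := fun a => if π a ∈ Subgroup.zpowers (π g ^ 2) then 0 else 1)
    ⟨(lc_of_open (f := fun a => if π a ∈ Subgroup.zpowers (π g ^ 2) then (0 : ZMod 2) else 1) hU
      U.one_mem fun a u hu => by simp only [map_mul, h5 u hu, mul_one]).comp_continuous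
      continuous_subtype_val, ?_⟩ (fun l P a b c d => if_pos (by rw [h5 c (hT l P a b c d)]; exact one_mem _))
    ⟨g, Subgroup.mem_zpowers _, by simpa using (h3 1).not.2 (by decide)⟩ _ fun x a ⟨b, e⟩ k => ?_
  · rintro ⟨x, a, e⟩ ⟨y, b, e'⟩
    simp only [Subgroup.coe_mul, map_mul, ← e, ← e', ← zpow_add, h3, Int.even_add]
    by_cases k : Even a <;> by_cases k' : Even b <;> simp [k, k']
    rfl
  · have k0 : (0 : ℤ) < orderOf (π g) := by
      haveI := U.quotient_finite_of_isOpen hU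
      exact_mod_cast orderOf_pos _
    have k1 := Int.toNat_of_nonneg (Int.emod_nonneg b k0.ne')
    refine ⟨a, (b % orderOf (π g)).toNat, ?_, ?_⟩
    · rw [← Int.odd_coe_nat, k1, Int.odd_iff, Int.emod_emod_of_dvd _ (by exact_mod_cast h2),
        ← Int.odd_iff, ← Int.not_even_iff_odd, ← h3]
      simpa [← e] using k
    · refine QuotientGroup.eq.1 (show π _ = π _ from ?_)
      rw [map_mul, map_mul, map_pow, ← zpow_natCast, k1, zpow_mod_orderOf, show π g ^ b = _ from e]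
      simp [mul_assoc]

namespace Oc

theorem miss (B : Box) (Q : ℕ → Prop) {c : ℝ} (h : ∀ t, c * (B.X t).card ≤ ((B.X t).filter Q).card) :
    ((B.pts.filter fun y => ∀ t, ¬ Q (y t)).card : ℝ) ≤ (1 - c) ^ B.s * B.pts.card := by
  rw [show (B.pts.filter fun y => ∀ t, ¬ Q (y t)) =
    Fintype.piFinset fun t => (B.X t).filter fun x => ¬ Q x by ext; simp [Box.pts, forall_and],
    Fintype.card_piFinset, B.card_pts, Nat.cast_prod, Nat.cast_prod, ← Fin.prod_const,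
    ← prod_mul_distrib]
  refine prod_le_prod (fun _ _ => Nat.cast_nonneg _) fun t _ => ?_
  have := congrArg (Nat.cast : ℕ → ℝ) (card_filter_add_card_filter_not (s := B.X t) Q)
  push_cast at this
  linarith [h t]

/-- equidistribution in a typical box with fixed constants -/
theorem equ {pl : Pl} {S : Finset ℕ} {A n : ℕ} {B : Box} (h : Nice pl S A B) (hn : n ≠ 0)
    (hA : 4 * n ≤ A) (t : Fin B.s) : Equi pl (B.X t) n (2 * B.L) (1 / (4 * n)) := by
  have k1 := h.le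
  have k2 : (4 * n : ℝ) ≤ A := by exact_mod_cast hA
  have k3 : (1 : ℝ) ≤ n := by exact_mod_cast Nat.one_le_iff_ne_zero.2 hn
  refine (h.equ t).mono ((show n ≤ A by omega).trans (Nat.le_self_pow (by omega) A))
    (mul_le_mul_of_nonneg_right (by nlinarith [(Nat.cast_nonneg B.s : (0 : ℝ) ≤ _)]) h.fam.L_nonneg)
    ((pow_le_of_le_one (by positivity) ((div_le_one (by linarith)).2 (by linarith)) (by omega)).trans
      (one_div_le_one_div_of_le (by linarith) k2))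

theorem quart (n : ℕ) : (1 / (2 * n) - 1 / (4 * n) : ℝ) = 1 / (4 * n) := by ring

theorem small {n : ℕ} (hn : n ≠ 0) {ε : ℝ} (hε : 0 < ε) :
    ∃ A, 4 * n ≤ A ∧ (1 - 1 / (4 * n) : ℝ) ^ A ≤ ε ∧ (0 : ℝ) ≤ 1 - 1 / (4 * n) ∧
      (1 - 1 / (4 * n) : ℝ) ≤ 1 := by
  have k3 : (1 : ℝ) ≤ n := by exact_mod_cast Nat.one_le_iff_ne_zero.2 hn
  have k1 : (0 : ℝ) < 1 / (4 * n) := by positivity
  have k2 : (1 / (4 * n) : ℝ) ≤ 1 := (div_le_one (by linarith)).2 (by linarith)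
  obtain ⟨A, h⟩ := exists_pow_lt_of_lt_one hε (show (1 - 1 / (4 * n) : ℝ) < 1 by linarith)
  exact ⟨max A (4 * n), le_max_right _ _, (pow_le_pow_of_le_one (by linarith) (by linarith)
    (le_max_left _ _)).trans h.le, by linarith, by linarith⟩

end Oc

theorem iocp : iOCP := by
  intro h pl S U hU hN hS
  haveI := U.quotient_finite_of_isOpen hU
  haveI := Fintype.ofFinite (GQ ⧸ U)
  refine (Few.ex (θ := 0) univ (E := fun (q : GQ ⧸ U) B y => (∃ j, q.out ^ 2 ^ j ∈ U) ∧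
    ∀ t, ¬ ∃ (h : GQ) (i : ℕ), Odd i ∧ (h * q.out ^ i * h⁻¹)⁻¹ * pl.σ (y t) ∈ U)
    fun q _ ε hε => ?_).mono (by simp) 0 fun B _ y _ k => ?_
  · obtain ⟨A, k1, k2, k3, k4⟩ := small (idx_ne hU) hε
    refine ⟨A, fun B hB => ?_⟩
    by_cases e : ∃ j, q.out ^ 2 ^ j ∈ U
    · simp only [e, true_and, zero_add]
      obtain ⟨j, e⟩ := e
      refine le_trans (le_of_eq (by congr)) ((miss B _ fun t => quart U.index ▸ h pl _ S _ j _ _ U _
        (equ hB (idx_ne hU) k1 t) hU hN le_rfl hS (by linarith [hB.fam.lS, hB.fam.L_nonneg]) e).trans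
        (mul_le_mul_of_nonneg_right ((pow_le_pow_of_le_one k3 k4 hB.le).trans k2) (Nat.cast_nonneg _)))
    · simp only [e, false_and, filter_false, card_empty, Nat.cast_zero]
      positivity
  · simp only [Occ, not_forall, not_exists] at k
    obtain ⟨g, j, e, k⟩ := k
    have k1 : QuotientGroup.mk' U (g : GQ ⧸ U).out = QuotientGroup.mk' U g := Quotient.out_eq' _
    simp only [← QuotientGroup.eq_one_iff, ← QuotientGroup.mk'_apply, map_mul, map_pow,
      map_inv] at e k ⊢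
    exact ⟨g, mem_univ _, ⟨j, k1 ▸ e⟩, fun t ⟨a, i, k2⟩ => k t a i (k1 ▸ k2)⟩

theorem iuu : iUU := by
  intro h r S pl hr ε hε
  obtain ⟨C, hC⟩ := h _ (hr.Kn_open 1)
  have n0 := idx_ne (hr.Kn_open 2)
  obtain ⟨A, k1, k2, k3, k4⟩ := small n0 (show 0 < min ε 1 / (C + 1) ^ (S.card + 1) by positivity)
  refine ⟨A, fun B hB => ?_⟩
  set T := S ∪ B.m.natAbs.primeFactors
  obtain ⟨h1, h2⟩ := hC T
  let Q : (GQ → ZMod 2) → ℕ → Prop := fun ξ x => ∃ g, g⁻¹ * pl.σ x * g ∈ hr.Kn 2 ∧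
    ξ (g⁻¹ * pl.σ x * g) ≠ 0
  have le2 : hr.Kn 2 ≤ hr.Kn 1 := fun g k => Tr.mono k one_le_two
  refine le_trans (Nat.cast_le.2 ((card_le_card fun y hy => ?_).trans (card_biUnion_le
    (s := h1.toFinset.filter fun ξ => ∃ g ∈ hr.Kn 2, ξ g ≠ 0)
    (t := fun ξ => B.pts.filter fun y => ∀ t, ¬ Q ξ (y t))))) ?_
  · obtain ⟨hy, H, ξ, e, a1, a2, a3, a4⟩ := mem_filter.1 hy
    obtain rfl : H = hr.Kn 1 := Subgroup.ext e
    simp only [Un, not_forall] at a3
    obtain ⟨l, P, b1, b2, g, b3, b4⟩ := a3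
    have b5 := hr.Kn_uns 2 l P b1 b2 g b3
    refine mem_biUnion.2 ⟨fun g => if g ∈ hr.Kn 1 then ξ g else 0, mem_filter.2
      ⟨h1.mem_toFinset.2 ⟨?_, fun g k => if_neg k, fun l P c1 c2 g c3 => ?_⟩,
        g, b5, by simpa [le2 b5] using b4⟩, mem_filter.2 ⟨hy, fun t ⟨g, c1, c2⟩ => c2 ?_⟩⟩
    · simpa [Ch] using a1
    · simp only [T, mem_union, not_or, Nat.mem_primeFactors] at c2
      simp [a2 l P c1 ⟨c2.1, fun k => c2.2 ⟨c1.1, Int.natCast_dvd.1 k,
        Int.natAbs_ne_zero.2 hB.fam.ne⟩⟩ g c3]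
    · simpa [le2 c1] using a4 t g⁻¹ (by simpa [mul_assoc] using hr.tr_conj c1 g)
  · have hL : ∑ l ∈ T, Real.log l ≤ 2 * B.L := by
      have c1 : ∑ l ∈ B.m.natAbs.primeFactors, Real.log l ≤ B.L := by
        rw [← Real.log_prod fun l k => Nat.cast_ne_zero.2 (Nat.prime_of_mem_primeFactors k).ne_zero,
          ← Nat.cast_prod, Nat.prod_primeFactors_of_squarefree (Int.squarefree_natAbs.2 hB.fam.sq)]
        simpa using hB.fam.lm
      have c2 := sum_union_inter (s₁ := S) (s₂ := B.m.natAbs.primeFactors)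
        (f := fun l : ℕ => Real.log l)
      have c3 := sum_nonneg fun l (_ : l ∈ S ∩ B.m.natAbs.primeFactors) => Real.log_natCast_nonneg l
      linarith [hB.fam.lS]
    have hc : ∀ ξ : GQ → ZMod 2, Ch (hr.Kn 1) ξ → Ch (hr.Kn 2) ξ := fun ξ c1 =>
      ⟨c1.1.comp_continuous (continuous_inclusion le2), fun x y =>
        c1.2 ⟨x, le2 x.2⟩ ⟨y, le2 y.2⟩⟩
    rw [Nat.cast_sum]
    refine (sum_le_card_nsmul _ _ _ fun ξ k => miss B _ fun t => quart _ ▸ cnt1
      (equ hB n0 k1 t) (hr.Kn_open 2) le_rfl (fun l P a b => hr.Kn_uns 2 l P a fun e =>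
        b (mem_union_left _ e)) hL (hc ξ (h1.mem_toFinset.1 (mem_filter.1 k).1).1) (h1.mem_toFinset.1 (mem_filter.1 k).1).2.2 (mem_filter.1 k).2 (Q ξ)
        fun x g a b => ⟨g, a, b⟩).trans ?_
    · rw [nsmul_eq_mul, ← mul_assoc, zero_add]
      refine mul_le_mul_of_nonneg_right ?_ (Nat.cast_nonneg _)
      set q := (1 - 1 / (4 * (hr.Kn 2).index) : ℝ)
      set w := B.m.natAbs.primeFactors.card
      have c0 : (1 : ℝ) ≤ C + 1 := by linarith [(Nat.cast_nonneg C : (0 : ℝ) ≤ _)]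
      have c1 : (((h1.toFinset.filter fun ξ => ∃ g ∈ hr.Kn 2, ξ g ≠ 0).card : ℕ) : ℝ) ≤
          (C + 1) ^ (S.card + 1) * (C + 1) ^ w := by
        rw [← pow_add]
        exact_mod_cast (card_filter_le _ _).trans ((Set.ncard_eq_toFinset_card _ h1).ge.trans
          (h2.trans ((Nat.pow_le_pow_left C.le_succ _).trans (Nat.pow_le_pow_right C.succ_pos
            ((Nat.succ_le_succ (card_union_le _ _)).trans (Nat.succ_add _ _).ge)))))
      rw [le_div_iff₀ (by positivity)] at k2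
      have c2 : (C + 1) * q ^ A ≤ 1 := (mul_le_mul_of_nonneg_right (le_self_pow₀ c0 (Nat.succ_ne_zero _))
        (pow_nonneg k3 A)).trans ((mul_comm _ _).trans_le (k2.trans (min_le_right _ _)))
      calc _ ≤ (C + 1) ^ (S.card + 1) * (C + 1) ^ w * q ^ (A * (w + 1)) :=
            mul_le_mul c1 (pow_le_pow_of_le_one k3 k4 hB.len) (pow_nonneg k3 _) (by positivity)
        _ = q ^ A * (C + 1) ^ (S.card + 1) * ((C + 1) * q ^ A) ^ w := by rw [mul_pow]; ring
        _ ≤ ε * 1 := mul_le_mul (k2.trans (min_le_left _ _))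
            (pow_le_one₀ (by positivity) c2) (by positivity) hε.le
        _ = ε := mul_one ε

end Vale.Agent.P004S
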