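import Vale.Agent.P004S.Cls
import Vale.Agent.P004S.MasA
import Vale.Agent.P004S.Occ

/-!
# P004, block SMITH: counting tools, the row RARE, admissible blocks
-/

set_option linter.all false

noncomputable section

namespace Vale.Agent.P004S

open NumberField Finset Matrix
open Vale.Agent.P022 (Qb GQ)
open Vale.Agent.P022E.GW (Ov Ch)
open Ms
open scoped Classical

namespace Hv

section

variable {α β : Type} {Z Z' : Set α} {x : ℝ}

/-- `Z` has at most half the size of `Z'`, up to `x` -/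
def Hl (Z Z' : Set α) (x : ℝ) : Prop := Le Z (Z'.ncard / 2 + x)

theorem le_self (h : Z.Finite) : Le Z Z.ncard := ⟨h, le_rfl⟩

theorem sum_le (T : Finset β) (Y : β → Set α) (hf : Z.Finite) (hs : ∀ t ∈ T, Y t ⊆ Z)
    (hd : ∀ t ∈ T, ∀ t' ∈ T, ∀ z ∈ Y t, z ∈ Y t' → t = t') :
    ∑ t ∈ T, (Y t).ncard ≤ Z.ncard := by
  induction T using Finset.induction_on generalizing Z with
  | empty => simp
  | insert a T ha ih =>
    have h1 := hs a (mem_insert_self _ _)
    have h2 := ih (Z := Z \ Y a) (hf.subset Set.diff_subset)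
      (fun t ht z hz => ⟨hs t (mem_insert_of_mem ht) hz, fun k => ha
        (hd t (mem_insert_of_mem ht) a (mem_insert_self _ _) z hz k ▸ ht)⟩)
      fun t ht t' ht' => hd t (mem_insert_of_mem ht) t' (mem_insert_of_mem ht')
    rw [sum_insert ha, ← Set.ncard_diff_add_ncard_of_subset h1 hf]
    omega

theorem Hl.fib (T : Finset β) (Y Y' : β → Set α) (g : β → ℝ) (hf : Z'.Finite)
    (hc : ∀ z ∈ Z, ∃ t ∈ T, z ∈ Y t) (hs : ∀ t ∈ T, Y' t ⊆ Z')
    (hd : ∀ t ∈ T, ∀ t' ∈ T, ∀ z ∈ Y' t, z ∈ Y' t' → t = t')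
    (h : ∀ t ∈ T, Hl (Y t) (Y' t) (g t)) : Hl Z Z' (∑ t ∈ T, g t) := by
  refine (Le.cover T Y _ h hc).mono le_rfl ?_
  have k := (Nat.cast_le (α := ℝ)).2 (sum_le T Y' hf hs hd)
  rw [Nat.cast_sum] at k
  rw [sum_add_distrib, ← sum_div]
  linarith

/-- fibres of a map -/
theorem Hl.key (T : Finset β) (f : α → β) (g : β → ℝ) (hf : Z'.Finite) (hc : ∀ z ∈ Z, f z ∈ T)
    (h : ∀ t ∈ T, Hl {z ∈ Z | f z = t} {z ∈ Z' | f z = t} (g t)) : Hl Z Z' (∑ t ∈ T, g t) :=
  Hl.fib T (fun t => {z ∈ Z | f z = t}) (fun t => {z ∈ Z' | f z = t}) g hf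
    (fun z hz => ⟨f z, hc z hz, hz, rfl⟩) (fun _ _ _ k => k.1)
    (fun _ _ _ _ _ a b => a.2.symm.trans b.2) h

theorem Hl.tr {Y Y' : Set β} (h : Hl Y Y' x) (hf : Z'.Finite) (f : α → β) (g : β → α)
    (h1 : Set.InjOn f Z) (h2 : ∀ z ∈ Z, f z ∈ Y) (h3 : Set.InjOn g Y') (h4 : ∀ z ∈ Y', g z ∈ Z') :
    Hl Z Z' x := by
  refine (Le.inj h f h1 h2).mono le_rfl ?_
  have := (Nat.cast_le (α := ℝ)).2 (Set.ncard_le_ncard_of_injOn g h4 h3 hf)
  linarith

theorem Hl.mono {x' : ℝ} (h : Hl Z Z' x) (hx : x ≤ x') : Hl Z Z' x' :=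
  Le.mono h le_rfl (by linarith)

theorem Hl.of_ne (hx : 0 ≤ x) (h : ∀ z ∈ Z, Hl Z Z' x) : Hl Z Z' x :=
  Le.of_ne (by positivity) h

/-- counting by differences -/
theorem le_sub [AddGroup α] [Fintype β] (f : α → β) (h : Le Z' x)
    (hs : ∀ a ∈ Z, ∀ a' ∈ Z, f a = f a' → a - a' ∈ Z') : Le Z (Fintype.card β * x) := by
  have k := Le.cover (Z := Z) univ (fun t => {a ∈ Z | f a = t}) (fun _ => x)
    (fun t _ => Le.of_ne ((Nat.cast_nonneg _).trans h.2) fun a' ha' => h.inj (· - a')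
      (fun _ _ _ _ e => sub_left_injective e) fun a ha =>
        hs a ha.1 a' ha'.1 (ha.2.trans ha'.2.symm)) fun a ha => ⟨f a, mem_univ _, ha, rfl⟩
  rwa [sum_const, card_univ, nsmul_eq_mul] at k

end

variable {r : Rp} {S : Finset ℕ} {pl : Pl}

theorem nice_any {A A' : ℕ} {B : Box} (h : Nice pl S A B) (h1 : 1 ≤ A) (hA : A' ≤ A) :
    Nice pl S A' B := by
  rcases A'.eq_zero_or_pos with rfl | k
  · have : B.s ≠ 0 := by have := h.le; omega
    exact ⟨h.fam, by simp, fun i => by simp [this], fun i H ξ T h1 h2 =>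
      absurd (by simpa [this] using h2) (idx_ne h1)⟩
  · exact h.mono k hA

/-- the first moment without blocks -/
theorem mas0 (hM : MAS) {γ : Submodule (ZMod 2) N → GQ → ℝ} (hd : Dat r S) (hw : Wt r γ)
    (Λ : Loc r) (H : Submodule (ZMod 2) N) (Γ : ℝ) : ∃ (D : ℝ) (A : ℕ), ∀ B : Box, Nice pl S A B →
      ∀ k R, Le (Mk r S Λ pl (γ H) Γ H B k R) (D * B.pts.card) := by
  obtain ⟨C, hC⟩ := hM r S pl γ hd hw
  obtain ⟨A, hA⟩ := hC 1 one_pos
  refine ⟨_, A, fun B hB k R => Le.mono (hA B hB H 0 (max Γ 0) 1 Unit 0 (fun z => z.1.elim0)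
    (fun _ _ => True) (fun z => z.1.elim0) (fun z => z.1.elim0) zero_le_one le_rfl
    (le_max_right _ _) fun w _ j => j.elim0) (fun z hz => ?_) le_rfl⟩
  exact ⟨hz.1, hz.2.1, hz.2.2.1.trans (le_max_left _ _), fun j => j.elim0⟩

end Hv

open Hv

theorem rare : iRARE := by
  intro hM hH r S Λ pl γ hd hw H Γ R hR ε hε
  have key : ∀ (K R : ℕ) (ε : ℝ), 0 < ε → ∃ R' A : ℕ, ∀ B : Box, Nice pl S (A + 1) B →
      ((Mk r S Λ pl (γ H) Γ H B (K + 1) R).ncard : ℝ) ≤
        (Mk r S Λ pl (γ H) Γ H B 1 R').ncard * (1 / 2) ^ K + ε * B.pts.card := by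
    intro K
    induction K with
    | zero => exact fun R ε hε => ⟨R, 0, fun B _ => by simp; positivity⟩
    | succ K ih =>
      intro R ε hε
      obtain ⟨R1, A1, h1⟩ := hH r S Λ pl γ hd hw H Γ (ε / 2) (K + 1) R hR (by omega) (half_pos hε)
      obtain ⟨R2, A2, h2⟩ := ih R1 ε hε
      refine ⟨R2, max A1 A2, fun B hB => ?_⟩
      have a := h1 B (nice_any hB (by omega) (by omega))
      have b := h2 B (nice_any hB (by omega) (by omega))
      rw [pow_succ, ← mul_assoc]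
      linarith
  obtain ⟨D, A0, h0⟩ := mas0 (pl := pl) hM hd hw Λ H Γ
  obtain ⟨K, hK⟩ := exists_pow_lt_of_lt_one (show 0 < ε / 2 / (|D| + 1) by positivity)
    (show (1 / 2 : ℝ) < 1 by norm_num)
  obtain ⟨R', A, h1⟩ := key K R _ (half_pos hε)
  refine ⟨max A0 A + 1, fun B hB => ?_⟩
  have a := h0 B (nice_any hB (by omega) (by omega))
  have b := h1 B (nice_any hB (by omega) (by omega))
  have c : (((B.pts.filter fun y => ∃ Φ, ∀ k, (y, Φ) ∈ Mk r S Λ pl (γ H) Γ H B k R).card : ℕ) : ℝ)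
      ≤ (Mk r S Λ pl (γ H) Γ H B (K + 1) R).ncard := by
    rw [← Set.ncard_coe_finset, Nat.cast_le]
    refine (Set.ncard_le_ncard ?_ ((a _ _).1.image Prod.fst)).trans (Set.ncard_image_le (a _ _).1)
    intro y hy
    obtain ⟨-, Φ, k⟩ := mem_filter.1 (mem_coe.1 hy)
    exact ⟨(y, Φ), k _, rfl⟩
  have d := mul_le_mul_of_nonneg_right ((a 1 R').2.trans (mul_le_mul_of_nonneg_right
    ((le_abs_self D).trans (le_add_of_nonneg_right zero_le_one)) (Nat.cast_nonneg _)))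
    (show (0 : ℝ) ≤ (1 / 2) ^ K by positivity)
  rw [lt_div_iff₀ (by positivity)] at hK
  have e := mul_le_mul_of_nonneg_right hK.le (Nat.cast_nonneg (α := ℝ) B.pts.card)
  refine le_trans (le_of_eq (by congr)) (c.trans ?_)
  nlinarith

namespace Hv

variable {r : Rp} {S : Finset ℕ} {pl : Pl}

/-- an admissible block: split primes with the standard patterns -/
def Adm (r : Rp) (pl : Pl) (n : ℕ) {ι : Type} (pat : ι → N) (y : ι → ℕ) (f : ι → N) : Prop :=
  ∀ i, Tr r n (pl.σ (y i)) ∧ f i = pat i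

theorem hq_pos (H : Submodule (ZMod 2) N) (g : GQ) : 0 < hq r H g := Nat.card_pos

theorem hq_le (H : Submodule (ZMod 2) N) (g : GQ) : hq r H g ≤ 16 := by
  have : Finite (N ⧸ Im r g) := Finite.of_surjective _ (Im r g).mkQ_surjective
  exact (Nat.card_le_card_of_injective _ Subtype.val_injective).trans (card_quot _)

/-- blocks are admissible with a positive probability -/
theorem mass_le (hr : Rep r S) {γ : Submodule (ZMod 2) N → GQ → ℝ} (hw : Wt r γ)
    {H : Submodule (ZMod 2) N} (hH : Sta r H) {n : ℕ} (hn : 2 ≤ n) {ι : Type} [Fintype ι]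
    [DecidableEq ι] {pat : ι → N} (hp : ∀ i, pat i ∈ H) {X : ι → Finset ℕ} {n₀ : ℕ}
    (h0 : (hr.Kn n).index * 16 ≤ n₀) {L : ℝ} (hX : ∀ i, Equi pl (X i) n₀ L (1 / (4 * n₀)))
    (hL : ∑ l ∈ S, Real.log l ≤ L) {w : GQ → N} (hb : Wb r S H w) :
    mass r pl H 0 (γ H) w X (fun y f => ¬ Adm r pl n pat y f) ≤
      (1 - (1 / 16 * (1 / (4 * n₀))) ^ Fintype.card ι) * ∏ i, ((X i).card : ℝ) := by
  let u : ℕ × N → ℝ := fun z => if Cmp r H 0 (w (pl.σ z.1)) (pl.σ z.1) z.2 then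
    (γ H (pl.σ z.1) * hq r H (pl.σ z.1))⁻¹ else 0
  have p0 : ∀ g, 0 < γ H g * hq r H g := fun g =>
    mul_pos (lt_of_lt_of_le (by norm_num) (hw.lo H g)) (Nat.cast_pos.2 (hq_pos H g))
  have u0 : ∀ z, 0 ≤ u z := fun z => by
    simp only [u]
    split_ifs
    · exact (inv_pos.2 (p0 _)).le
    · exact le_rfl
  have e1 : mass r pl H 0 (γ H) w X (fun y f => ¬ Adm r pl n pat y f) =
      ms u (fun i => X i ×ˢ univ) fun z => ¬ Adm r pl n pat (fun i => (z i).1) fun i => (z i).2 := by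
    rw [ms_pair u X fun y f => ¬ Adm r pl n pat y f]
    unfold mass
    congr
  have c : Cm r H w := hb.2.1
  obtain ⟨Q, hQ⟩ : ∃ Q : ℕ → Prop, ∀ x, Q x ↔ Tr r n (pl.σ x) ∧ w (pl.σ x) ∈ H :=
    ⟨_, fun _ => Iff.rfl⟩
  have e2 : ∀ i, 1 / (4 * n₀) * ((X i).card : ℝ) ≤ ((X i).filter Q).card := fun i => by
    rw [← Oc.quart]
    refine Oc.cnt0 (H := hr.Kn n ⊓ c.ker hH) (hX i) ((hr.Kn_open n).inter (c.ker_open hH hb.1))
      ((Subgroup.index_inf_le.trans (Nat.mul_le_mul_left _ (c.ker_index hH))).trans h0)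
      (fun l P a b g k => ⟨hr.Kn_uns n l P a b g k,
        (Submodule.Quotient.mk_eq_zero H).1 (hb.2.2 l P a b g k)⟩) hL Q fun x g k => ?_
    have a := hr.tr_conj k.1 g
    have b := c.conj hr hH (hr.tr_one_iff.1 (Tr.mono k.1 (by omega))) k.2 g
    rw [show g * (g⁻¹ * pl.σ x * g) * g⁻¹ = pl.σ x by group] at a b
    exact (hQ x).2 ⟨a, b⟩
  have e3 : ∏ i, (1 / 16 * (1 / (4 * n₀)) * ((X i).card : ℝ)) ≤
      ms u (fun i => X i ×ˢ univ) fun z => Adm r pl n pat (fun i => (z i).1) fun i => (z i).2 := by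
    have k1 : ∏ i, (1 / 16 * (1 / (4 * n₀)) * ((X i).card : ℝ)) ≤
        ms u (fun i => (X i).filter Q ×ˢ {pat i}) fun _ => True := by
      rw [ms_true]
      refine prod_le_prod (fun i _ => by positivity) fun i _ => ?_
      rw [sum_product, mul_assoc]
      refine (mul_le_mul_of_nonneg_left (e2 i) (by norm_num)).trans ?_
      rw [mul_comm, ← nsmul_eq_mul]
      refine card_nsmul_le_sum _ _ _ fun x hx => ?_
      have q := (hQ x).1 (mem_filter.1 hx).2
      have t := Tr.mono q.1 hn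
      rw [sum_singleton]
      simp only [u]
      rw [if_pos ((cmp_tr hr t).2 ⟨by simpa using hp i, q.2⟩), hw.one H _ t,
        one_mul, one_div]
      exact inv_anti₀ (Nat.cast_pos.2 (hq_pos H _)) (by exact_mod_cast hq_le H _)
    refine k1.trans ?_
    unfold ms
    refine le_trans (sum_le_sum fun z hz => ?_) (sum_le_sum_of_subset_of_nonneg
      (Fintype.piFinset_subset _ _ fun i => product_subset_product (filter_subset Q _)
        (subset_univ {pat i})) fun z _ _ => ?_)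
    · have k := fun i => mem_product.1 (Fintype.mem_piFinset.1 hz i)
      rw [if_pos trivial]
      exact (if_pos fun i => ⟨((hQ _).1 (mem_filter.1 (k i).1).2).1,
        mem_singleton.1 (k i).2⟩).ge
    · split_ifs
      · exact prod_nonneg fun i _ => u0 _
      · exact le_rfl
  have e4 : ∏ i, ∑ z ∈ X i ×ˢ univ, u z ≤ ∏ i, ((X i).card : ℝ) := by
    refine prod_le_prod (fun i _ => sum_nonneg fun z _ => u0 z) fun i _ => ?_
    rw [sum_product, ← mul_one ((X i).card : ℝ), ← nsmul_eq_mul]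
    refine sum_le_card_nsmul _ _ _ fun x _ => ?_
    simp only [u]
    rw [← sum_filter, sum_const, nsmul_eq_mul, ← div_eq_mul_inv, div_le_one (p0 _),
      ← Set.ncard_coe_finset, coe_filter_univ]
    exact hw.le H 0 _ _ fun g => ⟨by simp, hH g⟩
  rw [prod_mul_distrib, prod_const, card_univ] at e3
  rw [e1, ms_not]
  linarith

end Hv

end Vale.Agent.P004S
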