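import Vale.Agent.P004S.Hf2

/-!
# P004, block SMITH: the row HALF
-/

set_option linter.all false

noncomputable section

namespace Vale.Agent.P004S

open NumberField Finset Matrix
open Vale.Agent.P022 (Qb GQ)
open Ms
open scoped Classical

namespace Hv

variable {r : Rp} {S : Finset ℕ} {pl : Pl} {m : ℤ} {L : ℝ} {ι κ I : Type} [Fintype ι]
  [DecidableEq ι] [Fintype κ] [DecidableEq κ] [Fintype I] [DecidableEq I] {X : I → Finset ℕ}

theorem dd_sum (e : ι ⊕ κ ≃ I) (m : ℤ) (y : I → ℕ) :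
    dd m y = dd (dd m fun t => y (e (.inr t))) fun i => y (e (.inl i)) := by
  rw [dd, dd, dd, ← e.prod_comp fun i => (y i : ℤ), Fintype.prod_sum_type]
  ring

theorem fam_out (e : ι ⊕ κ ≃ I) (h : Fam S m X L) {o : κ → ℕ} (ho : ∀ t, o t ∈ X (e (.inr t))) :
    Fam S (dd m o) (fun i => X (e (.inl i))) ((Fintype.card I + 1) * L) := by
  have f : Fam S m (fun t => X (e (.inr t))) L :=
    fam_sub h _ (e.injective.comp Sum.inr_injective) (fun _ => subset_rfl) le_rfl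
  have l0 := h.L_nonneg
  have l1 : L ≤ (Fintype.card I + 1) * L :=
    le_mul_of_one_le_left l0 (le_add_of_nonneg_left (Nat.cast_nonneg _))
  refine ⟨f.sqf ho, fun i x a => ?_,
    fun i j x a b => Sum.inl_injective (e.injective (h.dj _ _ x a b)), ?_, h.lS.trans l1⟩
  · have k := h.pm _ x a
    refine ⟨k.1, k.2.1, fun j => ?_, k.2.2.2.trans l1⟩
    rcases (f.dvd_iff ho k.1).1 j with j | ⟨t, rfl⟩
    · exact k.2.2.1 j
    · exact Sum.inl_ne_inr (e.injective (h.dj _ _ _ a (ho t)))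
  · have p : ∀ t ∈ univ, ((o t : ℕ) : ℝ) ≠ 0 := fun t _ =>
      Nat.cast_ne_zero.2 (f.pm t _ (ho t)).1.ne_zero
    have c : (Fintype.card κ : ℝ) ≤ Fintype.card I := Nat.cast_le.2
      (Fintype.card_le_of_injective _ (e.injective.comp Sum.inr_injective))
    have s := sum_le_card_nsmul univ (fun t => Real.log (o t)) L fun t _ => (f.pm t _ (ho t)).2.2.2
    rw [card_univ, nsmul_eq_mul] at s
    rw [Real.log_abs, dd]
    push_cast
    rw [Real.log_mul (Int.cast_ne_zero.2 h.ne) (prod_ne_zero_iff.2 p), Real.log_prod p]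
    have := h.lm
    rw [Real.log_abs] at this
    nlinarith

theorem card_out {Y : κ → Finset ℕ} (f : Fam S m Y L) {o : κ → ℕ} (ho : ∀ t, o t ∈ Y t) :
    (S ∪ (dd m o).natAbs.primeFactors).card ≤
      S.card + (m.natAbs.primeFactors.card + Fintype.card κ) := by
  refine (card_union_le _ _).trans (Nat.add_le_add_left ((card_le_card
    (t := m.natAbs.primeFactors ∪ univ.image o) fun l a => ?_).trans ((card_union_le _ _).trans
      (Nat.add_le_add_left card_image_le _))) _)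
  obtain ⟨a1, a2, -⟩ := Nat.mem_primeFactors.1 a
  rcases (f.dvd_iff ho a1).1 (Int.natCast_dvd.2 a2) with j | ⟨t, rfl⟩
  · exact mem_union_left _ (Nat.mem_primeFactors.2
      ⟨a1, Int.natCast_dvd.1 j, Int.natAbs_ne_zero.2 f.ne⟩)
  · exact mem_union_right _ (mem_image_of_mem _ (mem_univ t))

/-- from a block to the box -/
theorem out (hr : Rep r S) {γ : Submodule (ZMod 2) N → GQ → ℝ} (hw : Wt r γ) {Λ : Loc r}
    {H : Submodule (ZMod 2) N} {Γ x : ℝ} {B : Box} (hF : Fam S B.m B.X B.L) (e : ι ⊕ κ ≃ Fin B.s)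
    {pat : ι → N} (hp : ∀ i, pat i ∈ H) {n k k' R R' : ℕ} (hn : 2 ≤ n) (hk : 1 ≤ k')
    (D : (Fin B.s → ℕ) → (GQ → N) → Prop)
    (hD : ∀ y y' Φ, (∀ t, y (e (.inr t)) = y' (e (.inr t))) → D y Φ → D y' Φ)
    (hf : (Mk r S Λ pl (γ H) Γ H B k' R').Finite)
    (h : ∀ o : κ → ℕ, (∀ t, o t ∈ B.X (e (.inr t))) → ∀ c,
      Hl (Yb r S Λ pl n pat (dd B.m o) (fun i => B.X (e (.inl i))) c k R)
        (Yb r S Λ pl n pat (dd B.m o) (fun i => B.X (e (.inl i))) c k' R')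
        (x * ∏ i, ((B.X (e (.inl i))).card : ℝ))) :
    Hl {z ∈ Mk r S Λ pl (γ H) Γ H B k R | Adm r pl n pat (fun i => z.1 (e (.inl i)))
        (fun i => z.2 (pl.τ (z.1 (e (.inl i))))) ∧ D z.1 z.2}
      {z ∈ Mk r S Λ pl (γ H) Γ H B k' R' | Adm r pl n pat (fun i => z.1 (e (.inl i)))
        (fun i => z.2 (pl.τ (z.1 (e (.inl i))))) ∧ D z.1 z.2} (x * B.pts.card) := by
  let ex : (κ → ℕ) → (ι → ℕ) → Fin B.s → ℕ := fun o y t => Sum.elim y o (e.symm t)
  have x1 : ∀ o y i, ex o y (e (.inl i)) = y i := fun o y i => by simp [ex]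
  have x2 : ∀ o y t, ex o y (e (.inr t)) = o t := fun o y t => by simp [ex]
  let c : (κ → ℕ) → (GQ → N) → Prop := fun o Φ =>
    Hs r (Set.range pat ∪ Set.range fun t => Φ (pl.τ (o t))) = H ∧
      (∀ q ∈ pf S (dd B.m o), Φ (pl.τ q) - 0 ∈ H) ∧ wt S pl (γ H) (dd B.m o) ≤ Γ ∧ D (ex o 0) Φ
  have core : ∀ y ∈ B.pts, ∀ (o : κ → ℕ) (u : ι → ℕ), (∀ t, y (e (.inr t)) = o t) →
      (∀ i, y (e (.inl i)) = u i) → ∀ Φ : GQ → N, Adm r pl n pat u (fun i => Φ (pl.τ (u i))) →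
      dd B.m y = dd (dd B.m o) u ∧ ((Hs r (Set.range fun t => Φ (pl.τ (y t))) = H ∧
        (∀ q ∈ pf S (dd B.m y), Φ (pl.τ q) - 0 ∈ H) ∧ wt S pl (γ H) (dd B.m y) ≤ Γ ∧ D y Φ) ↔
          c o Φ) := fun y a o u b1 b2 Φ ad => by
    obtain rfl : (fun t => y (e (.inr t))) = o := funext b1
    obtain rfl : (fun i => y (e (.inl i))) = u := funext b2
    have a' := Fintype.mem_piFinset.1 a
    have f := fam_out e hF fun t => a' (e (.inr t))
    have q0 := (hF.sqf a').ne_zero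
    have q1 : ∀ q, q ∈ pf S (dd B.m y) ↔
        q ∈ pf S (dd B.m fun t => y (e (.inr t))) ∨ ∃ i, y (e (.inl i)) = q := fun q => by
      rw [mem_pf q0, mem_pf f.ne, dd_sum e B.m y]
      constructor
      · rintro ⟨j1, j2, j3⟩
        exact ((f.dvd_iff (fun i => a' _) j1).1 j2).imp_left fun j => ⟨j1, j, j3⟩
      · rintro (⟨j1, j2, j3⟩ | ⟨i, rfl⟩)
        · exact ⟨j1, (f.dvd_iff (fun i => a' _) j1).2 (Or.inl j2), j3⟩
        · have j := f.pm i _ (a' _)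
          exact ⟨j.1, (f.dvd_iff (fun i => a' _) j.1).2 (Or.inr ⟨i, rfl⟩), j.2.1⟩
    refine ⟨dd_sum e B.m y, and_congr ?_ (and_congr ⟨fun j q t => j q ((q1 q).2 (Or.inl t)),
      fun j q t => ?_⟩ (and_congr ?_ ⟨hD _ _ _ fun t => by rw [x2], hD _ _ _ fun t => by rw [x2]⟩))⟩
    · rw [show (Set.range fun t => Φ (pl.τ (y t))) =
        Set.range pat ∪ Set.range fun t => Φ (pl.τ (y (e (.inr t)))) from ?_]
      rw [← e.surjective.range_comp, Sum.range_eq]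
      exact congrArg (Set.range · ∪ _) (funext fun i => (ad i).2)
    · rcases (q1 q).1 t with t | ⟨i, rfl⟩
      · exact j q t
      · rw [sub_zero, show Φ _ = _ from (ad i).2]
        exact hp i
    · rw [wt, wt, prod_subset (fun q t => (q1 q).2 (Or.inl t)) fun q t t' => ?_]
      obtain ⟨i, rfl⟩ := ((q1 q).1 t).resolve_left t'
      exact hw.one H _ ((ad i).1.mono hn)
  refine (Hl.key (Fintype.piFinset fun t => B.X (e (.inr t))) (fun z t => z.1 (e (.inr t)))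
    (fun _ => x * ∏ i, ((B.X (e (.inl i))).card : ℝ)) (hf.subset fun _ a => a.1)
    (fun z a => Fintype.mem_piFinset.2 fun t => Fintype.mem_piFinset.1 a.1.1 _)
    fun o ho => ?_).mono (le_of_eq ?_)
  · have ho' := Fintype.mem_piFinset.1 ho
    refine (h o ho' (c o)).tr (hf.subset fun _ a => a.1.1)
      (fun z => (fun i => z.1 (e (.inl i)), z.2)) (fun z => (ex o z.1, z.2))
      (fun z a z' a' j => Prod.ext (funext fun t => ?_) (Prod.ext_iff.1 j).2) (fun z a => ?_)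
      (fun z _ z' _ j => Prod.ext (funext fun i => ?_) (Prod.ext_iff.1 j).2) fun z a => ?_
    · obtain ⟨t | t, rfl⟩ := e.surjective t
      · exact congrFun (congrArg Prod.fst j) t
      · exact congrFun (a.2.trans a'.2.symm) t
    · obtain ⟨⟨⟨a1, a2, a3, a4⟩, a5, a6⟩, a7⟩ := a
      obtain ⟨b1, b2⟩ := core z.1 a1 o _ (congrFun a7) (fun _ => rfl) z.2 a5
      rw [b1] at a4
      exact ⟨Fintype.mem_piFinset.2 fun i => Fintype.mem_piFinset.1 a1 _, a5,
        b2.1 ⟨a2.gen, a2.mem, a3, a6⟩, a4⟩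
    · exact (x1 o _ i).symm.trans ((congrFun (congrArg Prod.fst j) _).trans (x1 o _ i))
    · have a0 : ex o z.1 ∈ B.pts := Fintype.mem_piFinset.2 fun t => by
        obtain ⟨t | t, rfl⟩ := e.surjective t
        · exact x1 o _ t ▸ Fintype.mem_piFinset.1 a.1 t
        · exact x2 o _ t ▸ ho' t
      obtain ⟨b1, b2⟩ := core _ a0 o z.1 (x2 _ _) (x1 _ _) z.2 a.2.1
      obtain ⟨c1, c2, c3, c4⟩ := b2.2 a.2.2.1
      have c5 := yb_pre hr (fam_out e hF ho') hk a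
      have c6 := a.2.2.2
      rw [← b1] at c5 c6
      refine ⟨⟨⟨a0, ⟨c5, c1, c2⟩, c3, c6⟩, ?_, c4⟩, funext (x2 _ _)⟩
      simpa only [x1] using a.2.1
  · rw [sum_const, Fintype.card_piFinset, nsmul_eq_mul, B.card_pts,
      ← e.prod_comp fun t => (B.X t).card, Fintype.prod_sum_type]
    push_cast
    ring

end Hv

open Hv

theorem ihalf : iHALF := by
  intro lt qr h1 h2 _ hM h3 r S Λ pl γ hd hw H Γ ε k R ⟨e, e', g, he, he', hg⟩ hk hε
  have hr := hd.rep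
  by_cases hH : Sta r H
  swap
  · refine ⟨0, 0, fun B _ => ?_⟩
    rw [show Mk r S Λ pl (γ H) Γ H B (k + 1) R = ∅ from
      Set.eq_empty_of_forall_notMem fun z a => hH (a.2.1.gen ▸ hs_sta hr _)]
    simp
    positivity
  obtain ⟨C₀, hC⟩ := hM r S pl γ hd hw
  obtain ⟨G, g0, g1⟩ : ∃ G : ℝ, 0 ≤ G ∧ Γ ≤ G := ⟨max Γ 0, le_max_right _ _, le_max_left _ _⟩
  obtain ⟨A₀, hA⟩ := hC (ε / 4 / (1 + G)) (by positivity)
  obtain ⟨n₀, n1, n2⟩ : ∃ n₀ : ℕ, (hr.Kn (k + 2)).index * 16 ≤ n₀ ∧ n₀ ≠ 0 :=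
    ⟨_, le_rfl, mul_ne_zero (idx_ne (hr.Kn_open _)) (by norm_num)⟩
  obtain ⟨θ, t0, t1, t2⟩ : ∃ θ : ℝ, 0 ≤ θ ∧ θ < 1 ∧ θ = 1 - (1 / 16 * (1 / (4 * n₀))) ^ (k + 2) := by
    have a : (1 : ℝ) ≤ n₀ := by exact_mod_cast Nat.one_le_iff_ne_zero.2 n2
    have b : (1 / (4 * n₀) : ℝ) ≤ 1 := (div_le_one (by linarith)).2 (by linarith)
    exact ⟨_, sub_nonneg.2 (pow_le_one₀ (by positivity) (by linarith)),
      sub_lt_self _ (by positivity), rfl⟩
  obtain ⟨n, hn⟩ := exists_pow_lt_of_lt_one (show 0 < ε / 4 / (|C₀| * G + 1) by positivity) t1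
  obtain ⟨δ, d0, d1⟩ : ∃ δ : ℝ, 0 < δ ∧ n * δ ≤ ε / 4 := ⟨ε / 4 / (n + 1), by positivity, by
    rw [mul_div_assoc', div_le_iff₀ (by positivity)]; nlinarith⟩
  obtain ⟨C, A₁, c0, hb⟩ := blk lt qr h1 h2 h3 hr hd.cyc Λ pl hk R d0
  obtain ⟨A₂, a2⟩ := exists_nat_ge (C * (2 ^ (k + 2)) ^ S.card * (2 ^ (k + 2)) ^ 2 / δ)
  obtain ⟨A, z0, z1, z2, z3, z4, z5, z6⟩ : ∃ A : ℕ, A₀ ≤ A ∧ A₁ ≤ A ∧ A₂ ≤ A ∧ 4 * n₀ ≤ A ∧
      2 * (n * (k + 2)) ≤ A ∧ (2 ^ (k + 2)) ^ 2 ≤ A ∧ 1 ≤ A :=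
    ⟨A₀ + A₁ + A₂ + 4 * n₀ + 2 * (n * (k + 2)) + (2 ^ (k + 2)) ^ 2 + 1, by omega⟩
  refine ⟨4 ^ (k + 2) * (4 ^ (k + 2) * R), A, fun B hB => ?_⟩
  have hs := hB.le
  have r1 : (1 : ℝ) ≤ A := by exact_mod_cast z6
  obtain ⟨β, b1, b2⟩ : ∃ β : Fin n × Fin (k + 2) → Fin B.s, Function.Injective β ∧
      ∀ z, B.s ≤ 2 * (β z : ℕ) :=
    ⟨fun z => (Fin.castLE (show n * (k + 2) ≤ B.s by omega) (finProdFinEquiv z)).rev,
      fun _ _ a => finProdFinEquiv.injective (Fin.castLE_injective _ (Fin.rev_injective a)),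
      fun z => by
        have := (finProdFinEquiv z).2
        simp only [Fin.val_rev, Fin.val_castLE]
        omega⟩
  have hp : ∀ i : Fin (k + 2), pt 0 1 e e' i ∈ H := fun i => by
    have := H.add_mem (show ((if i = 0 then e else 0, 0) : N) ∈ H by
      split_ifs; exacts [he, H.zero_mem]) (show ((0, if i = 1 then e' else 0) : N) ∈ H by
        split_ifs; exacts [he', H.zero_mem])
    simpa [pt] using this
  let Ad : Fin n → (Fin B.s → ℕ) → (GQ → N) → Prop := fun j y Φ =>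
    Adm r pl (k + 2) (pt 0 1 e e') (fun i => y (β (j, i))) fun i => Φ (pl.τ (y (β (j, i))))
  have bad := hA B (nice_any hB z6 z0) H 0 G θ (Fin (k + 2)) n β
    (fun y f => ¬ Adm r pl (k + 2) (pt 0 1 e e') y f) b1 b2 t0 t1.le g0 fun w hw' j => by
      have := mass_le (pl := pl) hr hw hH (n := k + 2) (by omega) hp n1
        (fun i => Oc.equ hB n2 z3 (β (j, i))) (by linarith [hB.fam.lS, hB.fam.L_nonneg]) hw'
      rwa [Fintype.card_fin, ← t2] at this
  have hf : ∀ k R, (Mk r S Λ pl (γ H) Γ H B k R).Finite := fun k R =>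
    (fin2 h1 h2 hr hB.fam).subset fun z a => ⟨a.1, a.2.1.pre⟩
  have good : Hl {z ∈ Mk r S Λ pl (γ H) Γ H B (k + 1) R | ∃ j, Ad j z.1 z.2}
      (Mk r S Λ pl (γ H) Γ H B k (4 ^ (k + 2) * (4 ^ (k + 2) * R)))
      (∑ j : Fin n, (δ + δ) * B.pts.card) := by
    refine Hl.fib univ (fun j => {z ∈ Mk r S Λ pl (γ H) Γ H B (k + 1) R | Ad j z.1 z.2 ∧
      ∀ j' < j, ¬ Ad j' z.1 z.2}) (fun j => {z ∈ Mk r S Λ pl (γ H) Γ H B k
        (4 ^ (k + 2) * (4 ^ (k + 2) * R)) | Ad j z.1 z.2 ∧ ∀ j' < j, ¬ Ad j' z.1 z.2}) _ (hf _ _)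
      (fun z a => ?_) (fun _ _ _ a => a.1) (fun j _ j' _ z a a' => ?_) fun j _ => ?_
    · obtain ⟨j, u, v⟩ := wellFounded_lt.has_min {j | Ad j z.1 z.2} a.2
      exact ⟨j, mem_univ _, a.1, u, fun j' w t => v j' t w⟩
    · exact le_antisymm (not_lt.1 fun w => a.2.2 _ w a'.2.1) (not_lt.1 fun w => a'.2.2 _ w a.2.1)
    have i1 : Function.Injective fun i => β (j, i) := fun _ _ a => congrArg Prod.snd (b1 a)
    let E : Fin (k + 2) ⊕ {t // t ∉ Set.range fun i => β (j, i)} ≃ Fin B.s :=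
      ((Equiv.ofInjective _ i1).sumCongr (Equiv.refl _)).trans
        (Equiv.sumCompl (· ∈ Set.range fun i => β (j, i)))
    refine out hr hw hB.fam E hp (by omega) hk (fun y Φ => ∀ j' < j, ¬ Ad j' y Φ)
      (fun y y' Φ a b j' w t => b j' w ?_) (hf _ _) fun o ho c => ?_
    · have q : ∀ i, y (β (j', i)) = y' (β (j', i)) := fun i =>
        a ⟨β (j', i), fun ⟨_, v⟩ => w.ne' (congrArg Prod.fst (b1 v))⟩
      simpa only [Ad, q] using t
    have f := fam_out E hB.fam ho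
    rw [Fintype.card_fin] at f
    refine (hb (Fin (k + 2)) 0 1 _ _ _ ((1 / A) ^ B.s) c e e' g Fin.zero_ne_one
      (Fintype.card_fin _) f ((hB.equ _).mono (z1.trans (Nat.le_self_pow (by omega) A)) ?_ le_rfl)
      (fun i => ?_) hg).mono (mul_le_mul_of_nonneg_right (add_le_add le_rfl ?_)
        (prod_nonneg fun _ _ => Nat.cast_nonneg _))
    · rw [mul_assoc]
      exact mul_le_mul_of_nonneg_right (Nat.cast_le.2 z1)
        (mul_nonneg (by positivity) hB.fam.L_nonneg)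
    · rw [one_div, inv_pow, le_inv_mul_iff₀ (by positivity), mul_one]
      exact_mod_cast hB.big _
    · have u1 := card_out (fam_sub hB.fam _ (E.injective.comp Sum.inr_injective)
        (fun _ => subset_rfl) le_rfl) ho
      have u2 := Fintype.card_le_of_injective _ (E.injective.comp Sum.inr_injective)
      have u3 := (Nat.le_mul_of_pos_left _ z6).trans hB.len
      rw [Fintype.card_fin] at u2
      generalize (S ∪ (dd B.m o).natAbs.primeFactors).card = a at u1 ⊢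
      have u4 : (1 : ℝ) ≤ 2 ^ (k + 2) := one_le_pow₀ one_le_two
      have u5 : ((2 : ℝ) ^ (k + 2)) ^ 2 ≤ A := by exact_mod_cast z5
      rw [div_le_iff₀ d0] at a2
      have u6 : (A₂ : ℝ) ≤ A := Nat.cast_le.2 z2
      generalize (2 : ℝ) ^ (k + 2) = q at u4 u5 a2 ⊢
      calc C * q ^ a * (1 / A) ^ B.s ≤ C * q ^ (S.card + 2 * B.s) * (1 / A) ^ B.s := by
            gcongr
            omega
        _ = C * q ^ S.card * (q ^ 2 / A) ^ B.s := by
            rw [pow_add, pow_mul, div_pow, div_pow, one_pow]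
            ring
        _ ≤ C * q ^ S.card * (q ^ 2 / A) := mul_le_mul_of_nonneg_left (pow_le_of_le_one
            (by positivity) ((div_le_one (by linarith)).2 u5) (by omega)) (by positivity)
        _ ≤ δ := by
            rw [mul_div_assoc', div_le_iff₀ (by linarith)]
            nlinarith
  have all := ((Le.union bad good).mono (Z' := Mk r S Λ pl (γ H) Γ H B (k + 1) R) (fun z a => by
    by_cases j : ∃ j, Ad j z.1 z.2
    · exact Or.inr ⟨a, j⟩
    · exact Or.inl ⟨a.1, a.2.1, a.2.2.1.trans g1, not_exists.1 j⟩) le_rfl).2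
  rw [sum_const, card_univ, Fintype.card_fin, nsmul_eq_mul,
    div_mul_cancel₀ _ (show (1 + G) ≠ 0 by positivity)] at all
  rw [lt_div_iff₀ (by positivity)] at hn
  have v : C₀ * G * θ ^ n + ε / 4 + n * (δ + δ) ≤ ε := by
    nlinarith [mul_le_mul_of_nonneg_right (le_abs_self C₀) (mul_nonneg g0 (pow_nonneg t0 n)),
      pow_nonneg t0 n]
  have v' := mul_le_mul_of_nonneg_right v (Nat.cast_nonneg (α := ℝ) B.pts.card)
  linarith

end Vale.Agent.P004S
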