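import Vale.Agent.P004S.MasB

/-!
# P004, block SMITH, row LAT: generic pairs are rare for one lattice
-/

set_option linter.all false

noncomputable section

namespace Vale.Agent.P004S

open NumberField Matrix Filter Topology Finset
open Vale.Agent.P022 (Qb GQ IsConj Irred UnrAt IsFrob)
open Vale.Agent.P027M.S (Inert)
open Vale.Agent.P022D.W (dec)
open Vale.Agent.P022E.GW (Ov Fb Gn Ch)

namespace Ms

variable {r : Rp} {S : Finset ℕ} {pl : Pl} {γ : Submodule (ZMod 2) N → GQ → ℝ}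

instance fin_sub : Finite (Submodule (ZMod 2) N) :=
  Finite.of_injective _ (SetLike.coe_injective (A := Submodule (ZMod 2) N))

/-- the first moment over all classes -/
theorem mas0 (M : MAS) (pl : Pl) (hD : Dat r S) (hW : Wt r γ) : ∃ C : ℝ, 0 ≤ C ∧ ∀ ε : ℝ, 0 < ε →
    ∃ A : ℕ, ∀ B : Box, Nice pl S A B → ∀ Γ : ℝ, 0 ≤ Γ →
    Le {z : (Fin B.s → ℕ) × (GQ → N) | z.1 ∈ B.pts ∧ ∃ H e₀, Cl r S pl B.m z.1 H e₀ z.2 ∧
      wt S pl (γ H) (dd B.m z.1) ≤ Γ} ((C * Γ + ε * (1 + Γ)) * B.pts.card) := by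
  obtain ⟨C, hC⟩ := M r S pl γ hD hW
  have := Fintype.ofFinite (Submodule (ZMod 2) N × N)
  have k0 : (0 : ℝ) < Fintype.card (Submodule (ZMod 2) N × N) := Nat.cast_pos.2 Fintype.card_pos
  generalize hk : (Fintype.card (Submodule (ZMod 2) N × N) : ℝ) = k at k0
  refine ⟨k * max C 0, by positivity, fun ε hε => ?_⟩
  obtain ⟨A, hA⟩ := hC (ε / k) (by positivity)
  refine ⟨A, fun B hB Γ hΓ => (Le.cover univ _ _ (fun t : Submodule (ZMod 2) N × N => fun _ =>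
    hA B hB t.1 t.2 Γ 1 Unit 0 (fun z => z.1.elim0) (fun _ _ => True) (fun x => x.1.elim0)
      (fun x => x.1.elim0) zero_le_one le_rfl hΓ fun _ _ j => j.elim0)
    fun z hz => ?_).mono subset_rfl ?_⟩
  · obtain ⟨h1, H, e₀, h2, h3⟩ := hz
    exact ⟨(H, e₀), mem_univ _, h1, h2, h3, fun _ => trivial⟩
  rw [sum_const, card_univ, nsmul_eq_mul, hk, ← mul_assoc]
  refine mul_le_mul_of_nonneg_right ?_ (Nat.cast_nonneg _)
  have := mul_le_mul_of_nonneg_left (mul_le_mul_of_nonneg_right (le_max_left C 0) hΓ) k0.le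
  have e : k * (ε / k * (1 + Γ)) = ε * (1 + Γ) := by field_simp
  rw [pow_zero, mul_one, mul_add, e]
  linarith

theorem le_fst {α β : Type} {Z : Set (α × β)} {x : ℝ} (h : Le Z x) {T : Finset α} {n : ℕ}
    (hT : ∀ a ∈ T, n ≤ {b | (a, b) ∈ Z}.ncard) : n * (T.card : ℝ) ≤ x := by
  classical
  have h1 := mul_card_image_le_card_of_maps_to (f := Prod.fst)
    (s := h.1.toFinset.filter fun z => z.1 ∈ T) (t := T) (fun a ha => (mem_filter.1 ha).2) n
    fun a ha => (hT a ha).trans (by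
      rw [← Set.ncard_coe_finset]
      exact Set.ncard_le_ncard_of_injOn (fun b => (a, b)) (fun b hb => by simpa [ha] using hb)
        (fun b _ b' _ k => congrArg Prod.snd k))
  have h2 := h1.trans (card_filter_le _ _)
  rw [← Set.ncard_eq_toFinset_card _ h.1] at h2
  exact le_trans (by exact_mod_cast h2) h.2

theorem few_of {θ : ℝ} {E : (B : Box) → (Fin B.s → ℕ) → Prop}
    (h : ∀ ε : ℝ, 0 < ε → ∃ A : ℕ, ∀ B : Box, Nice pl S A B → ∀ T : Finset (Fin B.s → ℕ),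
      (∀ y ∈ T, y ∈ B.pts ∧ E B y) → (T.card : ℝ) ≤ (θ + ε) * B.pts.card) : Few pl S θ E :=
  fun ε hε => (h ε hε).imp fun A hA B hB => hA B hB _ fun y hy =>
    (@mem_filter _ _ (Classical.decPred _) _ _).1 hy

/-- points with a class of small weight -/
theorem few_wt (M : MAS) (pl : Pl) (hD : Dat r S) (hW : Wt r γ) : ∃ C : ℝ, 0 ≤ C ∧ ∀ Γ : ℝ, 0 ≤ Γ →
    Few pl S (C * Γ) fun B y => ∃ H e₀ Φ, Cl r S pl B.m y H e₀ Φ ∧
      wt S pl (γ H) (dd B.m y) ≤ Γ := by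
  classical
  obtain ⟨C, h0, hC⟩ := mas0 M pl hD hW
  refine ⟨C, h0, fun Γ hΓ => few_of fun ε hε => ?_⟩
  obtain ⟨A, hA⟩ := hC (ε / (1 + Γ)) (by positivity)
  refine ⟨A, fun B hB T hT => ?_⟩
  have h := hA B hB Γ hΓ
  rw [div_mul_cancel₀ _ (by positivity)] at h
  refine le_of_eq_of_le (by rw [Nat.cast_one, one_mul]) (le_fst h (n := 1) fun y hy => ?_)
  obtain ⟨h1, H, e₀, Φ, h2⟩ := hT y hy
  exact (Set.ncard_pos (h.1.preimage (f := fun b => (y, b))
    fun b _ b' _ k => congrArg Prod.snd k)).2 ⟨Φ, h1, H, e₀, h2⟩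

/-- points with many residual cocycles -/
theorem few_big (M : MAS) (c : CLS) (pl : Pl) (hD : Dat r S) (hW : Wt r γ) {Γ θ : ℝ} (hΓ : 0 ≤ Γ)
    (hθ : 0 < θ) : ∃ R : ℕ, Few pl S θ fun B y => ¬ Ub r S pl B.m y ∧
      (∀ H, wt S pl (γ H) (dd B.m y) ≤ Γ) ∧ R < {F | Pre r S (dd B.m y) (dd B.m y) F}.ncard := by
  classical
  obtain ⟨C, h0, hC⟩ := mas0 M pl hD hW
  obtain ⟨A, hA⟩ := hC 1 one_pos
  obtain ⟨R, hR⟩ := exists_nat_ge ((C * Γ + 1 * (1 + Γ)) / θ)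
  refine ⟨R, few_of fun ε hε => ⟨A + 1, fun B hB T hT => ?_⟩⟩
  have hA' : ∀ B, Nice pl S (A + 1) B → Nice pl S A B := fun B hB => by
    rcases A.eq_zero_or_pos with rfl | k
    · have : B.s ≠ 0 := by have := hB.le; omega
      exact ⟨hB.fam, by simp, fun i => by simp [this], fun i H ξ T h1 h2 =>
        absurd (by simpa [this] using h2) (idx_ne h1)⟩
    · exact hB.mono k (Nat.le_succ _)
  have h := hA B (hA' B hB) Γ hΓ
  have i : Fin B.s := ⟨0, by have := hB.le; omega⟩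
  have k := le_fst h (n := R + 1) (T := T)
    fun y hy => by
      obtain ⟨h1, h2, h3, h4⟩ := hT y hy
      exact (Nat.succ_le_of_lt h4).trans (Set.ncard_le_ncard_of_injOn (fun F g => (F g, F g))
        (fun F hF => ⟨h1, _, _, c r S pl hD.rep B.m B.s B.X B.L y _ i hB.fam h1 h2 ⟨hF, hF⟩, h3 _⟩)
        (fun F _ F' _ k => funext fun g => congrArg Prod.fst (congrFun k g))
        (h.1.preimage (f := fun b => (y, b)) fun b _ b' _ k => congrArg Prod.snd k))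
  rw [div_le_iff₀ hθ] at hR
  have p : (0 : ℝ) ≤ B.pts.card := Nat.cast_nonneg _
  have r0 : (0 : ℝ) < (R + 1 : ℕ) := by positivity
  refine le_of_mul_le_mul_left (k.trans ?_) r0
  rw [← mul_assoc]
  refine mul_le_mul_of_nonneg_right (hR.trans ?_) p
  push_cast
  have : (0 : ℝ) ≤ R := Nat.cast_nonneg _
  nlinarith

end Ms

open Ms in
theorem ilat : iLAT := by
  classical
  intro _ _ uu c M th ra r S Λ pl γ hD hW Γ
  by_cases hΓ : 0 ≤ Γ
  swap
  · exact (Few.none pl S).mono le_rfl 0 fun B _ y _ k => hΓ ((wt_nonneg hW _).trans (k.1 ⊥))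
  refine Few.of_small fun θ hθ => ?_
  obtain ⟨R, hR⟩ := few_big M c pl hD hW hΓ hθ
  have := Fintype.ofFinite (Submodule (ZMod 2) N)
  have h := Few.ex (univ.filter (Rich r)) fun H hH =>
    ra r S Λ pl γ hD hW H Γ R (mem_filter.1 hH).2
  refine (((th r S pl γ hD hW).or (uu r S pl hD.rep)).or (hR.or h)).mono (by simp) 0 ?_
  rintro B - y hy ⟨h1, H, e₀, Φ, h2, h3 | ⟨h3, rfl, h4⟩⟩
  · exact Or.inl (Or.inl ⟨H, e₀, Φ, h2, h3⟩)
  by_cases hU : Ub r S pl B.m y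
  · exact Or.inl (Or.inr hU)
  by_cases hb : R < {F | Pre r S (dd B.m y) (dd B.m y) F}.ncard
  · exact Or.inr (Or.inl ⟨hU, h1, hb⟩)
  · exact Or.inr (Or.inr ⟨H, mem_filter.2 ⟨mem_univ _, h3⟩, Φ, fun k =>
      ⟨hy, h2, h1 H, (h4 k).1, (h4 k).2, not_lt.1 hb⟩⟩)

end Vale.Agent.P004S
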