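import Vale.Agent.P004S.MasC

/-!
# P004, block SMITH, row MAS: the first moment for events in blocks
-/

set_option linter.all false

noncomputable section

namespace Vale.Agent.P004S

open NumberField Matrix Filter Topology Finset
open Vale.Agent.P022 (Qb GQ IsConj Irred UnrAt IsFrob)
open Vale.Agent.P027M.S (Inert)
open Vale.Agent.P022D.W (dec)
open Vale.Agent.P022E.GW (Ov Fb Gn Ch)

namespace Ms

variable {r : Rp} {S : Finset ℕ} {pl : Pl} {γ : Submodule (ZMod 2) N → GQ → ℝ}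
  {H : Submodule (ZMod 2) N} {e₀ : N} {w : GQ → N} {s : ℕ} {m : ℤ} {X : Fin s → Finset ℕ}
  {L κ C Γ : ℝ} {A : ℕ}

/-- the data of the count for one cocycle -/
structure Dt (r : Rp) (S : Finset ℕ) (pl : Pl) (γ : Submodule (ZMod 2) N → GQ → ℝ)
    (H : Submodule (ZMod 2) N) (e₀ : N) (w : GQ → N) {s : ℕ} (m : ℤ) (X : Fin s → Finset ℕ)
    (L κ C Γ c : ℝ) (A : ℕ) : Prop where
  hW : Wt r γ
  hs : Stb r H e₀
  hC : 0 ≤ C
  fm : FMr r S pl C A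
  hF : Fam S m X L
  hΓ : 0 ≤ Γ
  hκ : 0 ≤ κ
  hE : ∀ i, Equi pl (X i) A (2 * ((Fintype.card (Fin s) + 1) * L)) κ
  c0 : 0 < c
  c1 : c ≤ 1
  ng : ∀ k, ms (uu r pl H e₀ (γ H) w) (fun a => X (bl s (k, a)) ×ˢ univ)
    (fun z => ¬ Hs r (Set.range fun i => (z i).2) = H) ≤
      (1 - c) * ∏ a, ((X (bl s (k, a))).card : ℝ)

variable {c : ℝ}

theorem key2 (D : Dt r S pl γ H e₀ w m X L κ C Γ c A) (j : Fin 5 → Fin s)
    (T : Finset (Fin (s / 10))) (hT : ∀ k ∈ T, ∀ a, ¬ ∃ a', j a' = bl s (k, a)) {n : ℕ} {ι : Type}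
    [Fintype ι] [DecidableEq ι] (β : Fin n × ι → Fin s) (hβ : Function.Injective β)
    (up : ∀ z, s ≤ 2 * (β z : ℕ)) (hp : ∀ z, ¬ ∃ a', j a' = β z) (E : (ι → ℕ × N) → Prop) {θ : ℝ}
    (hθ : ∀ t, ms (uu r pl H e₀ (γ H) w) (fun a => X (β (t, a)) ×ˢ univ) E ≤
      θ * ∏ a, ((X (β (t, a))).card : ℝ)) :
    Le (Zs r S pl (γ H) Γ H e₀ w m X fun z => Hs r (Set.range fun a => (z (j a)).2) = H ∧
        (∀ t, E fun a => z (β (t, a))) ∧
          ∀ k ∈ T, ¬ Hs r (Set.range fun a => (z (bl s (k, a))).2) = H)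
      ((C * 64 ^ 5 * Γ * (θ ^ n * (1 - c) ^ T.card) + C * κ * 16 ^ ((pf S m).card + s)) *
        ∏ i, ((X i).card : ℝ)) := by
  have h1 := ms_two (uu_nonneg (pl := pl) (H := H) (e₀ := e₀) (w := w) D.hW)
    (fun z : Fin n × ι => (⟨β z, hp z⟩ : {i // ¬ ∃ a', j a' = i}))
    (fun z : T × Fin 5 => ⟨bl s (z.1, z.2), hT _ z.1.2 _⟩)
    (fun x y k => hβ (congrArg Subtype.val k))
    (fun x y k => by
      have := bl_inj s (congrArg Subtype.val k)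
      exact Prod.ext (Subtype.ext (congrArg Prod.fst this)) (congrArg Prod.snd this :))
    (fun x y k => by
      have a : β x = bl s (y.1, y.2) := congrArg Subtype.val k
      have b := up x
      have d := bl_lt s (y.1, y.2)
      rw [a] at b
      omega)
    (fun i => X i ×ˢ univ) (fun i => ((X i).card : ℝ)) (fun i => uu_blk D.hW D.hs _) E
    (fun z => ¬ Hs r (Set.range fun i => (z i).2) = H) θ (1 - c) hθ fun t => D.ng t
  have h2 := key D.hW D.hs D.hC D.fm D.hF D.hΓ D.hκ D.hE (fun i => ∃ a', j a' = i) (card_sub j) _ _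
    h1
  simp only [Fintype.card_fin, Fintype.card_coe] at h2
  refine h2.mono (fun z hz => ⟨hz.1, hz.2.1, hz.2.2.1, hz.2.2.2.1, ?_, hz.2.2.2.2.2.1,
    fun t => hz.2.2.2.2.2.2 t t.2⟩) le_rfl
  exact (congrArg (Hs r) (range_sub j fun i => z.2 (pl.τ (z.1 i)))).trans hz.2.2.2.2.1

/-- a block generates -/
theorem caseA (D : Dt r S pl γ H e₀ w m X L κ C Γ c A) {n : ℕ} {ι : Type}
    [Fintype ι] [DecidableEq ι] (β : Fin n × ι → Fin s) (hβ : Function.Injective β)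
    (up : ∀ z, s ≤ 2 * (β z : ℕ)) (E : (ι → ℕ × N) → Prop) {θ : ℝ} (h0 : 0 ≤ θ)
    (hθ : ∀ t, ms (uu r pl H e₀ (γ H) w) (fun a => X (β (t, a)) ×ˢ univ) E ≤
      θ * ∏ a, ((X (β (t, a))).card : ℝ)) :
    Le (Zs r S pl (γ H) Γ H e₀ w m X fun z => (∀ t, E fun a => z (β (t, a))) ∧
        ∃ k, Hs r (Set.range fun a => (z (bl s (k, a))).2) = H)
      ((C * 64 ^ 5 / c * Γ * θ ^ n + s * (C * κ * 16 ^ ((pf S m).card + s))) *
        ∏ i, ((X i).card : ℝ)) := by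
  classical
  refine (Le.cover univ _ _ (fun k _ => key2 D (fun a => bl s (k, a)) (Iio k)
    (fun k' hk a ⟨a', e⟩ => (mem_Iio.1 hk).ne' (congrArg Prod.fst (bl_inj s e))) β hβ up
    (fun z ⟨a', e⟩ => by
      have b := up z
      have d := bl_lt s (k, a')
      rw [← e] at b
      omega) E hθ) fun z hz => ?_).mono subset_rfl ?_
  · obtain ⟨z1, z2, z3, z4, z5, z6⟩ := hz
    obtain ⟨k, hk, hm⟩ := exists_min_image (univ.filter fun k =>
      Hs r (Set.range fun a => z.2 (pl.τ (z.1 (bl s (k, a))))) = H) id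
      (z6.imp fun k hk => mem_filter.2 ⟨mem_univ _, hk⟩)
    exact ⟨k, mem_univ _, z1, z2, z3, z4, (mem_filter.1 hk).2, z5, fun k' h1 h2 =>
      (mem_Iio.1 h1).not_ge (hm k' (mem_filter.2 ⟨mem_univ _, h2⟩))⟩
  · rw [← sum_mul]
    refine mul_le_mul_of_nonneg_right ?_ (prod_nonneg fun _ _ => Nat.cast_nonneg _)
    simp only [Fin.card_Iio]
    rw [sum_add_distrib, ← mul_sum, ← mul_sum, sum_const, card_univ, Fintype.card_fin, nsmul_eq_mul]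
    have p1 : 0 ≤ C * 64 ^ 5 * Γ := mul_nonneg (mul_nonneg D.hC (by norm_num)) D.hΓ
    refine add_le_add ((mul_le_mul_of_nonneg_left (mul_le_mul_of_nonneg_left
      (geom D.c0 D.c1 _) (pow_nonneg h0 _)) p1).trans (le_of_eq (by ring))) ?_
    exact mul_le_mul_of_nonneg_right (Nat.cast_le.2 (Nat.div_le_self _ _))
      (mul_nonneg (mul_nonneg D.hC D.hκ) (pow_nonneg (by norm_num) _))

/-- no block generates -/
theorem caseB (D : Dt r S pl γ H e₀ w m X L κ C Γ c A) :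
    Le (Zs r S pl (γ H) Γ H e₀ w m X fun z =>
        (∃ j : Fin 5 → Fin s, Hs r (Set.range fun a => (z (j a)).2) = H) ∧
        ∀ k, ¬ Hs r (Set.range fun a => (z (bl s (k, a))).2) = H)
      ((C * 64 ^ 5 * (s ^ 5 * (1 - c) ^ (s / 10 - 5)) * Γ +
        s ^ 5 * (C * κ * 16 ^ ((pf S m).card + s))) * ∏ i, ((X i).card : ℝ)) := by
  classical
  refine (Le.cover univ _ (fun _ => (C * 64 ^ 5 * Γ * (1 - c) ^ (s / 10 - 5) +
    C * κ * 16 ^ ((pf S m).card + s)) * ∏ i, ((X i).card : ℝ)) (fun j _ => (key2 D j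
    (univ.filter fun k : Fin (s / 10) => ∀ a, ¬ ∃ a', j a' = bl s (k, a))
    (fun k hk => (mem_filter.1 hk).2) (n := 0) (ι := Unit) (fun z => z.1.elim0)
    (fun x => x.1.elim0) (fun x => x.1.elim0) (fun x => x.1.elim0) (fun _ => True) (θ := 1)
    fun t => t.elim0).mono subset_rfl ?_) fun z hz => ?_).mono subset_rfl (le_of_eq ?_)
  · refine mul_le_mul_of_nonneg_right (add_le_add_left (mul_le_mul_of_nonneg_left ?_
      (mul_nonneg (mul_nonneg D.hC (by norm_num)) D.hΓ)) _)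
      (prod_nonneg fun _ _ => Nat.cast_nonneg _)
    rw [pow_zero, one_mul]
    exact pow_le_pow_of_le_one (sub_nonneg.2 D.c1) (sub_le_self _ D.c0.le) (card_free j)
  · obtain ⟨z1, z2, z3, z4, ⟨j, z5⟩, z6⟩ := hz
    exact ⟨j, mem_univ _, z1, z2, z3, z4, z5, fun _ => trivial, fun k _ => z6 k⟩
  · rw [sum_const, card_univ, Fintype.card_fun, Fintype.card_fin, Fintype.card_fin, nsmul_eq_mul]
    push_cast
    ring

/-- the count for one cocycle -/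
theorem one (h : Rep r S) (D : Dt r S pl γ H e₀ w m X L κ C Γ c A) (i₀ : Fin s) {n : ℕ} {ι : Type}
    [Fintype ι] [DecidableEq ι] (β : Fin n × ι → Fin s) (hβ : Function.Injective β)
    (up : ∀ z, s ≤ 2 * (β z : ℕ)) (E : (ι → ℕ × N) → Prop) {θ : ℝ} (h0 : 0 ≤ θ)
    (hθ : ∀ t, ms (uu r pl H e₀ (γ H) w) (fun a => X (β (t, a)) ×ˢ univ) E ≤
      θ * ∏ a, ((X (β (t, a))).card : ℝ)) :
    Le (Zs r S pl (γ H) Γ H e₀ w m X fun z => Hs r (Set.range fun i => (z i).2) = H ∧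
        ∀ t, E fun a => z (β (t, a)))
      ((C * 64 ^ 5 / c * Γ * θ ^ n + C * 64 ^ 5 * (s ^ 5 * (1 - c) ^ (s / 10 - 5)) * Γ +
        C * ((s + s ^ 5) * (κ * 16 ^ ((pf S m).card + s)))) * ∏ i, ((X i).card : ℝ)) := by
  refine ((caseA D β hβ up E h0 hθ).union (caseB D)).mono (fun z hz => ?_) (le_of_eq (by ring))
  obtain ⟨z1, z2, z3, z4, z5, z6⟩ := hz
  by_cases k : ∃ k, Hs r (Set.range fun a => z.2 (pl.τ (z.1 (bl s (k, a))))) = H
  · exact Or.inl ⟨z1, z2, z3, z4, z6, k⟩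
  · obtain ⟨j, hj⟩ := gen5 h (fun i => z.2 (pl.τ (z.1 i))) i₀
    exact Or.inr ⟨z1, z2, z3, z4, ⟨j, hj.trans z5⟩, not_exists.1 k⟩

theorem cl_mem (hF : Fam S m X L) {y : Fin s → ℕ} (hy : ∀ i, y i ∈ X i) (i : Fin s) :
    y i ∈ pf S (dd m y) := by
  have p := hF.pm i _ (hy i)
  exact (mem_pf (hF.sqf hy).ne_zero).2 ⟨p.1, (hF.dvd_iff hy p.1).2 (Or.inr ⟨i, rfl⟩), p.2.1⟩

theorem cl_stb (h : Rep r S) (hF : Fam S m X L) {y : Fin s → ℕ} (hy : ∀ i, y i ∈ X i) (i : Fin s)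
    {Φ : GQ → N} (hc : Cl r S pl m y H e₀ Φ) : Stb r H e₀ :=
  hc.gen ▸ hs_stb h ⟨i, rfl⟩ (hc.gen ▸ hc.mem _ (cl_mem hF hy i))

theorem cl_wb (lt : LT) (h : Rep r S) (hF : Fam S m X L) {y : Fin s → ℕ} (hy : ∀ i, y i ∈ X i)
    (hs : Stb r H e₀) {Φ : GQ → N} (hc : Cl r S pl m y H e₀ Φ) :
    Wb r S H (wf (dd m y) e₀ Φ) :=
  ⟨(wf_lc hc.pre).comp H.mkQ, wf_cm hc.pre hs, fun l P ho hl g hg =>
    (Submodule.Quotient.mk_eq_zero H).2 (wf_un lt h hc.pre hs (hF.sqf hy) pl ho hl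
      (fun k => hc.mem l ((mem_pf (hF.sqf hy).ne_zero).2 ⟨ho.1, k, hl⟩)) hg)⟩

theorem cl_cmp (h : Rep r S) (hF : Fam S m X L) {y : Fin s → ℕ} (hy : ∀ i, y i ∈ X i)
    {Φ : GQ → N} (hc : Cl r S pl m y H e₀ Φ) (hw : ∀ g, wf (dd m y) e₀ Φ g - w g ∈ H) :
    ∀ q ∈ pf S (dd m y), Cmp r H e₀ (w (pl.σ q)) (pl.σ q) (Φ (pl.τ q)) := fun q hq => by
  obtain ⟨a, b, c⟩ := (mem_pf (hF.sqf hy).ne_zero).1 hq
  exact cmp_congr (wf_cmp h hc.pre (hF.sqf hy) pl a c b (hc.mem q hq)) (hw _)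

/-- typical boxes -/
theorem nice_equi {B : Box} (hB : Nice pl S A B) {n : ℕ} (h2 : 2 ≤ A) (hn : n ≤ A) (i : Fin B.s) :
    Equi pl (B.X i) n (2 * ((Fintype.card (Fin B.s) + 1) * B.L)) ((1 / A) ^ B.s) := by
  refine (hB.equ i).mono (hn.trans (Nat.le_self_pow (by have := hB.le; omega) _)) ?_ le_rfl
  rw [Fintype.card_fin, mul_assoc]
  exact mul_le_mul_of_nonneg_right (by exact_mod_cast h2)
    (mul_nonneg (by positivity) hB.fam.L_nonneg)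

theorem nice_dt (occ : OCC) (h : Rep r S) (hW : Wt r γ) (hC : 0 ≤ C) {A' : ℕ}
    (fm : FMr r S pl C A') {n : ℕ} (hn : (h.Kn 2).index * 16 ≤ n) {B : Box} (hB : Nice pl S A B)
    (h1 : A' ≤ A) (h2 : 4 * n ≤ A) (hs : Stb r H e₀) (hw : Wb r S H w) (hΓ : 0 ≤ Γ)
    {f : Fin 5 → N} (hf : ∀ i, f i - e₀ ∈ H) (hg : Hs r (Set.range f) = H) :
    Dt r S pl γ H e₀ w B.m B.X B.L ((1 / A) ^ B.s) C Γ ((1 / (64 * n)) ^ 5) A' := by
  have n0 : 1 ≤ n := by have := idx_ne (h.Kn_open 2); omega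
  have n1 : (1 : ℝ) ≤ n := by exact_mod_cast n0
  have a1 : (4 * n : ℝ) ≤ A := by exact_mod_cast h2
  have L0 := hB.fam.L_nonneg
  refine ⟨hW, hs, hC, fm, hB.fam, hΓ, by positivity, nice_equi hB (by omega) h1, by positivity,
    pow_le_one₀ (by positivity) ((div_le_one (by positivity)).2 (by linarith)), fun k =>
    good occ h hW hs hw hn (fun a => nice_equi hB (by omega) (by omega) _)
      (hB.fam.lS.trans ?_) ?_ hf hg⟩
  · have : (0 : ℝ) ≤ Fintype.card (Fin B.s) * B.L := by positivity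
    linarith
  · exact (pow_le_of_le_one (by positivity) ((div_le_one (by linarith)).2 (by linarith))
      (by have := hB.le; omega)).trans (one_div_le_one_div_of_le (by positivity) a1)

theorem fin_ineq {C₀ t a b d Γ ε P u : ℝ} (ht : t ≤ C₀) (ha : 0 ≤ a * Γ * u) (hb : 0 ≤ b)
    (hd : 0 ≤ d) (hΓ : 0 ≤ Γ) (hP : 0 ≤ P) (h1 : C₀ * b ≤ ε) (h2 : C₀ * d ≤ ε) :
    t * ((a * Γ * u + b * Γ + d) * P) ≤ (C₀ * a * Γ * u + ε * (1 + Γ)) * P := by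
  rw [← mul_assoc]
  refine mul_le_mul_of_nonneg_right ((mul_le_mul_of_nonneg_right ht
    (add_nonneg (add_nonneg ha (mul_nonneg hb hΓ)) hd)).trans ?_) hP
  have := mul_le_mul_of_nonneg_right h1 hΓ
  linarith

theorem fin_ineq' {C₀ t C x z Γ ε P u c : ℝ} (ht : t ≤ C₀) (h0 : 0 ≤ C₀) (hC : 0 ≤ C)
    (ha : 0 ≤ C * 64 ^ 5 / c * Γ * u) (hx : 0 ≤ x) (hz : 0 ≤ z) (hΓ : 0 ≤ Γ) (hP : 0 ≤ P)
    (h1 : C₀ * (C * 64 ^ 5) * x ≤ ε) (h2 : C₀ * (C * 64 ^ 5) * z ≤ ε) :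
    t * ((C * 64 ^ 5 / c * Γ * u + C * 64 ^ 5 * x * Γ + C * z) * P) ≤
      (C₀ * (C * 64 ^ 5 / c) * Γ * u + ε * (1 + Γ)) * P := by
  refine fin_ineq ht ha (by positivity) (by positivity) hΓ hP (le_of_eq_of_le (by ring) h1)
    (le_trans ?_ h2)
  rw [← mul_assoc]
  gcongr
  exact le_mul_of_one_le_right hC (by norm_num)

end Ms

open Ms in
theorem mas : iMAS := by
  intro lt cnt cnz occ fm r S pl γ hD hW
  have h := hD.rep
  obtain ⟨C, A', hC, fm⟩ := fmr fm pl hD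
  obtain ⟨C₀, hT⟩ := wcl cnt cnz h
  obtain ⟨n₀, hn⟩ : ∃ n₀, (h.Kn 2).index * 16 ≤ n₀ := ⟨_, le_rfl⟩
  have n1 : (1 : ℝ) ≤ n₀ := by
    have := idx_ne (h.Kn_open 2)
    exact_mod_cast (by omega)
  generalize hc : (1 / (64 * n₀) : ℝ) ^ 5 = c
  have c0 : 0 < c := by rw [← hc]; positivity
  have c1 : c ≤ 1 := hc ▸ pow_le_one₀ (by positivity) ((div_le_one (by positivity)).2 (by linarith))
  refine ⟨C₀ * (C * 64 ^ 5 / c), fun ε hε => ?_⟩
  obtain ⟨A₀, hA⟩ := small (a := C₀ * (C * 64 ^ 5)) (by positivity) (sub_nonneg.2 c1)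
    (sub_lt_self 1 c0) hε
  refine ⟨A₀ + A' + 4 * n₀ + 1, fun B hB H e₀ Γ θ ι _ _ n β E hβ up h0 h1 hΓ hθ => ?_⟩
  have hs := hB.le
  have hω : (pf S B.m).card ≤ B.s := by
    have a := card_le_card (sdiff_subset (s := B.m.natAbs.primeFactors) (t := S))
    have b := (Nat.le_mul_of_pos_left _ (Nat.succ_pos _)).trans hB.len
    exact a.trans (by omega)
  obtain ⟨e1, e2⟩ := hA (A₀ + A' + 4 * n₀ + 1) B.s _ (by omega) hs hω
  have p1 : 0 ≤ C * 64 ^ 5 / c * Γ * θ ^ n := by positivity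
  have p2 : 0 ≤ (B.s : ℝ) ^ 5 * (1 - c) ^ (B.s / 10 - 5) :=
    mul_nonneg (by positivity) (pow_nonneg (sub_nonneg.2 c1) _)
  have p3 : 0 ≤ ((B.s : ℝ) + B.s ^ 5) * ((1 / (A₀ + A' + 4 * n₀ + 1 : ℕ)) ^ B.s *
    16 ^ ((pf S B.m).card + B.s)) := by positivity
  refine Le.of_ne (by positivity) ?_
  rintro ⟨y, Φ⟩ ⟨hy, hz, -⟩
  have i₀ : Fin B.s := ⟨0, by omega⟩
  have hy' := Fintype.mem_piFinset.1 hy
  have st := cl_stb h hB.fam hy' i₀ hz
  obtain ⟨j, hj⟩ := gen5 h (fun i => Φ (pl.τ (y i))) i₀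
  obtain ⟨T, T1, T2, T3⟩ := hT H fun g => (st g).2
  refine (Le.cover T _ _ (fun w hw => one h (hc ▸ nice_dt (Γ := Γ) occ h hW hC fm hn hB (by omega)
    (by omega) st (T2 w hw) hΓ (fun a => hz.mem _ (cl_mem hB.fam hy' (j a))) (hj.trans hz.gen))
    i₀ β hβ up (fun z => E (fun i => (z i).1) fun i => (z i).2) h0 fun t =>
      (mass_eq pl H e₀ (γ H) w (fun i => B.X (β (t, i))) E).trans_le (hθ w (T2 w hw) t))
    fun z hz => ?_).mono subset_rfl ?_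
  · have hy := Fintype.mem_piFinset.1 hz.1
    obtain ⟨w, hw, k⟩ := T3 _ (cl_wb lt h hB.fam hy st hz.2.1)
    exact ⟨w, hw, hy, hz.2.1.pre, cl_cmp h hB.fam hy hz.2.1 k, hz.2.2.1, hz.2.1.gen, hz.2.2.2⟩
  · rw [sum_const, nsmul_eq_mul, B.card_pts, Nat.cast_prod]
    exact fin_ineq' (Nat.cast_le.2 T1) (Nat.cast_nonneg _) hC p1 p2 p3 hΓ
      (prod_nonneg fun _ _ => Nat.cast_nonneg _) e1 e2

end Vale.Agent.P004S
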