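import Vale.Agent.P004S.Occ

/-!
# P004, block SMITH: the row THIN
-/

set_option linter.all false

noncomputable section

namespace Vale.Agent.P004S

open NumberField Finset Matrix
open Vale.Agent.P022 (Qb GQ)
open scoped Classical

namespace Oc

variable {r : Rp} {S : Finset ℕ} {H : Submodule (ZMod 2) N} {e₀ w : N}

theorem dg_mul (A B : Matrix (Fin 2) (Fin 2) (ZMod 2)) (x : N) : dg (A * B) x = dg A (dg B x) := by
  simp [dg]

theorem dg_one (x : N) : dg 1 x = x := by simp [dg]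

theorem stb_of (hr : Rep r S) {E : Set N} {e : N} (he : e ∈ E) (h : e - e₀ ∈ Hs r E) :
    Stb r (Hs r E) e₀ := fun g => by
  have k : ∀ g, ∀ a ∈ E, ∀ b ∈ E, dg (rb r g) a - b ∈ Hs r E := fun g a ha b hb =>
    Submodule.subset_span ⟨g, a, ha, b, hb, rfl⟩
  have k1 : ∀ x ∈ Hs r E, dg (rb r g) x ∈ Hs r E := fun x hx =>
    (Submodule.span_le (p := (Hs r E).comap (dg (rb r g)))).2 (by
      rintro _ ⟨g', a, ha, b, hb, rfl⟩
      simpa [hr.rb_mul, dg_mul] using sub_mem (k (g * g') a ha e he) (k g b hb e he)) hx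
  refine ⟨?_, k1⟩
  convert add_mem (sub_mem (k g e he e he) (k1 _ h)) h using 1
  rw [map_sub]
  abel

theorem half_le {g : GQ} (h : Tr r 1 g) (i j : Fin 2) :
    ‖((1 / 2 : ℚ_[2]) • (mt r g - 1)) i j‖ ≤ 1 := by
  rw [Matrix.smul_apply, norm_smul, norm_half]
  linarith [h i j]

theorem rv_Am {g : GQ} (h : Tr r 1 g) {n : V} (hn : ‖n‖ ≤ 1) :
    rv ((1 / 2 : ℚ_[2]) • (mt r g *ᵥ n - n)) = Am r g *ᵥ rv n := by
  have := rv_mulVec (half_le h) hn
  rw [smul_mulVec, sub_mulVec, one_mulVec] at this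
  rw [this, Am]
  congr 1
  ext i j
  simp [div_eq_inv_mul]

theorem Am_ext {g : GQ} (h : Tr r 1 g) {A : Matrix (Fin 2) (Fin 2) (ZMod 2)}
    (e : ∀ n : V, ‖n‖ ≤ 1 → rv ((1 / 2 : ℚ_[2]) • (mt r g *ᵥ n - n)) = A *ᵥ rv n) : Am r g = A :=
  ext_of_mulVec_single fun i => by
    rw [← rv_lf (Pi.single i 1), ← rv_Am h (norm_lf _), e _ (norm_lf _)]

theorem half_norm {g : GQ} (h : Tr r 1 g) {n : V} (hn : ‖n‖ ≤ 1) :
    ‖(1 / 2 : ℚ_[2]) • (mt r g *ᵥ n - n)‖ ≤ 1 := by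
  rw [norm_smul, norm_half]
  linarith [h.norm n]

theorem Am_mul (hr : Rep r S) {g k : GQ} (hg : Tr r 1 g) (hk : Tr r 1 k) :
    Am r (g * k) = Am r g + Am r k := Am_ext (hr.tr_mul hg hk) fun n hn => by
  rw [mt_mul, ← mulVec_mulVec, show (1 / 2 : ℚ_[2]) • (mt r g *ᵥ mt r k *ᵥ n - n) =
    (1 / 2 : ℚ_[2]) • (mt r g *ᵥ n - n) + mt r g *ᵥ ((1 / 2 : ℚ_[2]) • (mt r k *ᵥ n - n)) by
      rw [mulVec_smul, mulVec_sub, ← smul_add]; congr 1; abel,
    rv_add (half_norm hg hn) ((hr.norm_mt _ _).trans (half_norm hk hn)), hr.rv_mt _ (half_norm hk hn),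
    hr.tr_one_iff.1 hg, one_mulVec, rv_Am hg hn, rv_Am hk hn, add_mulVec]

theorem Am_conj (hr : Rep r S) {g : GQ} (hg : Tr r 1 g) (h : GQ) :
    Am r (h * g * h⁻¹) = rb r h * Am r g * rb r h⁻¹ := Am_ext (hr.tr_conj hg h) fun n hn => by
  have k := (hr.norm_mt h⁻¹ n).trans hn
  rw [← mulVec_mulVec, ← mulVec_mulVec, ← hr.rv_mt _ hn, ← rv_Am hg k,
    ← hr.rv_mt _ (half_norm hg k), mulVec_smul, mulVec_sub, mulVec_mulVec, mulVec_mulVec,
    mulVec_mulVec, ← mt_mul, ← mt_mul, ← mt_mul, mul_inv_cancel, mt_one, one_mulVec]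

theorem Am_zero {g : GQ} (h : Tr r 1 g) : Am r g = 0 ↔ Tr r 2 g := by
  rw [← ext_iff]
  refine forall₂_congr fun i j => ?_
  rw [Am, map_apply, Matrix.zero_apply, rd_eq_zero, norm_div, norm_two, div_le_iff₀ (by norm_num), sq]

theorem Am_pow (hr : Rep r S) {g : GQ} (hg : Tr r 1 g) : ∀ i : ℕ, Am r (g ^ i) = i • Am r g
  | 0 => by rw [pow_zero, zero_smul]; exact (Am_zero (hr.Kn 1).one_mem).2 (hr.Kn 2).one_mem
  | i + 1 => by rw [pow_succ, Am_mul hr ((hr.Kn 1).pow_mem hg i) hg, Am_pow hr hg i, succ_nsmul]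

theorem two_M (A : Matrix (Fin 2) (Fin 2) (ZMod 2)) : 2 • A = 0 := by
  ext i j; rw [two_nsmul]; exact CharTwo.add_self_eq_zero _

theorem cmp_half (hr : Rep r S) {g : GQ} (hg : Tr r 1 g) {x : N} (hx : x ∈ H)
    (h : dg (Am r g) x ∉ H) : 2 * {e | Cmp r H e₀ w g e}.ncard ≤ hq r H g := by
  have k0 : Im r g = ⊥ := by
    rw [Im, hr.tr_one_iff.1 hg, LinearMap.range_eq_bot]
    exact LinearMap.ext fun x => sub_eq_zero.2 (dg_one x)
  have k1 : ∀ e, Cmp r H e₀ w g e → e - e₀ ∈ H ∧ dg (Am r g) e - w ∈ H := by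
    rintro _ ⟨a, n, n', b, c, rfl, -, -, d⟩
    rw [k0, sup_bot_eq, rv_Am hg b, rv_Am hg c] at d
    exact ⟨a, d⟩
  rw [hq, ← Nat.card_congr (Submodule.equivMapOfInjective _ (LinearMap.ker_eq_bot.1
    ((Submodule.ker_mkQ _).trans k0)) H).toEquiv, two_mul]
  nth_rewrite 2 [← Set.ncard_image_of_injective _ (add_left_injective x)]
  rw [← Set.ncard_union_eq (Set.disjoint_left.2 ?_), ← Set.ncard_image_of_injective _
    (sub_left_injective (b := e₀))]
  · refine Set.ncard_le_ncard (t := (H : Set N)) ?_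
    rintro _ ⟨_, a | ⟨e, a, rfl⟩, rfl⟩
    · exact (k1 _ a).1
    · simpa [add_sub_right_comm] using add_mem (k1 _ a).1 hx
  · rintro _ a ⟨e, b, rfl⟩
    exact h (by simpa using sub_mem (k1 _ a).2 (k1 _ b).2)

end Oc

open Oc

theorem ithin : iTHIN := by
  intro hO hM r S pl γ hd hw
  have hr := hd.rep
  haveI := Fintype.ofFinite (Submodule (ZMod 2) N)
  refine (Few.ex (θ := 0) univ (E := fun (q : Submodule (ZMod 2) N × N) B y =>
    (Stb r q.1 q.2 ∧ (∀ g, γ q.1 g = 1) ∧ ¬ Stab r q.1) ∧ ∃ Φ, Cl r S pl B.m y q.1 q.2 Φ)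
    ?_).mono (by simp) 0 fun B hB y hy ⟨H, e₀, Φ, k1, k2⟩ => ⟨(H, e₀), mem_univ _, ⟨?_, k2⟩, Φ, k1⟩
  swap
  · have i : Fin B.s := ⟨0, hB.le⟩
    have k3 := hB.fam.pm i _ (Fintype.mem_piFinset.1 hy i)
    have k4 := k1.mem (y i) (mem_sdiff.2 ⟨Nat.mem_primeFactors.2 ⟨k3.1, Int.natCast_dvd.1
      ((hB.fam.dvd_iff (Fintype.mem_piFinset.1 hy) k3.1).2 (Or.inr ⟨i, rfl⟩)), Int.natAbs_ne_zero.2
        (hB.fam.sqf (Fintype.mem_piFinset.1 hy)).ne_zero⟩, k3.2.1⟩)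
    rw [← k1.gen] at k4 ⊢
    exact stb_of hr ⟨i, rfl⟩ k4
  rintro ⟨H, e₀⟩ - ε hε
  by_cases e : Stb r H e₀ ∧ (∀ g, γ H g = 1) ∧ ¬ Stab r H
  swap
  · exact ⟨0, fun B _ => by simp [e]; positivity⟩
  simp only [eq_true e, true_and, zero_add]
  obtain ⟨h1, h2, h3⟩ := e
  simp only [Stab, not_forall] at h3
  obtain ⟨g, g1, x, x1, x2⟩ := h3
  obtain ⟨C, hC⟩ := hM r S pl γ hd hw
  obtain ⟨A, hA⟩ := hC (ε / 4) (by positivity)
  have n0 := idx_ne (hr.Kn_open 2)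
  obtain ⟨n, k1, k2, k3, k4⟩ := small (mul_ne_zero two_ne_zero n0)
    (show 0 < ε / 2 / (|C| + 1) by positivity)
  refine ⟨max (A + 1) (2 * n), fun B hB => ?_⟩
  have hs : 2 * n ≤ B.s := (le_max_right _ _).trans hB.le
  obtain ⟨f1, f2⟩ := hA B (if a : A = 0 then ⟨hB.fam, by simp [a], fun i => by
      simpa [a] using (Nat.pow_le_pow_left (Nat.zero_le _) _).trans (hB.big i), fun i H ξ T b c =>
        absurd (by simpa [a, show B.s ≠ 0 by omega] using c) (idx_ne b)⟩ else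
      hB.mono (by omega) (by omega)) H e₀ 1 _ Unit n
    (fun z => ⟨B.s - 1 - z.1, by omega⟩) (fun _ _ => True) (fun z z' e => Prod.ext (Fin.ext (by
      have := congrArg Fin.val e; simp only at this; omega)) rfl) (fun z => by simp only; omega)
    k3 k4 zero_le_one fun w _ j => by
      set X := B.X ⟨B.s - 1 - j, by omega⟩
      have c1 := quart _ ▸ hO pl X S _ 1 _ _ _ g (equ hB n0 (by omega) _) (hr.Kn_open 2)
        (hr.Kn_normal 2) le_rfl (hr.Kn_uns 2) (by linarith [hB.fam.lS, hB.fam.L_nonneg])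
        ((Am_zero ((hr.Kn 1).pow_mem g1 _)).1 ((Am_pow hr g1 _).trans (two_M _)))
      simp only [mass, if_true, h2, one_mul]
      let F : ℕ → N → ℝ := fun x e => if Cmp r H e₀ (w (pl.σ x)) (pl.σ x) e
          then (hq r H (pl.σ x) : ℝ)⁻¹ else 0
      rw [sum_congr rfl fun y _ => by
        rw [← Fintype.piFinset_univ, ← prod_univ_sum _ fun i => F (y i)],
        ← prod_univ_sum (fun _ : Unit => X) fun _ x => ∑ e, F x e, Fintype.prod_unique,
        Fintype.prod_unique]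
      refine (sum_le_sum (g := fun x => 1 - if ∃ (h : GQ) (i : ℕ), Odd i ∧
        (h * g ^ i * h⁻¹)⁻¹ * pl.σ x ∈ hr.Kn 2 then 1 / 2 else 0) fun p _ => ?_).trans ?_
      · have c2 : (0 : ℝ) < hq r H (pl.σ p) := by exact_mod_cast Nat.card_pos
        rw [← sum_filter, sum_const, nsmul_eq_mul, ← div_eq_mul_inv, div_le_iff₀ c2,
          ← Set.ncard_coe_finset, coe_filter_univ]
        split_ifs with a
        · obtain ⟨h, i, ⟨i, rfl⟩, a⟩ := a
          have c3 := hr.tr_conj ((hr.Kn 1).pow_mem g1 (2 * i + 1)) h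
          have c4 := Tr.mono a one_le_two
          have c5 := Am_mul hr c3 c4
          rw [mul_inv_cancel_left, (Am_zero c4).2 a, add_zero, Am_conj hr ((hr.Kn 1).pow_mem g1 _),
            Am_pow hr g1, succ_nsmul, mul_nsmul, two_M, nsmul_zero, zero_add] at c5
          have c6 := cmp_half (e₀ := e₀) (w := w (pl.σ p)) hr
            (mul_inv_cancel_left _ (pl.σ p) ▸ hr.tr_mul c3 c4) ((h1 h).2 x x1) fun b => x2 (by
              have := (h1 h⁻¹).2 _ b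
              rwa [c5, ← dg_mul, ← dg_mul, ← mul_assoc, ← mul_assoc, ← hr.rb_mul, mul_assoc,
                mul_assoc, ← hr.rb_mul, inv_mul_cancel, rb_one, one_mul, mul_one] at this)
          have c7 := (Nat.cast_le (α := ℝ)).2 c6
          push_cast at c7
          linarith
        · simpa [h2] using hw.le H e₀ (w (pl.σ p)) (pl.σ p) h1
      · rw [sum_sub_distrib, ← sum_filter, sum_const, sum_const, nsmul_eq_mul, nsmul_eq_mul]
        push_cast
        rw [show (1 / (4 * (2 * (hr.Kn 2).index)) : ℝ) = 1 / (4 * (hr.Kn 2).index) / 2 by ring]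
        linarith
  refine le_trans (Nat.cast_le.2 ?_) (f2.trans (mul_le_mul_of_nonneg_right ?_ (Nat.cast_nonneg _)))
  · rw [← Set.ncard_coe_finset]
    refine (Set.ncard_le_ncard ?_ (f1.image Prod.fst)).trans (Set.ncard_image_le f1)
    intro y hy
    obtain ⟨a, Φ, b⟩ := mem_filter.1 (mem_coe.1 hy)
    exact ⟨(y, Φ), ⟨a, b, by simp [wt, h2], fun _ => trivial⟩, rfl⟩
  · rw [le_div_iff₀ (by positivity)] at k2
    nlinarith [le_abs_self C, pow_nonneg k3 n]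

end Vale.Agent.P004S
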