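import Vale.Agent.P004S.Lat

/-!
# P004, block SMITH, row TOP: the three cases of the residual representation
-/

set_option linter.all false

noncomputable section

namespace Vale.Agent.P004S

open NumberField Matrix Filter Topology Finset
open Vale.Agent.P022 (Qb GQ IsConj Irred UnrAt IsFrob)
open Vale.Agent.P027M.S (Inert)
open Vale.Agent.P022D.W (dec)
open Vale.Agent.P022E.GW (Ov Fb Gn Ch)

namespace Tp

open Ms

variable {r r' : Rp} {S : Finset ℕ} {Λ : Loc r} {Λ' : Loc r'} {u : GL (Fin 2) ℚ_[2]}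

theorem sel_congr {d e : ℤ} (h : nu d = nu e) {c : GQ → V} (k : Sel r Λ d c) : Sel r Λ e c := by
  have a : ac r d = ac r e := funext fun g => funext (ac_congr r (congrFun h g))
  have b := Λ.dep d e fun g _ => congrFun h g
  simpa only [Sel, Z1, B1, a, b] using k

theorem two_sq (d e : ℤ) (hd : d ≠ 0) (he : e ≠ 0) (k : Two r Λ (d * e ^ 2)) : Two r Λ d := by
  have h : nu (d * e ^ 2) = nu d := funext (nu_mul_sq hd he)
  have a : ac r (d * e ^ 2) = ac r d := funext fun g => funext (ac_congr r (congrFun h g))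
  obtain ⟨c, c', h1, h2, h3⟩ := k
  exact ⟨c, c', sel_congr h h1, sel_congr h h2, by simpa only [B1, a] using h3⟩

theorem ex_congr (h : rb r = rb r') (k : Ex r S) : Ex r' S := by
  simpa only [Ex, Zb, h] using k

theorem wt_one (pl : Pl) (d : ℤ) : wt S pl (fun _ => 1) d ≤ 1 := by simp [wt]

/-- all rows which are used -/
structure Rows : Prop where
  pl : PL
  cyc : CYC
  exi : EXI
  pnt : PNT
  box : BOX
  ocp : OCP
  uu : UU
  mas : MAS
  lat : LAT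
  wt1 : WT1
  wt3 : WT3
  chg : CHG
  gen1 : GEN1
  gen2 : GEN2
  gen3 : GEN3

theorem case1 (R : Rows) (Λ : Loc r) (h : Rep r S) (hi : IrB r) : Null (Two r Λ) := by
  obtain ⟨pl⟩ := R.pl
  obtain ⟨S', hS⟩ := R.exi r S h
  have h' := h.mono (subset_union_left (s₂ := S'))
  have D : Dat r (S ∪ S') := ⟨h', R.cyc r S h, hS _ subset_union_right⟩
  obtain ⟨U, u1, u2, u3, hU⟩ := R.gen1 r _ Λ pl h' hi
  refine R.box R.pnt pl (S ∪ S') _ two_sq ((((R.uu r _ pl h').or (R.ocp pl _ U u1 u2 u3)).or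
    (R.lat r _ Λ pl _ D (R.wt1 r S h (Or.inl hi)) 1)).mono (by simp) 0 fun B hB y hy k => ?_)
  by_cases a : Ub r (S ∪ S') pl B.m y
  · exact Or.inl (Or.inl a)
  by_cases b : Occ pl U y
  · exact Or.inr ⟨fun _ => wt_one pl _, hU _ _ _ _ y hB.fam hy k a b⟩
  · exact Or.inl (Or.inr b)

theorem case2 (R : Rows) (Λ : Loc r) (h : Rep r S) (ht : TrB r) : Null (Two r Λ) := by
  obtain ⟨pl⟩ := R.pl
  obtain ⟨S', hS⟩ := R.exi r S h
  have h' := h.mono (subset_union_left (s₂ := S'))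
  obtain ⟨n, ρ, L, U, hρ, u1, u2, u3, hU⟩ := R.gen2 r _ Λ pl h' ht
  have D : ∀ j, Dat (ρ j) (S ∪ S') := fun j => ⟨(hρ j).1, R.cyc _ _ (hρ j).1,
    ex_congr (funext fun g => (ht g).trans ((hρ j).2 g).symm) (hS _ subset_union_right)⟩
  refine R.box R.pnt pl (S ∪ S') _ two_sq
    ((((Few.ex univ fun j _ => R.uu (ρ j) _ pl (hρ j).1).or (R.ocp pl _ U u1 u2 u3)).or
    (Few.ex univ fun j _ => R.lat (ρ j) _ (L j) pl _ (D j)
      (R.wt1 _ _ (hρ j).1 (Or.inr (hρ j).2)) 1)).mono (by simp) 0 fun B hB y hy k => ?_)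
  by_cases a : ∃ j, Ub (ρ j) (S ∪ S') pl B.m y
  · exact Or.inl (Or.inl (a.imp fun j hj => ⟨mem_univ _, hj⟩))
  by_cases b : Occ pl U y
  · exact Or.inr ((hU _ _ _ _ y hB.fam hy k (not_exists.1 a) b).imp fun j hj =>
      ⟨mem_univ _, fun _ => wt_one pl _, hj⟩)
  · exact Or.inl (Or.inr b)

/-! ### the neighbour lattice -/

theorem ex_nb : ∃ u : GL (Fin 2) ℚ_[2], (u : Matrix _ _ ℚ_[2]) = nb :=
  ⟨GeneralLinearGroup.mkOfDetNeZero nb (by simp [nb, det_fin_two]), rfl⟩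

theorem nb_ent (hu : (u : Matrix _ _ ℚ_[2]) = nb) (h : ∀ g, r' g = u⁻¹ * r g * u) (g : GQ) :
    mt r' g 0 0 = mt r g 1 1 ∧ mt r' g 0 1 = mt r g 1 0 / 2 ∧ mt r' g 1 0 = 2 * mt r g 0 1 ∧
      mt r' g 1 1 = mt r g 0 0 := by
  have e : nb * mt r' g = mt r g * nb := by
    rw [← hu, mt, mt, ← Units.val_mul, ← Units.val_mul, h, mul_assoc, mul_inv_cancel_left]
  have a := congrFun (congrFun e 0) 0
  have b := congrFun (congrFun e 0) 1
  have c := congrFun (congrFun e 1) 0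
  have d := congrFun (congrFun e 1) 1
  simp only [nb, mul_apply, Fin.sum_univ_two, of_apply, cons_val', cons_val_zero, cons_val_one,
    cons_val_fin_one] at a b c d
  exact ⟨by linear_combination c / 2, by linear_combination d / 2, by linear_combination a,
    by linear_combination b⟩

theorem nb_low (h : Rep r S) (hu : (u : Matrix _ _ ℚ_[2]) = nb) (k : ∀ g, r' g = u⁻¹ * r g * u)
    (g : GQ) : ‖mt r' g 1 0‖ ≤ 1 / 2 := by
  rw [(nb_ent hu k g).2.2.1, norm_mul, norm_two]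
  have := h.int g 0 1
  linarith

theorem nb_int (h : Rep r S) (hl : ∀ g, rb r g 1 0 = 0) (hu : (u : Matrix _ _ ℚ_[2]) = nb)
    (k : ∀ g, r' g = u⁻¹ * r g * u) (g : GQ) (i j : Fin 2) : ‖mt r' g i j‖ ≤ 1 := by
  obtain ⟨a, b, c, d⟩ := nb_ent hu k g
  fin_cases i <;> fin_cases j
  · exact a ▸ h.int g 1 1
  · have : ‖mt r g 1 0‖ ≤ 1 / 2 := rd_eq_zero.1 (hl g)
    show ‖mt r' g 0 1‖ ≤ 1
    rw [b, norm_div, norm_two]
    linarith
  · exact (nb_low h hu k g).trans (by norm_num)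
  · exact d ▸ h.int g 0 0

theorem nb_half (hu : (u : Matrix _ _ ℚ_[2]) = nb) (k : ∀ g, r' g = u⁻¹ * r g * u) (g : GQ) :
    rd (mt r' g 1 0 / 2) = rb r g 0 1 ∧ rb r' g 0 1 = rd (mt r g 1 0 / 2) := by
  obtain ⟨-, b, c, -⟩ := nb_ent hu k g
  exact ⟨by rw [c, mul_div_cancel_left₀ _ two_ne_zero]; rfl, congrArg rd b⟩

theorem nb_uni (h : Rep r S) (hU : Uni r) (hu : (u : Matrix _ _ ℚ_[2]) = nb)
    (k : ∀ g, r' g = u⁻¹ * r g * u) : Uni r' :=
  ⟨fun g => rd_eq_zero.2 (nb_low h hu k g), hU.dn.imp fun g a => (nb_half hu k g).2 ▸ a,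
    hU.up.imp fun g a => (nb_half hu k g).1 ▸ a⟩

theorem nb_stp (hu : (u : Matrix _ _ ℚ_[2]) = nb) (k : ∀ g, r' g = u⁻¹ * r g * u) (g : GQ) :
    stp r' g = -stp r g := by
  rw [stp, stp, (nb_half hu k g).1, (nb_half hu k g).2, neg_sub]

theorem nb_nb {r'' : Rp} (hu : (u : Matrix _ _ ℚ_[2]) = nb) (k : ∀ g, r' g = u⁻¹ * r g * u)
    (k' : ∀ g, r'' g = u⁻¹ * r' g * u) : r'' = r := by
  refine MonoidHom.ext fun g => Units.ext (?_ : mt r'' g = mt r g)
  obtain ⟨a, b, c, d⟩ := nb_ent hu k g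
  obtain ⟨a', b', c', d'⟩ := nb_ent hu k' g
  ext i j
  fin_cases i <;> fin_cases j
  · exact a'.trans d
  · exact b'.trans (by rw [c, mul_div_cancel_left₀ _ two_ne_zero]; rfl)
  · exact c'.trans (by rw [b, mul_div_cancel₀ _ two_ne_zero]; rfl)
  · exact d'.trans a

theorem trb_of (h : Rep r S) (h1 : ∀ g, rb r g 1 0 = 0) (h2 : ∀ g, rb r g 0 1 = 0) : TrB r := by
  intro g
  have := h.wp_rb g (Pi.single 0 1) (Pi.single 1 1)
  simp only [wp, mulVec_single_one, col_apply, h1, h2] at this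
  ext i j
  fin_cases i <;> fin_cases j
  · rcases z2 (rb r g 0 0) with a | a
    · simp [a] at this
    · exact a
  · exact h2 g
  · exact h1 g
  · rcases z2 (rb r g 1 1) with a | a
    · simp [a] at this
    · exact a

/-! ### the walk -/

/-- the Tamagawa walk -/
def wk (r : Rp) (S : Finset ℕ) (pl : Pl) (d : ℤ) : ℤ := ∑ q ∈ pf S d, stp r (pl.σ q)

theorem prod_zpow {ι : Type} (T : Finset ι) (f : ι → ℤ) :
    ∏ i ∈ T, (2 : ℝ) ^ f i = 2 ^ ∑ i ∈ T, f i := by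
  classical
  induction T using Finset.induction_on with
  | empty => simp
  | insert a T ha ih => rw [prod_insert ha, sum_insert ha, ih, zpow_add₀ two_ne_zero]

theorem wt_gam (pl : Pl) (H : Submodule (ZMod 2) N) (d : ℤ) :
    wt S pl (gam r H) d = 2 ^ ((kap H : ℤ) * wk r S pl d) := by
  simp only [wt, gam, wk, prod_zpow, mul_sum]

theorem kap_le (H : Submodule (ZMod 2) N) : kap H ≤ 16 :=
  (Nat.sub_le _ _).trans ((Nat.log_le_self _ _).trans
    ((Nat.card_le_card_of_injective _ Subtype.val_injective).trans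
      (by rw [Nat.card_eq_fintype_card, card_N])))

theorem wt_le (pl : Pl) (H : Submodule (ZMod 2) N) {d : ℤ} {b : ℕ} (h : wk r S pl d ≤ b) :
    wt S pl (gam r H) d ≤ 2 ^ (16 * (b : ℤ)) := by
  rw [wt_gam]
  refine zpow_le_zpow_right₀ one_le_two ((mul_le_mul_of_nonneg_left h (Nat.cast_nonneg _)).trans
    (mul_le_mul_of_nonneg_right (by exact_mod_cast kap_le H) (Nat.cast_nonneg _)))

theorem wt_small (pl : Pl) {H : Submodule (ZMod 2) N} (hH : 1 ≤ kap H) {d : ℤ} {b : ℕ}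
    (h : wk r S pl d ≤ -b) : wt S pl (gam r H) d ≤ (1 / 2) ^ b := by
  rw [wt_gam, one_div, inv_pow, ← zpow_natCast, ← _root_.zpow_neg]
  refine zpow_le_zpow_right₀ one_le_two ?_
  have : (1 : ℤ) ≤ kap H := by exact_mod_cast hH
  have : (0 : ℤ) ≤ b := Nat.cast_nonneg _
  nlinarith

theorem half3 (R : Rows) (pl : Pl) (D : Dat r S) (D' : Dat r' S) (hU : Uni r)
    (hu : (u : Matrix _ _ ℚ_[2]) = nb) (c : Chg r Λ r' Λ' u) :
    Few pl S 0 fun B y => Two r Λ (dd B.m y) ∧ wk r S pl (dd B.m y) ≤ 0 := by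
  have W := R.wt3 r S D.rep hU
  have W' := R.wt3 r' S D'.rep (nb_uni D.rep hU hu c.1)
  obtain ⟨U, u1, u2, u3, hG⟩ := R.gen3 r r' S Λ Λ' pl u D.rep D'.rep hU hu c
  obtain ⟨C, c0, hC⟩ := few_wt R.mas pl D W
  refine Few.of_small fun θ hθ => ?_
  obtain ⟨b, hb⟩ := exists_pow_lt_of_lt_one (show 0 < θ / (C + 1) by positivity)
    (show (1 / 2 : ℝ) < 1 by norm_num)
  rw [lt_div_iff₀ (by positivity)] at hb
  have p : (0 : ℝ) ≤ (1 / 2) ^ b := by positivity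
  refine ((((R.uu r S pl D.rep).or (R.uu r' S pl D'.rep)).or (R.ocp pl S U u1 u2 u3)).or
    (((R.lat r S Λ pl _ D W (2 ^ (16 * ((0 : ℕ) : ℤ)))).or
      (R.lat r' S Λ' pl _ D' W' (2 ^ (16 * (b : ℤ))))).or (hC _ p))).mono (by linarith) 0 ?_
  rintro B hB y hy ⟨k, w⟩
  by_cases a : Ub r S pl B.m y
  · exact Or.inl (Or.inl (Or.inl a))
  by_cases a' : Ub r' S pl B.m y
  · exact Or.inl (Or.inl (Or.inr a'))
  by_cases o : Occ pl U y
  swap
  · exact Or.inl (Or.inr o)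
  rcases hG _ _ _ _ y hB.fam hy k a a' o with g | ⟨⟨H, e₀, Φ, g1, g2⟩, g⟩
  · exact Or.inr (Or.inl (Or.inl ⟨fun H => wt_le pl H w, g⟩))
  by_cases l : wk r S pl (dd B.m y) ≤ -b
  · exact Or.inr (Or.inr ⟨H, e₀, Φ, g1, wt_small pl g2 l⟩)
  · refine Or.inr (Or.inl (Or.inr ⟨fun H => wt_le pl H ?_, g⟩))
    simp only [wk, nb_stp hu c.1, sum_neg_distrib] at l ⊢
    omega

theorem case3 (R : Rows) (Λ : Loc r) (h : Rep r S) (hU : Uni r) : Null (Two r Λ) := by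
  obtain ⟨pl⟩ := R.pl
  obtain ⟨u, hu⟩ := ex_nb
  obtain ⟨r', Λ', c, t, k⟩ := R.chg r Λ u
  have h' := k S h (nb_int h hU.low hu c.1)
  obtain ⟨r'', Λ'', c', -, -⟩ := R.chg r' Λ' u
  obtain rfl := nb_nb hu c.1 c'.1
  obtain ⟨T, hT⟩ := R.exi _ S h
  obtain ⟨T', hT'⟩ := R.exi _ S h'
  have D : Dat r'' (S ∪ (T ∪ T')) := ⟨h.mono subset_union_left, R.cyc _ S h,
    hT _ (subset_union_left.trans subset_union_right)⟩
  have D' : Dat r' (S ∪ (T ∪ T')) := ⟨h'.mono subset_union_left, R.cyc _ S h',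
    hT' _ (subset_union_right.trans subset_union_right)⟩
  refine R.box R.pnt pl _ _ two_sq (((half3 R pl D D' hU hu c).or
    (half3 R pl D' D (nb_uni h hU hu c.1) hu c')).mono (by simp) 0 fun B hB y hy a => ?_)
  by_cases l : wk r'' (S ∪ (T ∪ T')) pl (dd B.m y) ≤ 0
  · exact Or.inl ⟨a, l⟩
  · refine Or.inr ⟨(t _).1 a, ?_⟩
    simp only [wk, nb_stp hu c.1, sum_neg_distrib] at l ⊢
    omega

theorem low (R : Rows) (Λ : Loc r) (h : Rep r S) (hl : ∀ g, rb r g 1 0 = 0) : Null (Two r Λ) := by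
  by_cases a : ∃ g, rb r g 0 1 ≠ 0
  swap
  · exact case2 R Λ h (trb_of h hl fun g => not_not.1 (not_exists.1 a g))
  by_cases b : ∃ g, rd (mt r g 1 0 / 2) ≠ 0
  · exact case3 R Λ h ⟨hl, a, b⟩
  obtain ⟨u, hu⟩ := ex_nb
  obtain ⟨r', Λ', c, t, k⟩ := R.chg r Λ u
  have h' := k S h (nb_int h hl hu c.1)
  rw [show Two r Λ = Two r' Λ' from funext fun d => propext (t d)]
  exact case2 R Λ' h' (trb_of h' (fun g => rd_eq_zero.2 (nb_low h hu c.1 g))
    fun g => (nb_half hu c.1 g).2.trans (not_not.1 (not_exists.1 b g)))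

/-- an integral basis with a given first vector modulo `2` -/
theorem ex_basis {v : W} (hv : v ≠ 0) : ∃ u : GL (Fin 2) ℚ_[2], (∀ i j, ‖u.1 i j‖ ≤ 1) ∧
    (∀ i j, ‖u⁻¹.1 i j‖ ≤ 1) ∧ rv (u.1 *ᵥ Pi.single 0 1) = v := by
  have e : ∀ a b : ℚ_[2], rv ![a, b] = ![rd a, rd b] := fun a b => by
    funext i; fin_cases i <;> rfl
  have : v = ![1, 0] ∨ v = ![0, 1] ∨ v = ![1, 1] := by revert v; decide
  rcases this with rfl | rfl | rfl
  · refine ⟨1, fun i j => ?_, fun i j => ?_, ?_⟩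
    · fin_cases i <;> fin_cases j <;> simp
    · fin_cases i <;> fin_cases j <;> simp
    · rw [← rd_one, ← rd_zero, ← e]; congr 1; funext i; fin_cases i <;> simp
  · refine ⟨⟨!![0, 1; 1, 0], !![0, 1; 1, 0], by simp [← one_fin_two], by simp [← one_fin_two]⟩,
      fun i j => ?_, fun i j => ?_, ?_⟩
    · fin_cases i <;> fin_cases j <;> simp
    · rw [Units.inv_mk]; fin_cases i <;> fin_cases j <;> simp
    · rw [← rd_one, ← rd_zero, ← e]; congr 1; funext i; fin_cases i <;> simp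
  · refine ⟨⟨!![1, 0; 1, 1], !![1, 0; -1, 1], by simp [← one_fin_two], by simp [← one_fin_two]⟩,
      fun i j => ?_, fun i j => ?_, ?_⟩
    · fin_cases i <;> fin_cases j <;> simp
    · rw [Units.inv_mk]; fin_cases i <;> fin_cases j <;> simp
    · rw [← rd_one, ← e]; congr 1; funext i; fin_cases i <;> simp

theorem mul_int {A B : Matrix (Fin 2) (Fin 2) ℚ_[2]} (hA : ∀ i j, ‖A i j‖ ≤ 1)
    (hB : ∀ i j, ‖B i j‖ ≤ 1) (i j : Fin 2) : ‖(A * B) i j‖ ≤ 1 := by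
  rw [mul_apply, Fin.sum_univ_two]
  refine norm_add_le' ?_ ?_ <;> rw [norm_mul] <;>
    exact mul_le_one₀ (hA _ _) (norm_nonneg _) (hB _ _)

theorem all (R : Rows) : SMITH := by
  intro r S Λ h
  by_cases hi : IrB r
  · exact case1 R Λ h hi
  obtain ⟨v, hv⟩ := not_forall.1 hi
  obtain ⟨v0, hv⟩ := Classical.not_imp.1 hv
  obtain ⟨u, u1, u2, u3⟩ := ex_basis v0
  obtain ⟨r', Λ', c, t, k⟩ := R.chg r Λ u
  have e : ∀ g, mt r' g = u⁻¹.1 * mt r g * u.1 := fun g => by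
    rw [mt, c.1, Units.val_mul, Units.val_mul, mt]
  have h' := k S h fun g => e g ▸ mul_int (mul_int u2 (h.int g)) u1
  rw [show Two r Λ = Two r' Λ' from funext fun d => propext (t d)]
  refine low R Λ' h' fun g => rd_eq_zero.2 ?_
  have n1 : ‖u.1 *ᵥ Pi.single 0 1‖ ≤ 1 := by
    simpa [Pi.norm_single] using norm_mulVec_le u1 (Pi.single 0 1)
  have n2 : ‖mt r g *ᵥ u.1 *ᵥ Pi.single 0 1 - u.1 *ᵥ Pi.single 0 1‖ ≤ 1 / 2 :=
    (rv_eq_iff ((h.norm_mt _ _).trans n1) n1).1 (by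
      rw [h.rv_mt g n1, u3]; exact not_not.1 (not_exists.1 hv g))
  have n3 := norm_co ((norm_mulVec_le u2 _).trans ((one_mul _).trans_le n2)) 1
  rw [mulVec_sub, mulVec_mulVec, mulVec_mulVec, mulVec_mulVec, ← e, Units.inv_mul] at n3
  simpa using n3

end Tp

theorem top : TOP := fun a b c d e f g h i j k l m n o =>
  Tp.all ⟨a, b, c, d, e, f, g, h, i, j, k, l, m, n, o⟩

end Vale.Agent.P004S
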