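import Vale.Agent.P004S.Pnt
import Vale.Agent.P004S.Rec
import Vale.Agent.P004S.Lt
import Vale.Agent.P004S.Gal2
import Vale.Agent.P004S.Bx
import Vale.Agent.P004S.Hf3
import Vale.Agent.P004S.Hf1
import Vale.Agent.P004S.Fm
import Vale.Agent.P004S.Mas
import Vale.Agent.P004S.Lat
import Vale.Agent.P004S.Top
import Vale.Agent.P004S.Thin
import Vale.Agent.P004S.Occ
import Vale.Agent.P004S.Cls
import Vale.Agent.P004S.Wt
import Vale.Agent.P004S.Chg
import Vale.Agent.P004S.Cnz
import Vale.Agent.P004S.Lv.Lev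

/-!
# P004, block SMITH: all rows but the generic pairs
-/

set_option linter.all false

namespace Vale.Agent.P004S

theorem mas1 : MAS := mas lt cnt cnz occ (fm lt cnt locf cnz rec0)

theorem lat1 : LAT := ilat cnt cnz (iuu cnt) (cls lt) mas1 (ithin occ mas1)
  (rare mas1 (ihalf lt qr cnt cnz occ mas1 (Lv.lev lt ut qr onek)))

theorem smith0 : GEN1 → GEN2 → GEN3 → SMITH :=
  top pl_ex cyc_ep exi pnt box (iocp occ) (iuu cnt) mas1 lat1 wt1 wt3 chg

end Vale.Agent.P004S
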