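import Mathlib.Algebra.Order.BigOperators.Expect
import Mathlib.Data.Real.Basic
import Mathlib.Data.Finset.Piecewise
import Mathlib.Data.Fintype.Pi
import Mathlib.Algebra.BigOperators.Group.Finset.Powerset
import Mathlib.Algebra.Order.BigOperators.Ring.Finset
import Mathlib.Tactic.Linarith
import Mathlib.Tactic.Positivity
import Mathlib.Tactic.Ring

/-!
P004, block SMITH: the box norm inequality (repeated Cauchy-Schwarz).
-/

set_option linter.all false

open Finset Function
open scoped BigOperators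

namespace Vale.Agent.P004S.Bx

theorem sq_ex {X : Type*} [Fintype X] [Nonempty X] (f : X → ℝ) :
    (𝔼 x, f x) ^ 2 ≤ 𝔼 x, f x ^ 2 := by
  have h := expect_mul_sq_le_sq_mul_sq univ f (fun _ => (1 : ℝ))
  simpa using h

theorem pow_ex {X : Type*} [Fintype X] [Nonempty X] (n : ℕ) : ∀ f : X → ℝ,
    (𝔼 x, f x) ^ 2 ^ n ≤ 𝔼 x, f x ^ 2 ^ n := by
  induction n with
  | zero => intro f; simp
  | succ n ih =>
    intro f
    rw [pow_succ' 2 n, pow_mul]
    refine (pow_le_pow_left₀ (sq_nonneg _) (sq_ex f) _).trans ((ih _).trans (le_of_eq ?_))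
    simp only [pow_mul]

variable {κ : Type*} [Fintype κ] [DecidableEq κ] {Z : κ → Type*} [∀ i, Fintype (Z i)]
  [∀ i, Nonempty (Z i)]

/-- resampling one coordinate -/
theorem ex_update (a : κ) (F : (∀ i, Z i) → ℝ) :
    𝔼 x : ∀ i, Z i, 𝔼 u : Z a, F (update x a u) = 𝔼 x, F x := by
  have h1 : 𝔼 x : ∀ i, Z i, 𝔼 u : Z a, F (update x a u) =
      𝔼 p : (∀ i, Z i) × Z a, F (update p.1 a p.2) := by
    rw [← univ_product_univ, expect_product]
  have h2 : 𝔼 x, F x = 𝔼 p : (∀ i, Z i) × Z a, F p.1 := by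
    rw [← univ_product_univ, expect_product]
    simp only [Fintype.expect_const]
  rw [h1, h2]
  let e : (∀ i, Z i) × Z a ≃ (∀ i, Z i) × Z a :=
    { toFun := fun p => (update p.1 a p.2, p.1 a)
      invFun := fun p => (update p.1 a p.2, p.1 a)
      left_inv := fun p => by simp
      right_inv := fun p => by simp }
  exact Fintype.expect_equiv e _ _ fun p => rfl

/-- one Cauchy-Schwarz step -/
theorem step (a : κ) (F g : (∀ i, Z i) → ℝ) (h1 : ∀ x, |g x| ≤ 1)
    (h2 : ∀ x u, g (update x a u) = g x) :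
    (𝔼 x, F x * g x) ^ 2 ≤ 𝔼 u : Z a, 𝔼 x : ∀ i, Z i, F x * F (update x a u) := by
  have e1 : 𝔼 x, F x * g x = 𝔼 x : ∀ i, Z i, (𝔼 u : Z a, F (update x a u)) * g x := by
    rw [← ex_update a fun x => F x * g x]
    refine expect_congr rfl fun x _ => ?_
    rw [expect_mul]
    exact expect_congr rfl fun u _ => by rw [h2]
  have e2 : 𝔼 u : Z a, 𝔼 x : ∀ i, Z i, F x * F (update x a u) =
      𝔼 x : ∀ i, Z i, (𝔼 u : Z a, F (update x a u)) ^ 2 := by
    rw [expect_comm, ← ex_update a fun x => 𝔼 u : Z a, F x * F (update x a u)]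
    refine expect_congr rfl fun x _ => ?_
    rw [sq, Finset.expect_mul_expect]
    simp only [update_idem]
  rw [e1, e2]
  refine (sq_ex _).trans (expect_le_expect fun x _ => ?_)
  rw [mul_pow]
  have h3 : g x ^ 2 ≤ 1 := by
    have := h1 x
    rw [← sq_abs]
    exact pow_le_one₀ (abs_nonneg _) this
  exact mul_le_of_le_one_right (sq_nonneg _) h3

/-- the box average of `H` in the directions `S` -/
noncomputable def box (S : Finset κ) (H : (∀ i, Z i) → ℝ) : ℝ :=
  𝔼 y : ∀ i, Z i, 𝔼 x : ∀ i, Z i, ∏ s ∈ S.powerset, H (s.piecewise y x)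

theorem pw_update {s : Finset κ} {a : κ} (ha : a ∉ s) (x y : ∀ i, Z i) (u : Z a) :
    s.piecewise (update y a u) x = s.piecewise y x := by
  funext i
  by_cases hi : i ∈ s
  · have : i ≠ a := fun h => ha (h ▸ hi)
    simp [piecewise, hi, update_of_ne this]
  · simp [piecewise, hi]

theorem pw_insert {s : Finset κ} {a : κ} (ha : a ∉ s) (x y : ∀ i, Z i) (u : Z a) :
    (insert a s).piecewise (update y a u) x = update (s.piecewise y x) a u := by
  rw [piecewise_insert, pw_update ha, update_self]

theorem box_insert {S : Finset κ} {a : κ} (ha : a ∉ S) (H : (∀ i, Z i) → ℝ) :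
    box (insert a S) H = 𝔼 u : Z a, box S fun x => H x * H (update x a u) := by
  unfold box
  rw [← ex_update a, expect_comm]
  refine expect_congr rfl fun u _ => expect_congr rfl fun y _ => expect_congr rfl fun x _ => ?_
  rw [prod_powerset_insert ha, prod_mul_distrib]
  congr 1 <;> refine prod_congr rfl fun s hs => ?_
  · rw [pw_update fun h => ha (mem_powerset.1 hs h)]
  · rw [pw_insert fun h => ha (mem_powerset.1 hs h)]

/-- **Box norm inequality.** -/
theorem gcs (S : Finset κ) : ∀ (H : (∀ i, Z i) → ℝ) (f : κ → (∀ i, Z i) → ℝ),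
    (∀ i x, |f i x| ≤ 1) → (∀ i ∈ S, ∀ x u, f i (update x i u) = f i x) →
    (𝔼 x, H x * ∏ i ∈ S, f i x) ^ 2 ^ S.card ≤ box S H := by
  induction S using Finset.induction_on with
  | empty =>
    intro H f _ _
    simp [box]
  | insert a S ha ih =>
    intro H f h1 h2
    have k1 := step a (fun x => H x * ∏ i ∈ S, f i x) (f a) (h1 a) (h2 a (mem_insert_self a S))
    have k2 : ∀ u : Z a, (𝔼 x : ∀ i, Z i, (H x * ∏ i ∈ S, f i x) *
        (H (update x a u) * ∏ i ∈ S, f i (update x a u))) ^ 2 ^ S.card ≤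
        box S fun x => H x * H (update x a u) := by
      intro u
      have := ih (fun x => H x * H (update x a u)) (fun i x => f i x * f i (update x a u))
        (fun i x => by
          rw [abs_mul]
          exact mul_le_one₀ (h1 i x) (abs_nonneg _) (h1 i _))
        (fun i hi x v => by
          have hia : i ≠ a := fun h => ha (h ▸ hi)
          rw [h2 i (mem_insert_of_mem hi), update_comm hia, h2 i (mem_insert_of_mem hi)])
      refine le_trans (le_of_eq ?_) this
      congr 1
      refine expect_congr rfl fun x _ => ?_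
      rw [prod_mul_distrib]
      ring
    rw [card_insert_of_notMem ha, pow_succ' 2, pow_mul, box_insert ha]
    have e : 𝔼 x, H x * ∏ i ∈ insert a S, f i x =
        𝔼 x, (H x * ∏ i ∈ S, f i x) * f a x :=
      expect_congr rfl fun x _ => by rw [prod_insert ha]; ring
    rw [e]
    refine (pow_le_pow_left₀ (sq_nonneg _) k1 _).trans ?_
    exact (pow_ex _ _).trans (expect_le_expect fun u _ => k2 u)

/-- a set of density `d` contains a fraction `d ^ 2 ^ m` of all cubes -/
theorem cubes (H : (∀ i, Z i) → ℝ) : (𝔼 x, H x) ^ 2 ^ Fintype.card κ ≤ box univ H := by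
  simpa using gcs univ H (fun _ _ => 1) (by simp) (by simp)

/-- the box norm in all directions but `b`; the direction `b` is averaged inside -/
theorem gcs_b (b : κ) (H : (∀ i, Z i) → ℝ) (f : κ → (∀ i, Z i) → ℝ)
    (h1 : ∀ i x, |f i x| ≤ 1) (h2 : ∀ i x u, f i (update x i u) = f i x) :
    (𝔼 x, H x * ∏ i, f i x) ^ 2 ^ (univ.erase b).card ≤
      𝔼 y : ∀ i, Z i, 𝔼 x : ∀ i, Z i,
        |𝔼 u : Z b, ∏ s ∈ (univ.erase b).powerset, H (update (s.piecewise y x) b u)| := by
  have k := gcs (univ.erase b) (fun x => H x * f b x) f h1 fun i _ => h2 i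
  have e : 𝔼 x, H x * ∏ i, f i x = 𝔼 x, (H x * f b x) * ∏ i ∈ univ.erase b, f i x :=
    expect_congr rfl fun x _ => by rw [mul_assoc, mul_prod_erase _ (fun i => f i x) (mem_univ b)]
  rw [e]
  refine k.trans (expect_le_expect fun y _ => ?_)
  rw [← ex_update b]
  refine expect_le_expect fun x _ => ?_
  have e2 : ∀ u : Z b, ∀ s ∈ (univ.erase b).powerset,
      s.piecewise y (update x b u) = update (s.piecewise y x) b u := by
    intro u s hs
    have hb : b ∉ s := fun h => (notMem_erase b univ) (mem_powerset.1 hs h)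
    funext i
    by_cases hi : i = b
    · subst hi; simp [piecewise, hb]
    · by_cases hs' : i ∈ s <;> simp [piecewise, hs', update_of_ne hi]
  have e3 : 𝔼 u : Z b, ∏ s ∈ (univ.erase b).powerset,
      H (s.piecewise y (update x b u)) * f b (s.piecewise y (update x b u)) =
      (𝔼 u : Z b, ∏ s ∈ (univ.erase b).powerset, H (update (s.piecewise y x) b u)) *
        ∏ s ∈ (univ.erase b).powerset, f b (s.piecewise y x) := by
    rw [expect_mul]
    refine expect_congr rfl fun u _ => ?_
    rw [← prod_mul_distrib]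
    exact prod_congr rfl fun s hs => by rw [e2 u s hs, h2]
  rw [e3]
  refine (le_abs_self _).trans ?_
  rw [abs_mul]
  refine mul_le_of_le_one_right (abs_nonneg _) ?_
  rw [abs_prod]
  exact prod_le_one (fun _ _ => abs_nonneg _) fun _ _ => h1 _ _

end Vale.Agent.P004S.Bx
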