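import Vale.Agent.P004E.H185.Mer

/-!
# P004, block SMITH, row `BOX`: moments of the number of prime factors, the parameters
-/

set_option linter.all false

noncomputable section

namespace Vale.Agent.P004S.Bq

open Finset Filter

/-- the number of elements of `P` which divide `n` -/
def ff (P : Finset ℕ) (n : ℕ) : ℕ := (P.filter (· ∣ n)).card

/-- the sum of the reciprocals -/
def mu (P : Finset ℕ) : ℝ := ∑ p ∈ P, (1 : ℝ) / p

theorem mu_nonneg (P : Finset ℕ) : 0 ≤ mu P := sum_nonneg fun p _ => by positivity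

theorem cnt_le (N q : ℕ) : (((Ioc 0 N).filter (q ∣ ·)).card : ℝ) ≤ N * (1 / q) := by
  rw [Nat.Ioc_filter_dvd_card_eq_div, mul_one_div]
  exact Nat.cast_div_le

theorem cnt_ge (N : ℕ) {q : ℕ} (hq : 0 < q) :
    (N : ℝ) * (1 / q) - 1 ≤ ((Ioc 0 N).filter (q ∣ ·)).card := by
  rw [Nat.Ioc_filter_dvd_card_eq_div, mul_one_div, sub_le_iff_le_add,
    div_le_iff₀ (by exact_mod_cast hq)]
  have := Nat.lt_div_mul_add (a := N) hq
  have k : N ≤ (N / q + 1) * q := by rw [add_mul, one_mul]; exact this.le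
  exact_mod_cast k

theorem cnt_two (N : ℕ) {p q : ℕ} (hp : p.Prime) (hq : q.Prime) (h : p ≠ q) :
    (((Ioc 0 N).filter fun n => p ∣ n ∧ q ∣ n).card : ℝ) ≤ N * (1 / p * (1 / q)) := by
  have k := cnt_le N (p * q)
  rw [Nat.cast_mul, ← one_div_mul_one_div] at k
  refine le_trans (Nat.cast_le.2 (card_le_card fun n hn => ?_)) k
  rw [mem_filter] at hn ⊢
  exact ⟨hn.1, ((Nat.coprime_primes hp hq).2 h).mul_dvd_of_dvd_of_dvd hn.2.1 hn.2.2⟩

theorem ff_eq (P : Finset ℕ) (n : ℕ) : (ff P n : ℝ) = ∑ p ∈ P, if p ∣ n then 1 else 0 := by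
  simp [ff]

theorem sum_ff (N : ℕ) (P : Finset ℕ) :
    ∑ n ∈ Ioc 0 N, (ff P n : ℝ) = ∑ p ∈ P, (((Ioc 0 N).filter (p ∣ ·)).card : ℝ) := by
  simp only [ff_eq]
  rw [sum_comm]
  simp

theorem one_le (N : ℕ) (P : Finset ℕ) : ∑ n ∈ Ioc 0 N, (ff P n : ℝ) ≤ N * mu P := by
  rw [sum_ff, mu, mul_sum]
  exact sum_le_sum fun p _ => cnt_le N p

theorem one_ge (N : ℕ) {P : Finset ℕ} (hP : ∀ p ∈ P, p.Prime) :
    N * mu P - P.card ≤ ∑ n ∈ Ioc 0 N, (ff P n : ℝ) := by
  rw [sum_ff, mu, mul_sum, card_eq_sum_ones, Nat.cast_sum, ← sum_sub_distrib]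
  exact sum_le_sum fun p hp => by simpa using cnt_ge N (hP p hp).pos

theorem two_le (N : ℕ) {P : Finset ℕ} (hP : ∀ p ∈ P, p.Prime) :
    ∑ n ∈ Ioc 0 N, (ff P n : ℝ) ^ 2 ≤ N * mu P ^ 2 + N * mu P := by
  have e : ∑ n ∈ Ioc 0 N, (ff P n : ℝ) ^ 2 =
      ∑ p ∈ P, ∑ q ∈ P, (((Ioc 0 N).filter fun n => p ∣ n ∧ q ∣ n).card : ℝ) := by
    simp only [ff_eq, sq, sum_mul_sum]
    rw [sum_comm]
    refine sum_congr rfl fun p _ => ?_
    rw [sum_comm]
    refine sum_congr rfl fun q _ => ?_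
    rw [card_filter, Nat.cast_sum]
    refine sum_congr rfl fun n _ => ?_
    by_cases h1 : p ∣ n <;> by_cases h2 : q ∣ n <;> simp [h1, h2]
  rw [e, sq, mu, sum_mul_sum, mul_sum, mul_sum, ← sum_add_distrib]
  refine sum_le_sum fun p hp => ?_
  have k : (N : ℝ) * (1 / p) = ∑ q ∈ P, if p = q then (N : ℝ) * (1 / p) else 0 := by simp [hp]
  rw [k, mul_sum, ← sum_add_distrib]
  refine sum_le_sum fun q hq => ?_
  split_ifs with h
  · subst h
    simp only [and_self]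
    exact (cnt_le N p).trans (le_add_of_nonneg_left (by positivity))
  · simpa using cnt_two N (hP p hp) (hP q hq) h

/-- the variance -/
theorem turan (N : ℕ) {P : Finset ℕ} (hP : ∀ p ∈ P, p.Prime) (hN : P.card ≤ N) :
    ∑ n ∈ Ioc 0 N, ((ff P n : ℝ) - mu P) ^ 2 ≤ 3 * N * mu P := by
  have h1 := one_ge N hP
  have h2 := two_le N hP
  have h3 := mu_nonneg P
  have h4 : (P.card : ℝ) ≤ N := by exact_mod_cast hN
  have e : ∑ n ∈ Ioc 0 N, ((ff P n : ℝ) - mu P) ^ 2 = ∑ n ∈ Ioc 0 N, (ff P n : ℝ) ^ 2 -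
      2 * mu P * ∑ n ∈ Ioc 0 N, (ff P n : ℝ) + N * mu P ^ 2 := by
    simp only [sub_sq, sum_add_distrib, sum_sub_distrib, mul_sum, sum_const, Nat.card_Ioc]
    simp [mul_comm, mul_left_comm, mul_assoc]
  rw [e]
  nlinarith [mul_le_mul_of_nonneg_left h1 h3, mul_le_mul_of_nonneg_left h4 h3]

theorem markov {s : Finset ℕ} {f : ℕ → ℝ} (hf : ∀ n, 0 ≤ f n) (E : ℕ → Prop) [DecidablePred E]
    {a : ℝ} (h : ∀ n, E n → a ≤ f n) : (s.filter E).card * a ≤ ∑ n ∈ s, f n := by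
  rw [← nsmul_eq_mul]
  exact (card_nsmul_le_sum _ f a fun n hn => h n (mem_filter.1 hn).2).trans
    (sum_le_sum_of_subset_of_nonneg (filter_subset _ _) fun n _ _ => hf n)

theorem badT (N : ℕ) {P : Finset ℕ} (hP : ∀ p ∈ P, p.Prime) (hN : P.card ≤ N) {ε : ℝ}
    (h : 1 ≤ ε * mu P) :
    (((Ioc 0 N).filter fun n => ¬ (mu P / 2 ≤ ff P n ∧ ff P n ≤ 2 * mu P)).card : ℝ) ≤
      12 * ε * N := by
  have h3 := mu_nonneg P
  have h0 : 0 < mu P := h3.lt_of_ne fun e => by rw [← e] at h; norm_num at h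
  have k := (markov (s := Ioc 0 N) (fun n => sq_nonneg ((ff P n : ℝ) - mu P))
    (fun n => ¬ (mu P / 2 ≤ ff P n ∧ ff P n ≤ 2 * mu P)) (a := (mu P / 2) ^ 2) fun n hn => by
      rcases not_and_or.1 hn with e | e <;> nlinarith).trans (turan N hP hN)
  refine le_of_mul_le_mul_right (k.trans ?_) (by positivity : 0 < (mu P / 2) ^ 2)
  have : 0 ≤ (N : ℝ) * mu P := by positivity
  nlinarith [mul_le_mul_of_nonneg_left h this]

theorem badM (N : ℕ) (P : Finset ℕ) {ε : ℝ} (hε : 0 < ε) :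
    (((Ioc 0 N).filter fun n => ¬ (ff P n : ℝ) ≤ (mu P + 1) / ε).card : ℝ) ≤ ε * N := by
  have h3 := mu_nonneg P
  have k := (markov (s := Ioc 0 N) (fun n => Nat.cast_nonneg (ff P n))
    (fun n => ¬ (ff P n : ℝ) ≤ (mu P + 1) / ε) fun n hn => (not_le.1 hn).le).trans (one_le N P)
  refine le_of_mul_le_mul_right (k.trans ?_) (by positivity : 0 < (mu P + 1) / ε)
  have : ε * N * ((mu P + 1) / ε) = N * (mu P + 1) := by field_simp
  rw [this]
  exact mul_le_mul_of_nonneg_left (by linarith) (Nat.cast_nonneg _)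

open Classical in
theorem badP (N : ℕ) {P : Finset ℕ} (hP : ∀ p ∈ P, p.Prime) (ι : ℕ → ℕ) {η : ℝ}
    (h : ∀ p ∈ P, mu (P.filter fun q => ι q = ι p) ≤ η) :
    (((Ioc 0 N).filter fun n => ¬ Set.InjOn ι (P.filter (· ∣ n) : Finset ℕ)).card : ℝ) ≤
      N * (mu P * η) := by
  have k : ((Ioc 0 N).filter fun n => ¬ Set.InjOn ι (P.filter (· ∣ n) : Finset ℕ)) ⊆
      P.biUnion fun p => ((P.filter fun q => ι q = ι p).erase p).biUnion fun q =>
        (Ioc 0 N).filter fun n => p ∣ n ∧ q ∣ n := by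
    intro n hn
    rw [mem_filter, Set.InjOn] at hn
    push Not at hn
    obtain ⟨h0, p, hp, q, hq, e, ne⟩ := hn
    rw [mem_coe, mem_filter] at hp hq
    exact mem_biUnion.2 ⟨p, hp.1, mem_biUnion.2 ⟨q, mem_erase.2 ⟨ne.symm, mem_filter.2
      ⟨hq.1, e.symm⟩⟩, mem_filter.2 ⟨h0, hp.2, hq.2⟩⟩⟩
  refine (Nat.cast_le.2 ((card_le_card k).trans card_biUnion_le)).trans ?_
  rw [Nat.cast_sum, mu, sum_mul, mul_sum]
  refine sum_le_sum fun p hp => (Nat.cast_le.2 card_biUnion_le).trans ?_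
  rw [Nat.cast_sum]
  refine (sum_le_sum fun q hq => cnt_two N (hP p hp) (hP q (mem_filter.1 (mem_erase.1 hq).2).1)
    (mem_erase.1 hq).1.symm).trans ?_
  rw [← mul_sum, ← mul_sum]
  refine mul_le_mul_of_nonneg_left (mul_le_mul_of_nonneg_left (le_trans ?_ (h p hp))
    (by positivity)) (Nat.cast_nonneg _)
  exact sum_le_sum_of_subset_of_nonneg (erase_subset _ _) fun q _ _ => by positivity

/-- from integers to natural numbers -/
theorem cnt_abs (N : ℕ) (E : ℕ → Prop) [DecidablePred E] :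
    ((Icc (-(N : ℤ)) N).filter fun d => d ≠ 0 ∧ E d.natAbs).card ≤
      2 * ((Ioc 0 N).filter E).card := by
  refine card_le_mul_card_image_of_maps_to (f := Int.natAbs) (fun d hd => ?_) 2 fun n _ => ?_
  · simp only [mem_filter, mem_Icc, mem_Ioc] at hd ⊢
    exact ⟨by omega, hd.2.2⟩
  · refine (card_le_card (t := {(n : ℤ), -(n : ℤ)}) fun d hd => ?_).trans card_le_two
    have := (mem_filter.1 hd).2
    simp only [mem_insert, mem_singleton]
    omega

/-- the primes of an interval -/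
def pp (t t' : ℕ) : Finset ℕ := (Ioc t t').filter Nat.Prime

theorem mer : ∃ c : ℝ, ∀ y N : ℕ, 1 ≤ Real.log y → y ≤ N →
    |mu (pp y N) - (Real.log (Real.log N) - Real.log (Real.log y))| ≤ c ∧
      mu (pp 0 y) ≤ Real.log (Real.log y) + c := by
  obtain ⟨C, hC, h⟩ := P004E.H185.Mer.mertens_two
  have l2 : 0 < Real.log 2 := Real.log_pos one_lt_two
  refine ⟨C + (1 + C / Real.log 2 + |Real.log (Real.log 2)|), fun y N hy hN => ?_⟩
  have y2 : 2 ≤ y := by
    by_contra k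
    have : y = 0 ∨ y = 1 := by omega
    rcases this with rfl | rfl <;> norm_num at hy
  have r2 : (2 : ℝ) ≤ y := by exact_mod_cast y2
  have rN : (y : ℝ) ≤ N := by exact_mod_cast hN
  have lN : 1 ≤ Real.log N := hy.trans (Real.log_le_log (by linarith) rN)
  have h1 := h y N r2 rN
  have h2 := h 2 y le_rfl r2
  rw [Nat.floor_natCast, Nat.floor_natCast, Real.log_div (by linarith) (by linarith)] at h1
  rw [Nat.floor_natCast, Nat.floor_ofNat, Real.log_div (by linarith) l2.ne'] at h2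
  have p1 : 0 ≤ C / Real.log 2 := by positivity
  have p2 := abs_nonneg (Real.log (Real.log 2))
  refine ⟨h1.trans ((div_le_self hC.le hy).trans (by linarith)), ?_⟩
  have e : pp 0 y ⊆ insert 2 (pp 2 y) := fun p hp => by
    simp only [pp, mem_insert, mem_filter, mem_Ioc] at hp ⊢
    have := hp.2.two_le
    by_cases k : p = 2
    · exact Or.inl k
    · exact Or.inr ⟨⟨by omega, hp.1.2⟩, hp.2⟩
  have k : mu (pp 0 y) ≤ 1 / 2 + mu (pp 2 y) := by
    refine (sum_le_sum_of_subset_of_nonneg e fun p _ _ => by positivity).trans ?_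
    rw [sum_insert (by simp [pp])]
    exact le_of_eq (by simp [mu])
  have := (abs_le.1 h2).2
  have := neg_abs_le (Real.log (Real.log 2))
  unfold mu pp at k ⊢
  linarith

theorem par_exp {u δ C c y : ℝ} {A n : ℕ} (h4 : 2 ≤ u) (h9 : C ≤ u) (h10 : c ≤ u) (hc : 0 ≤ c)
    (h11 : 17 * A + 7 ≤ u * δ) (hδ : 0 < δ) (hy : 0 < y) (y1 : u ^ 2 ≤ Real.log y)
    (s1 : (n : ℝ) ≤ 4 * u) :
    C * A ^ (4 * n + 1) * (n + 1) * (Real.exp u + c) ≤ y ^ δ := by
  have A0 : (0 : ℝ) ≤ A := Nat.cast_nonneg A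
  have e0 := Real.add_one_le_exp u
  have e1 : C ≤ Real.exp u := by linarith
  have e2 : (A : ℝ) ^ (4 * n + 1) ≤ Real.exp (17 * A * u) := by
    refine (pow_le_pow_left₀ A0 (by linarith [Real.add_one_le_exp A] : (A : ℝ) ≤ Real.exp A)
      _).trans ?_
    rw [← Real.exp_nat_mul, Real.exp_le_exp]
    push_cast
    nlinarith only [A0, s1, h4]
  have e3 : (n : ℝ) + 1 ≤ Real.exp (4 * u) :=
    (Real.add_one_le_exp n).trans (Real.exp_le_exp.2 s1)
  have e4 : Real.exp u + c ≤ Real.exp (2 * u) := by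
    rw [two_mul, Real.exp_add]
    nlinarith only [e0, h4, h10]
  calc _ ≤ Real.exp u * Real.exp (17 * A * u) * Real.exp (4 * u) * Real.exp (2 * u) := by gcongr
    _ ≤ _ := by
        rw [Real.rpow_def_of_pos hy, ← Real.exp_add, ← Real.exp_add, ← Real.exp_add,
          Real.exp_le_exp]
        nlinarith only [mul_le_mul_of_nonneg_right y1 hδ.le, h11, h4]

theorem par_R {u : ℝ} (h4 : 2 ≤ u) : ∃ y R : ℕ, R ≤ y ∧ u ^ 2 ≤ R ∧ (R : ℝ) ≤ Real.log y ∧
    Real.log y ≤ 4 * u ^ 2 ∧ Real.log (Real.log y) ≤ 2 + 2 * Real.log u := by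
  obtain ⟨R, r1, r2⟩ : ∃ R : ℕ, u ^ 2 ≤ R ∧ R ≤ 2 * u ^ 2 :=
    ⟨⌈u ^ 2⌉₊, Nat.le_ceil _, (Nat.ceil_lt_add_one (by positivity)).le.trans (by nlinarith)⟩
  have l3 : 1 ≤ Real.log 3 := by
    rw [Real.le_log_iff_exp_le (by norm_num)]; exact Real.exp_one_lt_three.le
  have l4 : Real.log 3 ≤ 2 := (Real.log_le_sub_one_of_pos (by norm_num)).trans (by norm_num)
  have Ry : R ≤ 3 ^ R := (Nat.lt_pow_self (by norm_num)).le
  have ly : Real.log (3 ^ R : ℕ) = R * Real.log 3 := by rw [Nat.cast_pow, Real.log_pow]; norm_num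
  generalize 3 ^ R = y at Ry ly
  have R0 : (4 : ℝ) ≤ R := by nlinarith
  have y1 : (R : ℝ) ≤ Real.log y := by rw [ly]; nlinarith
  have y2 : Real.log y ≤ 4 * u ^ 2 := by rw [ly]; nlinarith
  refine ⟨y, R, Ry, r1, y1, y2, (Real.log_le_log (by linarith) y2).trans ?_⟩
  rw [show 4 * u ^ 2 = (2 * u) ^ 2 by ring, Real.log_pow, Real.log_mul two_ne_zero (by linarith)]
  have := Real.log_le_sub_one_of_pos two_pos
  push_cast
  linarith

/-- the choice of the parameters -/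
theorem par {ε δ : ℝ} (hε : 0 < ε) (hδ : 0 < δ) (A t₀ : ℕ) (C c : ℝ) (hc : 0 ≤ c) :
    ∀ᶠ N : ℕ in atTop, ∃ y R : ℕ, t₀ ≤ y ∧ 2 ≤ R ∧ R ≤ y ∧ (R : ℝ) ≤ Real.log y ∧
      1 ≤ ε * mu (pp y N) ∧ mu (pp y N) ≤ ε * R ∧
      A * ((mu (pp 0 y) + 1) / ε + 1) ≤ mu (pp y N) / 2 ∧
      ∀ s : ℕ, s ≤ 2 * mu (pp y N) →
        C * A ^ (4 * s + 1) * (s + 1) * (Real.log N + c) ≤ (y : ℝ) ^ δ := by
  obtain ⟨c₀, h⟩ := mer
  have T : Tendsto (fun N : ℕ => Real.log (Real.log N)) atTop atTop :=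
    Real.tendsto_log_atTop.comp (Real.tendsto_log_atTop.comp tendsto_natCast_atTop_atTop)
  have lo : ∀ η : ℝ, 0 < η → ∀ᶠ u : ℝ in atTop, c₀ + 3 + 2 * Real.log u ≤ η * u := fun η hη => by
    filter_upwards [Real.isLittleO_log_id_atTop.bound (by positivity : 0 < η / 4),
      eventually_ge_atTop (2 * (c₀ + 3) / η), eventually_ge_atTop 0] with u h1 h2 h3
    rw [div_le_iff₀ hη] at h2
    rw [id, Real.norm_of_nonneg h3] at h1
    have := (le_abs_self _).trans h1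
    linarith
  have ex : ∀ᶠ u : ℝ in atTop, 4 * u ^ 2 ≤ Real.exp u := by
    filter_upwards [(Real.tendsto_exp_div_pow_atTop 2).eventually_ge_atTop 4,
      eventually_gt_atTop 0] with u h1 h2
    rwa [le_div_iff₀ (by positivity)] at h1
  filter_upwards [T.eventually (lo (1 / 2) (by norm_num)),
    T.eventually (lo (ε / (8 * (A + 1))) (by positivity)), T.eventually ex,
    T.eventually_ge_atTop 2, T.eventually_ge_atTop t₀, T.eventually_ge_atTop c₀,
    T.eventually_ge_atTop (2 / ε), T.eventually_ge_atTop (8 * A), T.eventually_ge_atTop C,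
    T.eventually_ge_atTop c, T.eventually_ge_atTop ((17 * A + 7) / δ),
    eventually_ge_atTop 2] with N h1 h2 h3 h4 h5 h6 h7 h8 h9 h10 h11 h12
  have lN : 0 < Real.log N := Real.log_pos (by exact_mod_cast h12)
  have eN := Real.exp_log lN
  generalize hu : Real.log (Real.log N) = u at h1 h2 h3 h4 h5 h6 h7 h8 h9 h10 h11 eN
  obtain ⟨y, R, Ry, r1, y1, y2, z2⟩ := par_R h4
  have r0 : 2 * u ≤ R := by nlinarith only [r1, h4]
  have rRy : (R : ℝ) ≤ y := by exact_mod_cast Ry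
  have yN : y ≤ N := by
    have := (Real.log_le_log_iff (by linarith) (by positivity)).1 ((y2.trans h3).trans_eq eN)
    exact_mod_cast this
  obtain ⟨m1, m2⟩ := h y N (by linarith) yN
  rw [hu, abs_le] at m1
  have z1 : 0 ≤ Real.log (Real.log y) := Real.log_nonneg (by linarith)
  have u1 : u / 2 ≤ mu (pp y N) := by linarith [m1.1]
  have u2 : mu (pp y N) ≤ 2 * u := by linarith [m1.2]
  rw [div_le_iff₀ hε] at h7
  rw [div_le_iff₀ hδ] at h11
  have A0 : (0 : ℝ) ≤ A := Nat.cast_nonneg A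
  refine ⟨y, R, ?_, ?_, Ry, y1, by nlinarith only [h7, u1, hε], ?_, ?_, fun s hs => ?_⟩
  · have : (t₀ : ℝ) ≤ y := by linarith
    exact_mod_cast this
  · have : ((2 : ℕ) : ℝ) ≤ R := by push_cast; linarith
    exact_mod_cast this
  · nlinarith only [mul_le_mul_of_nonneg_left r1 hε.le, u2, h7, h4]
  · have k : (mu (pp 0 y) + 1) / ε ≤ u / (8 * (A + 1)) := by
      rw [div_le_iff₀ hε]
      refine le_trans (by linarith) (h2.trans_eq (by ring))
    have k2 : A * (u / (8 * (A + 1))) ≤ u / 8 := by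
      rw [mul_div_assoc', div_le_div_iff₀ (by positivity) (by norm_num)]
      linarith
    linarith [mul_le_mul_of_nonneg_left k A0]
  · rw [← eN]
    exact par_exp h4 h9 h10 hc h11 hδ (by linarith) (r1.trans y1) (by linarith)

end Vale.Agent.P004S.Bq
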