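import Vale.Agent.P004S.Bas2
import Vale.Agent.P004S.Bx0

/-!
# P004, block SMITH, row `BOX`: the intervals and the boxes
-/

set_option linter.all false

noncomputable section

namespace Vale.Agent.P004S.Bq

open Finset Filter

variable {y R : ℕ}

/-- the end points of the intervals -/
def tt (y R : ℕ) : ℕ → ℕ
  | 0 => y
  | j + 1 => tt y R j + tt y R j / R + 1

theorem tt_mono (y R : ℕ) : StrictMono (tt y R) :=
  strictMono_nat_of_lt_succ fun j => Nat.lt_succ_of_le (Nat.le_add_right _ _)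

theorem le_tt (y R j : ℕ) : y ≤ tt y R j := (tt_mono y R).monotone (Nat.zero_le j)

theorem tt_ex (y R p : ℕ) : ∃ j, p ≤ tt y R (j + 1) :=
  ⟨p, (Nat.le_succ p).trans ((tt_mono y R).le_apply)⟩

/-- the index of the interval -/
def ix (y R p : ℕ) : ℕ := Nat.find (tt_ex y R p)

/-- the primes of the interval number `j` -/
def iv (y R j : ℕ) : Finset ℕ := pr (tt y R j) (tt y R (j + 1))

theorem mem_iv {j p : ℕ} : p ∈ iv y R j ↔ p.Prime ∧ y < p ∧ ix y R p = j := by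
  rw [iv, pr, mem_filter, mem_Ioc, ix, Nat.find_eq_iff]
  constructor
  · rintro ⟨⟨h1, h2⟩, h⟩
    exact ⟨h, (le_tt y R j).trans_lt h1, h2, fun k hk =>
      not_le.2 (((tt_mono y R).monotone hk).trans_lt h1)⟩
  · rintro ⟨h, h1, h2, h3⟩
    refine ⟨⟨?_, h2⟩, h⟩
    rcases j with _ | j
    · exact h1
    · exact not_le.1 (h3 j (Nat.lt_succ_self j))

theorem tt_le (h2 : 2 ≤ R) (hy : R ≤ y) (j : ℕ) :
    (tt y R (j + 1) : ℝ) ≤ (1 + 2 / R) * tt y R j ∧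
      (tt y R j : ℝ) + tt y R j / R ≤ tt y R (j + 1) := by
  have r0 : (0 : ℝ) < R := by exact_mod_cast (by omega : 0 < R)
  have h1 : (R : ℝ) ≤ tt y R j := by exact_mod_cast hy.trans (le_tt y R j)
  have h3 := cnt_le (tt y R j) R
  have h4 := cnt_ge (tt y R j) (by omega : 0 < R)
  rw [Nat.Ioc_filter_dvd_card_eq_div, mul_one_div] at h3 h4
  have h5 := (one_le_div r0).2 h1
  have e : (1 + 2 / R : ℝ) * tt y R j = tt y R j + 2 * (tt y R j / R) := by ring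
  rw [tt, Nat.cast_add, Nat.cast_add, Nat.cast_one, e]
  constructor <;> linarith

theorem iv_le (h2 : 2 ≤ R) (hy : R ≤ y) {j p q : ℕ} (hp : p ∈ iv y R j) (hq : q ∈ iv y R j) :
    (q : ℝ) ≤ (1 + 2 / R) * p := by
  simp only [iv, pr, mem_filter, mem_Ioc] at hp hq
  refine (Nat.cast_le.2 hq.1.2).trans ((tt_le h2 hy j).1.trans ?_)
  exact mul_le_mul_of_nonneg_left (Nat.cast_le.2 hp.1.1.le) (by positivity)

theorem two_div (h2 : 2 ≤ R) : (1 + 2 / R : ℝ) ≤ 2 := by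
  have r0 : (2 : ℝ) ≤ R := by exact_mod_cast h2
  have := (div_le_one (by linarith)).2 r0
  linarith

theorem mu_iv (h2 : 2 ≤ R) (hy : R ≤ y) (j : ℕ) : mu (iv y R j) ≤ 2 / R := by
  have t0 : (0 : ℝ) < tt y R j := by exact_mod_cast (by have := le_tt y R j; omega)
  have h1 : ((iv y R j).card : ℝ) ≤ tt y R (j + 1) - tt y R j := by
    rw [← Nat.cast_sub ((tt_mono y R).monotone (Nat.le_succ j)), ← Nat.card_Ioc]
    exact Nat.cast_le.2 (card_filter_le _ _)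
  refine (sum_le_card_nsmul _ _ (1 / (tt y R j : ℝ)) fun p hp => one_div_le_one_div_of_le t0
    (Nat.cast_le.2 (mem_Ioc.1 (mem_filter.1 hp).1).1.le)).trans ?_
  rw [nsmul_eq_mul, mul_one_div, div_le_iff₀ t0]
  exact le_trans h1 (by linarith [(tt_le h2 hy j).1])

/-- the large prime factors -/
def bp (y : ℕ) (d : ℤ) : Finset ℕ := d.natAbs.primeFactors.filter (y < ·)

/-- the label of an integer -/
def lb (y R : ℕ) (d : ℤ) : ℤ × Finset ℕ :=
  (d / ∏ p ∈ bp y d, (p : ℤ), (bp y d).image (ix y R))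

/-- the box of a label -/
abbrev bx (y R : ℕ) (L : ℝ) (β : ℤ × Finset ℕ) : Box :=
  ⟨β.2.card, β.1, fun i => iv y R (β.2.orderEmbOfFin rfl i), L⟩

theorem mem_bp {d : ℤ} (hd : d ≠ 0) {p : ℕ} : p ∈ bp y d ↔ p.Prime ∧ y < p ∧ (p : ℤ) ∣ d := by
  rw [bp, mem_filter, Nat.mem_primeFactors, Int.natCast_dvd]
  have := Int.natAbs_ne_zero.2 hd
  tauto

theorem lb_mul (d : ℤ) : (lb y R d).1 * ∏ p ∈ bp y d, (p : ℤ) = d := by
  refine Int.ediv_mul_cancel ?_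
  rw [← Nat.cast_prod, Int.natCast_dvd]
  exact (prod_dvd_prod_of_subset _ _ _ (filter_subset _ _)).trans (Nat.prod_primeFactors_dvd _)

theorem not_dvd {d : ℤ} (hd : Squarefree d) {p : ℕ} (hp : p.Prime) (h : y < p) :
    ¬ (p : ℤ) ∣ (lb y R d).1 := fun k => by
  have h1 : p ∈ bp y d := (mem_bp hd.ne_zero).2 ⟨hp, h, k.trans ⟨_, (lb_mul d).symm⟩⟩
  have h2 := mul_dvd_mul k (dvd_prod_of_mem (fun p : ℕ => (p : ℤ)) h1)
  rw [lb_mul] at h2
  exact (Nat.prime_iff_prime_int.1 hp).not_unit (hd _ h2)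

variable {L : ℝ} {β : ℤ × Finset ℕ}

theorem mem_pts {z : Fin β.2.card → ℕ} :
    z ∈ (bx y R L β).pts ↔ ∀ i, z i ∈ iv y R (β.2.orderEmbOfFin rfl i) := Fintype.mem_piFinset

theorem pts_inj {z z' : Fin β.2.card → ℕ} (hz : z ∈ (bx y R L β).pts) (hz' : z' ∈ (bx y R L β).pts)
    {i j : Fin β.2.card} (h : z i = z' j) : i = j :=
  (β.2.orderEmbOfFin rfl).injective (by
    rw [← (mem_iv.1 (mem_pts.1 hz i)).2.2, ← (mem_iv.1 (mem_pts.1 hz' j)).2.2, h])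

theorem dd_ne (h0 : β.1 ≠ 0) {z : Fin β.2.card → ℕ} (hz : z ∈ (bx y R L β).pts) :
    dd β.1 z ≠ 0 := mul_ne_zero h0 (prod_ne_zero_iff.2 fun i _ =>
  Nat.cast_ne_zero.2 (mem_iv.1 (mem_pts.1 hz i)).1.ne_zero)

theorem bp_dd (h0 : β.1 ≠ 0) (h : ∀ p : ℕ, p.Prime → y < p → ¬ (p : ℤ) ∣ β.1)
    {z : Fin β.2.card → ℕ} (hz : z ∈ (bx y R L β).pts) : bp y (dd β.1 z) = univ.image z := by
  ext p
  rw [mem_bp (dd_ne h0 hz), mem_image]
  constructor
  · rintro ⟨hp, h1, h2⟩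
    have k := Nat.prime_iff_prime_int.1 hp
    rw [dd, k.dvd_mul, k.dvd_finset_prod_iff] at h2
    obtain ⟨i, hi, h2⟩ := h2.resolve_left (h p hp h1)
    exact ⟨i, hi, ((Nat.prime_dvd_prime_iff_eq hp (mem_iv.1 (mem_pts.1 hz i)).1).1
      (Int.natCast_dvd_natCast.1 h2)).symm⟩
  · rintro ⟨i, hi, rfl⟩
    have k := mem_iv.1 (mem_pts.1 hz i)
    exact ⟨k.1, k.2.1, Dvd.dvd.mul_left (dvd_prod_of_mem (fun i => (z i : ℤ)) hi) _⟩

theorem lb_dd (h0 : β.1 ≠ 0) (h : ∀ p : ℕ, p.Prime → y < p → ¬ (p : ℤ) ∣ β.1)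
    {z : Fin β.2.card → ℕ} (hz : z ∈ (bx y R L β).pts) : lb y R (dd β.1 z) = β := by
  rw [lb, bp_dd h0 h hz, prod_image fun i _ j _ e => pts_inj hz hz e, image_image]
  refine Prod.ext (Int.mul_ediv_cancel _ (right_ne_zero_of_mul (dd_ne h0 hz))) ?_
  refine Eq.trans ?_ (β.2.image_orderEmbOfFin_univ rfl)
  exact image_congr fun i _ => (mem_iv.1 (mem_pts.1 hz i)).2.2

theorem dd_inj (h0 : β.1 ≠ 0) (h : ∀ p : ℕ, p.Prime → y < p → ¬ (p : ℤ) ∣ β.1)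
    {z z' : Fin β.2.card → ℕ} (hz : z ∈ (bx y R L β).pts) (hz' : z' ∈ (bx y R L β).pts)
    (e : dd β.1 z = dd β.1 z') : z = z' := funext fun i => by
  have k : z i ∈ univ.image z' := by
    rw [← bp_dd h0 h hz', ← e, bp_dd h0 h hz]
    exact mem_image_of_mem _ (mem_univ i)
  obtain ⟨j, -, k⟩ := mem_image.1 k
  rw [← k, pts_inj hz' hz k]

theorem cover {d : ℤ} (hd : d ≠ 0) (h : Set.InjOn (ix y R) (bp y d)) (hβ : lb y R d = β) :
    ∃ z : Fin β.2.card → ℕ, z ∈ (bx y R L β).pts ∧ dd β.1 z = d ∧ ∀ i, z i ∈ bp y d := by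
  subst hβ
  have k : ∀ i, ∃ p ∈ bp y d, ix y R p = (lb y R d).2.orderEmbOfFin rfl i := fun i =>
    mem_image.1 (orderEmbOfFin_mem _ rfl i)
  choose z h1 h2 using k
  have hz : z ∈ (bx y R L (lb y R d)).pts := mem_pts.2 fun i =>
    mem_iv.2 ⟨((mem_bp hd).1 (h1 i)).1, ((mem_bp hd).1 (h1 i)).2.1, h2 i⟩
  refine ⟨z, hz, ?_, h1⟩
  have e : univ.image z = bp y d := by
    refine eq_of_subset_of_card_le (image_subset_iff.2 fun i _ => h1 i) ?_
    rw [card_image_of_injective _ fun i j e => pts_inj hz hz e, card_univ, Fintype.card_fin]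
    exact (card_image_of_injOn h).ge
  rw [dd, ← prod_image (f := fun p : ℕ => (p : ℤ)) fun i _ j _ e => pts_inj hz hz e, e, lb_mul]

theorem dd_le (h2 : 2 ≤ R) (hy : R ≤ y) (hs : β.2.card ≤ R) {z z' : Fin β.2.card → ℕ}
    (hz : z ∈ (bx y R L β).pts) (hz' : z' ∈ (bx y R L β).pts) : |dd β.1 z'| ≤ 9 * |dd β.1 z| := by
  have r0 : (0 : ℝ) < R := by exact_mod_cast (by omega : 0 < R)
  have h1 : (1 + 2 / R : ℝ) ^ β.2.card ≤ 9 := by
    refine (pow_le_pow_right₀ (le_add_of_nonneg_right (by positivity)) hs).trans ?_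
    refine (pow_le_pow_left₀ (by positivity) ((add_comm _ _).trans_le
      (Real.add_one_le_exp (2 / R))) _).trans ?_
    rw [← Real.exp_nat_mul, mul_div_cancel₀ _ r0.ne', ← one_add_one_eq_two, Real.exp_add]
    nlinarith [Real.exp_one_lt_three, Real.exp_pos 1]
  have h3 : ∏ i, (z' i : ℝ) ≤ 9 * ∏ i, (z i : ℝ) := by
    refine (prod_le_prod (fun i _ => Nat.cast_nonneg _) fun i _ =>
      iv_le h2 hy (mem_pts.1 hz i) (mem_pts.1 hz' i)).trans ?_
    rw [prod_mul_distrib, prod_const, card_univ, Fintype.card_fin]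
    exact mul_le_mul_of_nonneg_right h1 (by positivity)
  have h4 : ∏ i, (z' i : ℤ) ≤ 9 * ∏ i, (z i : ℤ) := by exact_mod_cast h3
  rw [dd, dd, abs_mul, abs_mul, abs_of_nonneg (by positivity : 0 ≤ ∏ i, (z' i : ℤ)),
    abs_of_nonneg (by positivity : 0 ≤ ∏ i, (z i : ℤ)), mul_left_comm]
  exact mul_le_mul_of_nonneg_left h4 (abs_nonneg _)

open Classical in
/-- the covering -/
theorem cov (h2 : 2 ≤ R) (hy : R ≤ y) (N : ℕ) (Q : ℤ → Prop) (G : Finset ℤ) {ε : ℝ} (hε : 0 ≤ ε)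
    (hG : ∀ d ∈ G, Squarefree d ∧ |d| ≤ N ∧ Q d ∧ Set.InjOn (ix y R) (bp y d) ∧
      (bp y d).card ≤ R ∧ ((((bx y R L (lb y R d)).pts.filter fun z =>
        Q (dd (lb y R d).1 z)).card : ℝ) ≤ ε * (bx y R L (lb y R d)).pts.card)) :
    (G.card : ℝ) ≤ ε * (18 * N + 1) := by
  have e : (18 * N + 1 : ℝ) = (Icc (-(9 * N : ℤ)) (9 * N)).card := by
    rw [← Int.cast_natCast (R := ℝ) (card _), Int.card_Icc_of_le _ _ (by omega)]
    push_cast
    ring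
  rw [e, card_eq_sum_card_image (lb y R) G, Nat.cast_sum]
  refine le_trans ?_ (mul_le_mul_of_nonneg_left (Nat.cast_le.2 ((sum_card_fiberwise_eq_card_filter
    _ (G.image (lb y R)) (lb y R)).le.trans (card_filter_le _ _))) hε)
  rw [Nat.cast_sum, mul_sum]
  refine sum_le_sum fun β hβ => ?_
  obtain ⟨d, hd, rfl⟩ := mem_image.1 hβ
  obtain ⟨h1, h3, -, h4, h5, h6⟩ := hG d hd
  have n0 : (lb y R d).1 ≠ 0 := left_ne_zero_of_mul ((lb_mul d).trans_ne h1.ne_zero)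
  refine le_trans (Nat.cast_le.2 ?_) (h6.trans (mul_le_mul_of_nonneg_left (Nat.cast_le.2 ?_) hε))
  · refine le_trans (card_le_card fun d' hd' => ?_) (card_image_le (f := dd (lb y R d).1))
    rw [mem_filter] at hd'
    obtain ⟨k1, -, k2, k3, -⟩ := hG d' hd'.1
    obtain ⟨z, hz, k4, -⟩ := cover (L := L) k1.ne_zero k3 hd'.2
    exact mem_image.2 ⟨z, mem_filter.2 ⟨hz, by rwa [← k4] at k2⟩, k4⟩
  · obtain ⟨z, hz, k4, -⟩ := cover (L := L) h1.ne_zero h4 rfl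
    refine card_le_card_of_injOn (dd (lb y R d).1) (fun z' hz' => ?_) fun z1 k1 z2 k2 k =>
      dd_inj n0 (fun p => not_dvd h1) k1 k2 k
    have := dd_le h2 hy (card_image_le.trans h5) hz hz'
    rw [k4] at this
    exact mem_coe.2 (mem_filter.2 ⟨mem_Icc.2 (abs_le.1 (this.trans (by omega))),
      lb_dd n0 (fun p => not_dvd h1) hz'⟩)

end Vale.Agent.P004S.Bq
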