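import Mathlib.Algebra.BigOperators.Ring.Finset
import Mathlib.Algebra.BigOperators.Group.Finset.Powerset
import Mathlib.Algebra.Group.Subgroup.Finite
import Mathlib.Algebra.Module.BigOperators
import Mathlib.Tactic

/-!
# P004, block SMITH: alternating sums on cubes and filtrations (abstract part of row CUBE)
-/

set_option autoImplicit false
set_option linter.all false

noncomputable section

namespace Vale.Agent.P004S.Cb

open Finset

variable {ι V W U : Type} [DecidableEq ι] [AddCommGroup V] [AddCommGroup W] [AddCommGroup U]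

/-- the alternating sum over the face `T` -/
def DD (T : Finset ι) : (Finset ι → V) →+ V where
  toFun f := ∑ w ∈ T.powerset, (-1 : ℤ) ^ w.card • f w
  map_zero' := by simp
  map_add' f g := by simp [sum_add_distrib]

theorem DD_apply (T : Finset ι) (f : Finset ι → V) :
    DD T f = ∑ w ∈ T.powerset, (-1 : ℤ) ^ w.card • f w := rfl

theorem DD_empty (f : Finset ι → V) : DD ∅ f = f ∅ := by simp [DD_apply]

theorem DD_congr {T : Finset ι} {f g : Finset ι → V} (h : ∀ w ⊆ T, f w = g w) : DD T f = DD T g :=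
  sum_congr rfl fun w hw => by rw [h w (mem_powerset.1 hw)]

theorem DD_insert {T : Finset ι} {i : ι} (h : i ∉ T) (f : Finset ι → V) :
    DD (insert i T) f = DD T fun w => f w - f (insert i w) := by
  rw [DD_apply, sum_powerset_insert h, ← sum_add_distrib]
  refine sum_congr rfl fun w hw => ?_
  rw [card_insert_of_notMem fun k => h (mem_powerset.1 hw k), pow_succ, mul_neg_one, neg_smul,
    smul_sub, sub_eq_add_neg]

theorem DD_map (φ : V →+ W) (T : Finset ι) (f : Finset ι → V) :
    DD T (fun w => φ (f w)) = φ (DD T f) := by simp [DD_apply]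

theorem DD_const {T : Finset ι} (h : T.Nonempty) (a : V) : DD T (fun _ => a) = 0 := by
  obtain ⟨i, hi⟩ := h
  rw [← insert_erase hi, DD_insert (notMem_erase i T)]
  simp [DD_apply]

theorem DD_top (T : Finset ι) (f : Finset ι → V) : DD T f =
    (-1 : ℤ) ^ T.card • f T + ∑ w ∈ T.powerset.erase T, (-1 : ℤ) ^ w.card • f w :=
  (add_sum_erase _ _ (mem_powerset_self T)).symm

/-- the inversion formula -/
theorem DD_DD (T : Finset ι) : ∀ f : Finset ι → V, DD T (fun S => DD S f) = f T := by
  induction T using Finset.induction_on with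
  | empty => intro f; rw [DD_empty, DD_empty]
  | insert i T hi ih =>
    intro f
    rw [DD_insert hi, ← ih fun w => f (insert i w)]
    refine DD_congr fun w hw => ?_
    rw [DD_insert fun k => hi (hw k), ← map_sub]
    congr 1
    funext S
    simp

theorem DD_mem (S : AddSubgroup V) {T : Finset ι} {f : Finset ι → V} (h : ∀ w ⊆ T, f w ∈ S) :
    DD T f ∈ S := sum_mem fun w hw => zsmul_mem (h w (mem_powerset.1 hw)) _

/-- the Leibniz formula -/
theorem DD_mul (e : V →+ W →+ U) (T : Finset ι) : ∀ (f : Finset ι → V) (g : Finset ι → W),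
    DD T (fun w => e (f w) (g w)) =
      ∑ S ∈ T.powerset, e (DD S f) (DD (T \ S) fun w => g (S ∪ w)) := by
  induction T using Finset.induction_on with
  | empty => intro f g; simp [DD_empty]
  | insert i T hi ih =>
    intro f g
    have e1 : (fun w => e (f w) (g w) - e (f (insert i w)) (g (insert i w))) =
        (fun w => e (f w) (g w - g (insert i w))) +
          fun w => e (f w - f (insert i w)) (g (insert i w)) := funext fun w => by simp
    rw [DD_insert hi, e1, map_add, ih, ih, sum_powerset_insert hi]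
    refine congrArg₂ _ (sum_congr rfl fun S hS => ?_) (sum_congr rfl fun S hS => ?_)
    · have h : i ∉ S := fun k => hi (mem_powerset.1 hS k)
      rw [insert_sdiff_of_notMem _ h, DD_insert fun k => hi (mem_sdiff.1 k).1]
      simp only [union_insert]
    · have h : i ∉ S := fun k => hi (mem_powerset.1 hS k)
      rw [DD_insert h, insert_sdiff_insert, sdiff_insert_of_notMem hi]
      simp only [insert_union]

theorem DD_chi {R : Type} [CommRing R] (c : ι → R) (T : Finset ι) :
    DD T (fun w => ∏ i ∈ w, c i) = ∏ i ∈ T, (1 - c i) := by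
  rw [DD_apply, prod_sub]
  simp

/-- functions whose alternating sums gain one step of the filtration in each direction -/
def AF (F : ℕ → AddSubgroup V) (J : Finset ι) (j : ℕ) : AddSubgroup (Finset ι → V) where
  carrier := {f | ∀ T ⊆ J, DD T f ∈ F (T.card + j)}
  zero_mem' T _ := by rw [map_zero]; exact zero_mem _
  add_mem' ha hb T h := by rw [map_add]; exact add_mem (ha T h) (hb T h)
  neg_mem' ha T h := by rw [map_neg]; exact neg_mem (ha T h)

variable {F : ℕ → AddSubgroup V} {F' : ℕ → AddSubgroup W} {F'' : ℕ → AddSubgroup U}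
  {J J' : Finset ι} {i : ι} {j k : ℕ} {f f' : Finset ι → V} {g : Finset ι → W}

theorem mem_AF : f ∈ AF F J j ↔ ∀ T ⊆ J, DD T f ∈ F (T.card + j) := Iff.rfl

theorem AF_empty : f ∈ AF F ∅ j ↔ f ∅ ∈ F j := by simp [mem_AF, DD_empty]

theorem AF_sub (h : J' ⊆ J) : AF F J j ≤ AF F J' j := fun _ hf T hT => hf T (hT.trans h)

theorem AF_le (hF : Antitone F) (h : k ≤ j) : AF F J j ≤ AF F J k :=
  fun _ hf T hT => hF (Nat.add_le_add_left h _) (hf T hT)

theorem AF_congr (h : ∀ w ⊆ J, f w = f' w) (hf : f ∈ AF F J j) : f' ∈ AF F J j := fun T hT =>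
  DD_congr (fun w hw => h w (hw.trans hT)) ▸ hf T hT

theorem AF_insert (h : i ∉ J) : f ∈ AF F (insert i J) j ↔
    f ∈ AF F J j ∧ (fun w => f w - f (insert i w)) ∈ AF F J (j + 1) := by
  refine ⟨fun hf => ⟨AF_sub (subset_insert i J) hf, fun T hT => ?_⟩, fun hf T hT => ?_⟩
  · have k := hf _ (insert_subset_insert i hT)
    rwa [DD_insert fun k => h (hT k), card_insert_of_notMem fun k => h (hT k), add_assoc,
      add_comm 1] at k
  · by_cases hi : i ∈ T
    · have k := hf.2 _ (subset_insert_iff.1 hT)
      rwa [← DD_insert (notMem_erase i T), insert_erase hi, add_comm j, ← add_assoc,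
        card_erase_add_one hi] at k
    · exact hf.1 T ((subset_insert_iff_of_notMem hi).1 hT)

theorem AF_shift (hF : Antitone F) (h : i ∉ J) (hf : f ∈ AF F (insert i J) j) :
    (fun w => f (insert i w)) ∈ AF F J j := by
  have k := (AF_insert h).1 hf
  convert sub_mem k.1 (AF_le hF j.le_succ k.2) using 1
  funext w
  simp

theorem AF_val (hF : Antitone F) (hf : f ∈ AF F J j) {w : Finset ι} (hw : w ⊆ J) : f w ∈ F j := by
  rw [← DD_DD w f]
  exact DD_mem _ fun T hT => hF (Nat.le_add_left _ _) (hf T (hT.trans hw))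

theorem AF_of_val (hF : Antitone F) (h : ∀ w ⊆ J, f w ∈ F (J.card + j)) : f ∈ AF F J j :=
  fun T hT => hF (Nat.add_le_add_right (card_le_card hT) _)
    (DD_mem _ fun w hw => h w (hw.trans hT))

theorem AF_const {a : V} (h : a ∈ F j) : (fun _ => a) ∈ AF F J j := fun T _ => by
  rcases T.eq_empty_or_nonempty with rfl | hT
  · rwa [DD_empty, card_empty, zero_add]
  · rw [DD_const hT]
    exact zero_mem _

theorem AF_map (φ : V →+ W) (h : ∀ n, ∀ x ∈ F (n + j), φ x ∈ F' (n + k)) (hf : f ∈ AF F J j) :
    (fun w => φ (f w)) ∈ AF F' J k := fun T hT => DD_map φ T f ▸ h _ _ (hf T hT)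

/-- **products** -/
theorem AF_mul (hF : Antitone F) (e : V →+ W →+ U)
    (he : ∀ a b, ∀ x ∈ F a, ∀ y ∈ F' b, e x y ∈ F'' (a + b)) (J : Finset ι) :
    ∀ {j k : ℕ} {f : Finset ι → V} {g : Finset ι → W}, f ∈ AF F J j → g ∈ AF F' J k →
      (fun w => e (f w) (g w)) ∈ AF F'' J (j + k) := by
  induction J using Finset.induction_on with
  | empty => exact fun hf hg => AF_empty.2 (he _ _ _ (AF_empty.1 hf) _ (AF_empty.1 hg))
  | insert i J hi ih =>
    intro j k f g hf hg
    have k1 := (AF_insert hi).1 hf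
    have k2 := (AF_insert hi).1 hg
    refine (AF_insert hi).2 ⟨ih k1.1 k2.1, ?_⟩
    have k3 := ih k1.2 k2.1
    rw [add_right_comm] at k3
    have k4 := ih (AF_shift hF hi hf) k2.2
    convert add_mem k3 k4 using 1
    funext w
    simp

theorem AF_union (hF : Antitone F) (S : Finset ι) : ∀ {J : Finset ι}, Disjoint S J →
    f ∈ AF F (S ∪ J) j → (fun w => f (S ∪ w)) ∈ AF F J j := by
  induction S using Finset.induction_on generalizing f with
  | empty => intro J _ h; simpa using h
  | insert i S hi ih =>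
    intro J hd h
    rw [disjoint_insert_left] at hd
    rw [insert_union] at h
    simpa only [insert_union] using ih hd.2 (AF_shift hF (by simp [hi, hd.1]) h)

/-- the leading term of a product -/
theorem DD_lead (e : V →+ W →+ U) (he : ∀ a b, ∀ x ∈ F a, ∀ y ∈ F' b, e x y ∈ F'' (a + b))
    (J : Finset ι) : ∀ {j k : ℕ} {f : Finset ι → V} {g : Finset ι → W}, f ∈ AF F J j →
      g ∈ AF F' J k → Antitone F → DD J (fun w => e (f w) (g w)) -
        ∑ S ∈ J.powerset, e (DD S f) (DD (J \ S) g) ∈ F'' (J.card + (j + k) + 1) := by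
  induction J using Finset.induction_on with
  | empty => intro j k f g _ _ _; simp [DD_empty]
  | insert i J hi ih =>
    intro j k f g hf hg hF
    have k1 := (AF_insert hi).1 hf
    have k2 := (AF_insert hi).1 hg
    have k3 := ih k1.2 k2.1 hF
    have k4 := ih k1.1 k2.2 hF
    have k5 := AF_mul hF e he J k1.2 k2.2 J Subset.rfl
    have e1 : (fun w => e (f w) (g w) - e (f (insert i w)) (g (insert i w))) =
        (fun w => e (f w) (g w - g (insert i w))) + (fun w => e (f w - f (insert i w)) (g w)) -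
          fun w => e (f w - f (insert i w)) (g w - g (insert i w)) := funext fun w => by simp
    rw [show J.card + (j + 1 + k) + 1 = J.card + 1 + (j + k) + 1 by omega] at k3
    rw [show J.card + (j + (k + 1)) + 1 = J.card + 1 + (j + k) + 1 by omega] at k4
    rw [show J.card + (j + 1 + (k + 1)) = J.card + 1 + (j + k) + 1 by omega] at k5
    rw [DD_insert hi, e1, map_sub, map_add, sum_powerset_insert hi, card_insert_of_notMem hi]
    convert sub_mem (add_mem k4 k3) k5 using 1
    rw [sum_congr rfl fun S hS => by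
        rw [insert_sdiff_of_notMem _ fun k => hi (mem_powerset.1 hS k),
          DD_insert fun k => hi (mem_sdiff.1 k).1],
      sum_congr (s₁ := J.powerset) (f := fun S => e (DD (insert i S) f) _) rfl fun S hS => by
        rw [DD_insert fun k => hi (mem_powerset.1 hS k), insert_sdiff_insert,
          sdiff_insert_of_notMem hi]]
    abel

/-- the `2`-adic filtration of the integers -/
def FZ (n : ℕ) : AddSubgroup ℤ := AddSubgroup.zmultiples (2 ^ n)

theorem mem_FZ {n : ℕ} {x : ℤ} : x ∈ FZ n ↔ 2 ^ n ∣ x := Int.mem_zmultiples_iff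

theorem FZ_anti : Antitone FZ := fun _ _ h _ hx => mem_FZ.2 ((pow_dvd_pow 2 h).trans (mem_FZ.1 hx))

theorem FZ_mul (a b : ℕ) : ∀ x ∈ FZ a, ∀ y ∈ FZ b, AddMonoidHom.mul x y ∈ FZ (a + b) :=
  fun _ hx _ hy => mem_FZ.2 (pow_add (2 : ℤ) a b ▸ mul_dvd_mul (mem_FZ.1 hx) (mem_FZ.1 hy))

/-- **characters of the cube** -/
theorem AF_chi (c : ι → ℤ) (J : Finset ι) (hc : ∀ i ∈ J, Odd (c i)) :
    (fun w => ∏ i ∈ w, c i) ∈ AF FZ J 0 := by
  induction J using Finset.induction_on with
  | empty => exact AF_empty.2 (mem_FZ.2 (one_dvd _))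
  | insert i J hi ih =>
    have k := ih fun l hl => hc l (mem_insert_of_mem hl)
    refine (AF_insert hi).2 ⟨k, AF_congr (fun w hw => ?_) (AF_mul FZ_anti AddMonoidHom.mul FZ_mul J
      k (AF_const (a := 1 - c i) (j := 1) (mem_FZ.2 ?_)))⟩
    · rw [prod_insert fun h => hi (hw h), AddMonoidHom.mul_apply]
      ring
    · obtain ⟨t, ht⟩ := hc i (mem_insert_self i J)
      exact ⟨-t, by rw [ht]; ring⟩

/-- the completion of a function given on the corners other than the top one -/
def cpl (J : Finset ι) (f : Finset ι → V) : Finset ι → V :=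
  Function.update f J (-((-1 : ℤ) ^ J.card • ∑ w ∈ J.powerset.erase J, (-1 : ℤ) ^ w.card • f w))

theorem cpl_ne {w : Finset ι} (h : w ≠ J) : cpl J f w = f w := Function.update_of_ne h _ _

theorem DD_cpl_top : DD J (cpl J f) = 0 := by
  rw [DD_top, sum_congr rfl fun w hw => by rw [cpl_ne (ne_of_mem_erase hw)], cpl,
    Function.update_self, smul_neg, smul_smul, ← mul_pow]
  simp

theorem DD_cpl {T : Finset ι} (h : T ⊂ J) : DD T (cpl J f) = DD T f :=
  DD_congr fun _ hw => cpl_ne (lt_of_le_of_lt hw h).ne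

theorem cpl_mem (h : ∀ T ⊂ J, DD T f ∈ F (T.card + j)) : cpl J f ∈ AF F J j := fun T hT => by
  rcases hT.eq_or_ssubset with rfl | hT
  · rw [DD_cpl_top]
    exact zero_mem _
  · rw [DD_cpl hT]
    exact h T hT

end Vale.Agent.P004S.Cb
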