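import Vale.Agent.P004S.St
import Vale.Agent.P022.H853.L3.Dens
import Vale.Agent.P022.H916.Fld2
import Vale.Agent.P022D.Sel.Pl

/-!
# P004, block SMITH, row FLD: discriminant and primes of degree one of a fixed field
-/

set_option autoImplicit false
set_option linter.all false

noncomputable section

namespace Vale.Agent.P004S.Fld

open NumberField Matrix
open scoped Pointwise Classical
open Vale.Agent.P022 Vale.Agent.P022.H916 Vale.Agent.P022D.Sel.Pl
open Vale.Agent.P027M.S (Inert)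
open Vale.Agent.P022E.GW (Ov Fb)

theorem newton {R ι : Type} [CommRing R] [IsDomain R] [CharZero R] [Fintype ι] {l : ℕ}
    (hl : l.Prime) {Q : Ideal R} (hQ : Q.IsPrime) (hlQ : (l : R) ∈ Q) (a : ι → R)
    (h : ∀ k, k ≠ 0 → (l : R) ^ Fintype.card ι ∣ ∑ i, a i ^ k) (i : ι) : a i ∈ Q := by
  have e : ∀ k, k ≠ 0 → k ≤ Fintype.card ι → (Finset.univ.val.map a).esymm k ∈ Q := fun k h0 hk => by
    have e1 := congrArg (MvPolynomial.aeval a) (MvPolynomial.mul_esymm_eq_sum ι ℤ k)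
    simp only [map_mul, map_sum, map_natCast, MvPolynomial.aeval_esymm_eq_multiset_esymm,
      MvPolynomial.psum, map_pow, MvPolynomial.aeval_X] at e1
    have e2 : (l : R) ^ Fintype.card ι ∣ k * (Finset.univ.val.map a).esymm k := by
      rw [e1]
      refine Dvd.dvd.mul_left (Finset.dvd_sum fun p hp => Dvd.dvd.mul_left (h _ ?_) _) _
      obtain ⟨h1, h2⟩ := Finset.mem_filter.1 hp
      rw [Finset.HasAntidiagonal.mem_antidiagonal] at h1
      omega
    obtain ⟨j, m, hm, rfl⟩ := Nat.exists_eq_pow_mul_and_not_dvd h0 l hl.ne_one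
    have hj : j + 1 ≤ Fintype.card ι := (Nat.lt_pow_self hl.one_lt).trans_le
      ((Nat.le_mul_of_pos_right _ (Nat.pos_of_ne_zero fun e => hm (by simp [e]))).trans hk)
    have e3 := (pow_dvd_pow (l : R) hj).trans e2
    rw [Nat.cast_mul, Nat.cast_pow, pow_succ, mul_assoc,
      mul_dvd_mul_iff_left (pow_ne_zero j (Nat.cast_ne_zero.2 hl.ne_zero))] at e3
    refine (hQ.mem_or_mem (Q.mem_of_dvd e3 hlQ)).resolve_left fun k => hQ.ne_top ?_
    obtain ⟨u, v, e⟩ := (Nat.isCoprime_iff_coprime.2 (hl.coprime_iff_not_dvd.2 hm)).intCast (R := R)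
    rw [Ideal.eq_top_iff_one, ← e]
    exact Q.add_mem (Q.mul_mem_left _ (by simpa using hlQ)) (Q.mul_mem_left _ (by simpa using k))
  have e1 := congrArg (Polynomial.eval (-a i))
    (Multiset.prod_X_add_C_eq_sum_esymm (Finset.univ.val.map a))
  rw [Polynomial.eval_multiset_prod, Multiset.prod_eq_zero (Multiset.mem_map.2 ⟨_,
    Multiset.mem_map_of_mem _ (Multiset.mem_map_of_mem _ (Finset.mem_univ_val i)), by simp⟩),
    Polynomial.eval_finset_sum, Finset.sum_range_succ'] at e1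
  simp only [Polynomial.eval_mul, Polynomial.eval_C, Polynomial.eval_pow, Polynomial.eval_X,
    Multiset.esymm, Multiset.powersetCard_zero_left, Multiset.map_singleton, Multiset.prod_zero,
    Multiset.sum_singleton, one_mul] at e1
  refine neg_mem_iff.1 (hQ.mem_of_pow_mem _ ((eq_neg_of_add_eq_zero_right e1.symm) ▸ neg_mem
    (sum_mem fun k hk => Q.mul_mem_right _ (e _ (Nat.succ_ne_zero k) ?_))))
  simpa using hk

variable {K : Type} [Field K] [NumberField K] (j : K →+* Qb)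

/-- an embedding on integers -/
abbrev em (σ : K →ₐ[ℚ] Qb) : 𝓞 K →+* 𝓞 Qb := RingOfIntegers.mapRingHom σ.toRingHom

theorem ex_g (σ : K →ₐ[ℚ] Qb) : ∃ g : GQ, ∀ x, g (j x) = σ x := by
  let _ : Algebra K Qb := j.toAlgebra
  have : IsScalarTower ℚ K Qb := IsScalarTower.of_algebraMap_eq' (RingHom.ext_rat _ _)
  exact ⟨.ofBijective (σ.liftNormal Qb) (Algebra.IsAlgebraic.algHom_bijective _),
    fun x => σ.liftNormal_commutes Qb x⟩

theorem rank_le : Module.finrank ℚ K ≤ (GK j).index := by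
  choose g hg using ex_g j
  have := (GK j).quotient_finite_of_isOpen (isOpen_GK j)
  rw [← AlgHom.card ℚ K Qb, ← Nat.card_eq_fintype_card]
  refine Nat.card_le_card_of_injective (fun σ => (g σ : GQ ⧸ GK j)) fun σ τ e => AlgHom.ext fun x => ?_
  rw [← hg, ← hg, ← (g σ).apply_symm_apply (g τ _)]
  exact congrArg _ (QuotientGroup.eq.1 e x).symm

theorem sep {Q : Ideal (𝓞 Qb)} (hQ : Q.IsPrime) (hI : ∀ g, Inert Q g → g ∈ GK j) {g : GQ}
    (h : ∀ x, g • RingOfIntegers.mapRingHom j x - RingOfIntegers.mapRingHom j x ∈ Q) :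
    g ∈ GK j := by
  obtain ⟨u, hu⟩ := exists_smul j hQ (prime_smul g⁻¹ hQ) (Ideal.ext fun x => by
    rw [mem_below, mem_below, mem_smul, inv_inv]
    exact ⟨fun k => by simpa using Q.add_mem (h x) k, fun k => by simpa using Q.sub_mem k (h x)⟩)
  obtain ⟨v, hv⟩ := exists_lift j hQ (σ := g * u) (by rw [mul_smul, ← hu, smul_inv_smul]) fun x => by
    rw [mul_smul, show (u : GQ) • RingOfIntegers.mapRingHom j x = RingOfIntegers.mapRingHom j x from
      RingOfIntegers.ext (u.2 x)]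
    exact h x
  have := hI (v * (g * u)⁻¹) fun x => by simpa [mul_smul] using hv ((g * u)⁻¹ • x)
  rwa [mul_mem_cancel_left v.2, inv_mem_iff, mul_mem_cancel_right u.2] at this

theorem ov_smul {l : ℕ} {P : Ideal (𝓞 Qb)} (h : Ov l P) (g : GQ) : Ov l (g • P) :=
  ⟨h.1, prime_smul g h.2.1, by rw [mem_smul, smul_nat]; exact h.2.2⟩

theorem sep2 {l : ℕ} {P : Ideal (𝓞 Qb)} (hP : Ov l P)
    (hI : ∀ Q, Ov l Q → ∀ g, Inert Q g → g ∈ GK j) {g g' : GQ}
    (h : ∀ x, g • RingOfIntegers.mapRingHom j x - g' • RingOfIntegers.mapRingHom j x ∈ P) :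
    (g' : GQ ⧸ GK j) = g :=
  QuotientGroup.eq.2 (sep j (ov_smul hP g'⁻¹).2.1 (hI _ (ov_smul hP _)) fun x => by
    rw [mem_smul, inv_inv, smul_sub, mul_smul, smul_inv_smul]
    exact h x)

theorem not_dvd {l : ℕ} {P : Ideal (𝓞 Qb)} (hP : Ov l P)
    (hI : ∀ Q, Ov l Q → ∀ g, Inert Q g → g ∈ GK j) : ¬ (l : ℤ) ∣ discr K := by
  rintro ⟨c, hc⟩
  have := hP.2.1
  let e := (Fintype.equivOfCardEq ((Module.finrank_eq_card_basis (integralBasis K)).symm.trans
    (AlgHom.card ℚ K Qb).symm))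
  let M : Matrix _ _ (𝓞 Qb) := .of fun i k => em (e k) (RingOfIntegers.basis K i)
  have h1 : ((discr K : ℤ) : 𝓞 Qb) = M.det ^ 2 := RingOfIntegers.ext (by
    have := Algebra.discr_eq_det_embeddingsMatrixReindex_pow_two ℚ Qb (integralBasis K) e
    rw [← coe_discr, map_intCast] at this
    change algebraMap (𝓞 Qb) Qb _ = algebraMap (𝓞 Qb) Qb _
    rw [map_intCast, map_pow, RingHom.map_det, this]
    congr 2
    ext i k
    simp [M, Algebra.embeddingsMatrixReindex])
  have h2 : (M.map (Ideal.Quotient.mk P)).det = 0 := by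
    rw [← RingHom.mapMatrix_apply, ← RingHom.map_det, Ideal.Quotient.eq_zero_iff_mem]
    exact this.mem_of_pow_mem 2 (by rw [← h1, hc]; push_cast; exact P.mul_mem_right _ hP.2.2)
  obtain ⟨v, v0, hv⟩ := exists_mulVec_eq_zero_iff.2 h2
  choose g hg using ex_g j
  have hg' : ∀ σ x, g σ • RingOfIntegers.mapRingHom j x = em σ x := fun σ x =>
    RingOfIntegers.ext (hg σ x)
  have li := (linearIndependent_monoidHom (𝓞 K) (𝓞 Qb ⧸ P)).comp
    (fun k => ((Ideal.Quotient.mk P).comp (em (e k))).toMonoidHom) fun k k' h => e.injective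
      (AlgHom.ext fun x => by
        have := QuotientGroup.eq.1 (sep2 j hP hI (g := g (e k)) (g' := g (e k')) fun y => by
          rw [hg', hg', ← Ideal.Quotient.eq]
          exact DFunLike.congr_fun h y) x
        rw [← hg, ← hg, ← (g (e k')).apply_symm_apply (g (e k) _)]
        exact congrArg _ this)
  refine v0 (funext (Fintype.linearIndependent_iff.1 li v (funext fun x => ?_)))
  rw [← (RingOfIntegers.basis K).sum_repr x]
  simp only [Finset.sum_apply, Pi.smul_apply, Function.comp, RingHom.toMonoidHom_eq_coe,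
    MonoidHom.coe_coe, map_sum, map_zsmul, Finset.smul_sum, Pi.zero_apply]
  rw [Finset.sum_comm]
  refine Finset.sum_eq_zero fun i _ => ?_
  simp only [smul_comm (v _), ← Finset.smul_sum]
  rw [show ∑ k, v k • ((Ideal.Quotient.mk P).comp (em (e k))) (RingOfIntegers.basis K i) = 0 from
    (Finset.sum_congr rfl fun k _ => mul_comm _ _).trans (congrFun hv i), smul_zero]

include j in
theorem dif {l : ℕ} (hl : l.Prime) {P : Ideal (𝓞 K)} (hP : Prime P) (hlP : (l : 𝓞 K) ∈ P) {i : ℕ}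
    (h : P ^ i ∣ differentIdeal ℤ (𝓞 K)) :
    P ^ i ∣ Ideal.span {(l : 𝓞 K) ^ Module.finrank ℚ K} := by
  obtain ⟨a, Q, h1, h2⟩ := WfDvdMonoid.max_power_factor (a₀ := Ideal.span
    {(l : 𝓞 K) ^ Module.finrank ℚ K}) (by simp [hl.ne_zero]) hP.irreducible
  refine (pow_dvd_pow P (not_lt.1 fun ka => h1 (Ideal.dvd_iff_le.2 fun x hx => ?_))).trans ⟨Q, h2⟩
  obtain ⟨R, hR, rfl⟩ := exists_above j P (Ideal.isPrime_of_prime hP)
  refine newton hl hR (by simpa [mem_below] using hlP) (fun σ : K →ₐ[ℚ] Qb => em σ x)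
    (fun k hk => ?_) j.toRatAlgHom
  obtain ⟨c, hc⟩ := Ideal.mem_span_singleton.1 (by_contra fun hn =>
    not_dvd_differentIdeal_of_intTrace_not_mem ℤ (p := Ideal.span {(l : ℤ) ^ Module.finrank ℚ K})
      _ Q (by rw [← h2, Ideal.map_span]; simp) (x ^ k) (Q.pow_mem_of_mem hx k hk.bot_lt) hn
      ((pow_dvd_pow _ ka.le).trans h))
  refine ⟨c, RingOfIntegers.ext ?_⟩
  have e := congrArg (algebraMap ℚ Qb) (Algebra.algebraMap_intTrace (A := ℤ) (K := ℚ) (L := K) (x ^ k))
  rw [hc, trace_eq_sum_embeddings] at e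
  change algebraMap (𝓞 Qb) Qb _ = algebraMap (𝓞 Qb) Qb _
  rw [AlgHom.card]
  simpa using e.symm

theorem disc (T : Finset ℕ) (hT : UnS T (GK j)) : Real.log |(discr K : ℝ)| ≤
    (Module.finrank ℚ K : ℝ) ^ 2 * ∑ l ∈ T, Real.log l := by
  have h1 : differentIdeal ℤ (𝓞 K) ∣
      Ideal.span {((∏ l ∈ T.erase 0, l : ℕ) : 𝓞 K) ^ Module.finrank ℚ K} := by
    refine (UniqueFactorizationMonoid.dvd_iff_emultiplicity_le differentIdeal_ne_bot).2 fun P hP =>
      emultiplicity_le_emultiplicity_iff.2 fun i hi => ?_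
    rcases i.eq_zero_or_pos with rfl | i0
    · simp
    have hp := Ideal.isPrime_of_prime hP
    have hd := Ideal.le_of_dvd ((dvd_pow_self P i0.ne').trans hi) (discr_mem_differentIdeal K _)
    obtain ⟨l, hl, l1, l2⟩ : ∃ l : ℕ, l.Prime ∧ (l : ℤ) ∣ discr K ∧ (l : 𝓞 K) ∈ P := by
      obtain ⟨l, h1, h2⟩ := (Ideal.IsPrime.multiset_prod_mem_iff_exists_mem hp
        (((discr K).natAbs.primeFactorsList : Multiset ℕ).map (Nat.cast : ℕ → 𝓞 K))).1 (by
          rw [← Nat.cast_multiset_prod, Multiset.prod_coe, Nat.prod_primeFactorsList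
            (Int.natAbs_ne_zero.2 (discr_ne_zero K)), Nat.cast_natAbs]
          rcases abs_choice (discr K) with e | e <;> simp [e, hd])
      obtain ⟨l, h3, rfl⟩ := Multiset.mem_map.1 h1
      exact ⟨l, Nat.prime_of_mem_primeFactorsList h3,
        Int.natCast_dvd.2 (Nat.dvd_of_mem_primeFactorsList h3), h2⟩
    obtain ⟨R, hR, e⟩ := exists_above j P hp
    refine (dif j hl hP l2 hi).trans (Ideal.dvd_iff_le.2 <| Ideal.span_singleton_le_span_singleton.2
      (pow_dvd_pow_of_dvd (Nat.cast_dvd_cast (Finset.dvd_prod_of_mem _ (Finset.mem_erase.2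
        ⟨hl.ne_zero, by_contra fun k => not_dvd j (P := R) ⟨hl, hR, ?_⟩
          (fun Q hQ => hT l Q hQ k) l1⟩))) _))
    simpa [← e, mem_below] using l2
  have h2 := map_dvd Ideal.absNorm h1
  rw [absNorm_differentIdeal K, ← Ideal.span_singleton_pow, map_pow, Ideal.absNorm_span_natCast,
    RingOfIntegers.rank] at h2
  have p0 : 0 < ∏ l ∈ T.erase 0, l :=
    Finset.prod_pos fun l h => Nat.pos_of_ne_zero (Finset.mem_erase.1 h).1
  have h3 : |(discr K : ℝ)| ≤ (((∏ l ∈ T.erase 0, l : ℕ) : ℝ) ^ Module.finrank ℚ K) ^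
      Module.finrank ℚ K := by
    rw [← Int.cast_abs, ← Nat.cast_natAbs]
    exact_mod_cast Nat.le_of_dvd (by positivity) h2
  refine (Real.log_le_log (abs_pos.2 (by exact_mod_cast discr_ne_zero K)) h3).trans_eq ?_
  rw [Real.log_pow, Real.log_pow, Nat.cast_prod, Real.log_prod fun l h => by
    exact_mod_cast (Finset.mem_erase.1 h).1, Finset.sum_erase _ (by simp), sq, mul_assoc]

theorem int_mod {I : Ideal (𝓞 K)} {p : ℕ} (hp : p.Prime) (h : Ideal.absNorm I = p) (x : 𝓞 K) :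
    ∃ a : ℤ, x - a ∈ I := by
  have := Fact.mk hp
  have := Ideal.isPrime_of_irreducible_absNorm (h ▸ hp)
  obtain ⟨a, ha⟩ := mem_zmultiples_of_prime_card (G := 𝓞 K ⧸ I) h one_ne_zero
    (g' := Ideal.Quotient.mk I x)
  exact ⟨a, Ideal.Quotient.eq.1 (by simpa using ha.symm)⟩

theorem count {p : ℕ} {P : Ideal (𝓞 Qb)} {σ : GQ} (hP : Ov p P)
    (hI : ∀ Q, Ov p Q → ∀ g, Inert Q g → g ∈ GK j) (hσ : Fb p P σ) :
    P016Z.aK K p = Nat.card {c : GQ ⧸ GK j // σ • c = c} := by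
  have m : ∀ (g : GQ) x, x ∈ below j (g⁻¹ • P) ↔ g • RingOfIntegers.mapRingHom j x ∈ P :=
    fun g x => by rw [mem_below, mem_smul, inv_inv]
  have n : ∀ c : {c : GQ ⧸ GK j // σ • c = c}, Ideal.absNorm (below j (c.1.out⁻¹ • P)) = p := by
    rintro ⟨c, hc⟩
    have := (ov_smul hP c.out⁻¹).2.1
    have : (below j (c.out⁻¹ • P)).IsPrime := Ideal.comap_isPrime _ _
    obtain ⟨-, h1⟩ := H853.card_le_of_pow_eq (R := 𝓞 K ⧸ below j (c.out⁻¹ • P)) hP.1.one_lt
      fun x => by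
        obtain ⟨x, rfl⟩ := Ideal.Quotient.mk_surjective x
        rw [← map_pow, eq_comm, Ideal.Quotient.eq, m, map_sub, map_pow, smul_sub, smul_pow']
        have e := hσ (c.out • RingOfIntegers.mapRingHom j x)
        rwa [show σ • c.out • RingOfIntegers.mapRingHom j x = c.out • RingOfIntegers.mapRingHom j x
          from ?_] at e
        rw [← c.out_eq, MulAction.Quotient.smul_mk, c.out_eq] at hc
        rw [← mul_smul, eq_comm, ← inv_smul_eq_iff, ← mul_smul]
        exact RingOfIntegers.ext (QuotientGroup.eq.1 (hc.trans c.out_eq.symm) x)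
    have h2 := Ideal.absNorm_dvd_absNorm_of_le ((Ideal.span_singleton_le_iff_mem _).2
      ((m c.out p).2 (by rw [map_natCast, smul_nat]; exact hP.2.2)))
    rw [Ideal.absNorm_span_natCast] at h2
    obtain ⟨k, -, h3⟩ := (Nat.dvd_prime_pow hP.1).1 h2
    have h4 : k ≠ 0 := fun e => this.ne_top (Ideal.absNorm_eq_one_iff.1 (by rw [h3, e, pow_zero]))
    exact le_antisymm h1 (h3 ▸ Nat.le_self_pow h4 p)
  have z : ∀ (g : GQ) {p' : ℕ}, p'.Prime → Ideal.absNorm (below j (g⁻¹ • P)) = p' → ∀ x, ∃ a : ℤ,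
      ∀ g' : GQ, below j (g⁻¹ • P) = below j (g'⁻¹ • P) →
        g' • RingOfIntegers.mapRingHom j x - a ∈ P := fun g _ h1 h2 x =>
    (int_mod h1 h2 x).imp fun a ha g' e => by
      rwa [e, m, map_sub, map_intCast, smul_sub, show g' • (a : 𝓞 Qb) = a from
        map_intCast (MulSemiringAction.toRingHom GQ _ g') a] at ha
  refine (Nat.card_eq_of_bijective (fun c => (⟨_, n c⟩ : {I : Ideal (𝓞 K) // Ideal.absNorm I = p}))
    ⟨fun c c' e => Subtype.ext ?_, fun I => ?_⟩).symm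
  · rw [← c.1.out_eq, ← c'.1.out_eq]
    refine sep2 j hP hI fun x => ?_
    obtain ⟨a, ha⟩ := z _ hP.1 (n c) x
    simpa using P.sub_mem (ha _ (congrArg Subtype.val e)) (ha _ rfl)
  · obtain ⟨I, hn⟩ := I
    obtain ⟨R, hR, rfl⟩ := exists_above j I (Ideal.isPrime_of_irreducible_absNorm
      (by rw [hn]; exact hP.1))
    have hl : (p : 𝓞 Qb) ∈ R := by
      have := (below j R).absNorm_mem
      rw [hn, mem_below] at this
      simpa using this
    obtain ⟨⟨g, hg⟩, e⟩ := exists_smul (algebraMap ℚ Qb) hP.2.1 hR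
      (by rw [below_rat hP.1 hP.2.1 hP.2.2, below_rat hP.1 hR hl])
    obtain ⟨g, rfl⟩ : ∃ u, g = u⁻¹ := ⟨g⁻¹, (inv_inv g).symm⟩
    obtain rfl : R = g⁻¹ • P := e
    refine ⟨⟨g, sep2 j hP hI (g' := σ * g) fun x => ?_⟩, Subtype.ext (Ideal.ext fun x => ?_)⟩
    · obtain ⟨a, ha⟩ := z g hP.1 hn x
      have h1 := (P022D.W.phi_mem hP.1 hP.2.1 hσ _).2 (ha g rfl)
      rw [smul_sub, show σ • (a : 𝓞 Qb) = a from
        map_intCast (MulSemiringAction.toRingHom GQ _ σ) a, ← mul_smul] at h1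
      simpa using P.sub_mem (ha g rfl) h1
    · obtain ⟨u, hu⟩ := QuotientGroup.mk_out_eq_mul (GK j) g
      rw [m, m, hu, mul_smul, show (u : GQ) • RingOfIntegers.mapRingHom j x =
        RingOfIntegers.mapRingHom j x from RingOfIntegers.ext (u.2 x)]

end Fld

open NumberField Vale.Agent.P022 in
theorem fld : FLD := ⟨1, fun n H T hH hn hT hc => by
  obtain ⟨K, _, _, j, rfl⟩ := H853.exists_fix H hH
  refine ⟨K, _, _, ⟨fun v => InfinitePlace.not_isReal_iff_isComplex.1 fun hv => ?_⟩, ?_,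
    fun p P σ h1 h2 h3 => Fld.count j h1 (fun Q hQ => hT p Q hQ h2) h3⟩
  · obtain ⟨ι, h1⟩ := H916.exists_extend j v.embedding
    obtain ⟨c, h2⟩ := H916.exists_conj_elt ι
    exact hc c ⟨ι, h2⟩ fun x => ι.injective (by
      rw [h2, h1]
      exact DFunLike.congr_fun (InfinitePlace.isReal_iff.1 hv) x)
  · have h1 : (Module.finrank ℚ K : ℝ) ≤ n := by exact_mod_cast (Fld.rank_le j).trans hn
    have h2 : (1 : ℝ) ≤ Module.finrank ℚ K := by exact_mod_cast Module.finrank_pos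
    have h3 : 0 ≤ ∑ l ∈ T, Real.log l := Finset.sum_nonneg fun l _ => Real.log_natCast_nonneg l
    have h4 := mul_le_mul_of_nonneg_right (pow_le_pow_left₀ (zero_le_one.trans h2) h1 2) h3
    have := Fld.disc j T hT
    rw [P016Z.size]
    nlinarith⟩

end Vale.Agent.P004S
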