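import Vale.Agent.P004S.Bas2

/-!
# P004, block SMITH, row FM: Fourier analysis and linear algebra (helper48)
-/

set_option linter.all false

noncomputable section

namespace Vale.Agent.P004S.Fm

open Finset Matrix
open Vale.Agent.P022 (Qb GQ)

/-! ### signs -/

theorem sgn_zero : sgn 0 = 1 := if_pos rfl

theorem sgn_one : sgn 1 = -1 := if_neg one_ne_zero

theorem sgn_add (a b : ZMod 2) : sgn (a + b) = sgn a * sgn b := by
  rcases z2 a with rfl | rfl <;> rcases z2 b with rfl | rfl <;>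
    simp [sgn_zero, sgn_one, show (1 + 1 : ZMod 2) = 0 from rfl]

theorem sgn_sum {ι : Type} (s : Finset ι) (f : ι → ZMod 2) :
    sgn (∑ i ∈ s, f i) = ∏ i ∈ s, sgn (f i) := by
  classical
  induction s using Finset.induction_on with
  | empty => simp [sgn_zero]
  | insert i s hi ih => rw [sum_insert hi, prod_insert hi, sgn_add, ih]

theorem abs_sgn (a : ZMod 2) : |sgn a| = 1 := by
  rcases z2 a with rfl | rfl <;> simp [sgn_zero, sgn_one]

theorem sum_sgn {T : Type} [AddCommGroup T] [Fintype T] (l : T → ZMod 2)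
    (h : ∀ a b, l (a + b) = l a + l b) : 0 ≤ ∑ t, sgn (l t) := by
  by_cases h0 : ∀ t, l t = 0
  · exact sum_nonneg fun t _ => by rw [h0, sgn_zero]; exact zero_le_one
  obtain ⟨s, hs⟩ := not_forall.1 h0
  have := Fintype.sum_equiv (Equiv.addRight s) (fun t => -sgn (l t)) (fun t => sgn (l t)) fun t => by
    rw [Equiv.coe_addRight, h, sgn_add, (z2 _).resolve_left hs, sgn_one, mul_neg_one]
  rw [sum_neg_distrib] at this
  linarith

open Classical in
theorem chs_eq (pl : Pl) (H : Subgroup GQ) [Fintype (GQ ⧸ H)] (ξ : GQ → ZMod 2) (x : ℕ) :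
    chs pl H ξ x =
      ∑ c : GQ ⧸ H, if pl.σ x • c = c then sgn (ξ (c.out⁻¹ * pl.σ x * c.out)) else 0 :=
  finsum_eq_sum_of_fintype _

theorem abs_chs (pl : Pl) {H : Subgroup GQ} {n : ℕ} (h0 : H.index ≠ 0) (hn : H.index ≤ n)
    (ξ : GQ → ZMod 2) (x : ℕ) : |chs pl H ξ x| ≤ n := by
  haveI := H.fintypeOfIndexNeZero h0
  rw [chs_eq]
  refine (abs_sum_le_sum_abs _ _).trans ((sum_le_card_nsmul _ _ 1 fun c _ => ?_).trans ?_)
  · split_ifs <;> simp [abs_sgn]
  · rw [nsmul_one, card_univ, ← Nat.card_eq_fintype_card]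
    exact_mod_cast hn

section four

variable {J T : Type} [Fintype J] [DecidableEq J] [AddCommGroup T] [Fintype T] (pl : Pl)
  (H : J → Subgroup GQ) (ξ : T → J → GQ → ZMod 2) (c : T → ZMod 2)

/-- the majorant -/
def mj (x : J → ℕ) : ℝ := ∑ t, sgn (c t) * ∏ j, chs pl (H j) (ξ t j) (x j)

open Classical in
/-- its terms -/
def tm (x : J → ℕ) (a : ∀ j, GQ ⧸ H j) : ℝ := if ∀ j, pl.σ (x j) • a j = a j then
  ∑ t, sgn (c t + ∑ j, ξ t j ((a j).out⁻¹ * pl.σ (x j) * (a j).out)) else 0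

theorem mj_eq [∀ j, Fintype (GQ ⧸ H j)] (x : J → ℕ) :
    mj pl H ξ c x = ∑ a, tm pl H ξ c x a := by
  simp only [mj, tm, chs_eq, prod_univ_sum, Fintype.piFinset_univ, mul_sum]
  rw [sum_comm]
  refine sum_congr rfl fun a _ => ?_
  by_cases k : ∀ j, pl.σ (x j) • a j = a j
  · simp only [k, if_true, implies_true, sgn_add, sgn_sum]
  · rw [if_neg k]
    obtain ⟨i, hi⟩ := not_forall.1 k
    exact sum_eq_zero fun t _ => mul_eq_zero_of_right _ (prod_eq_zero (mem_univ i) (if_neg hi))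

variable {ξ c}

theorem tm_nonneg (hξ : ∀ t t' j g, ξ (t + t') j g = ξ t j g + ξ t' j g)
    (hc : ∀ t t', c (t + t') = c t + c t') (x : J → ℕ) (a : ∀ j, GQ ⧸ H j) :
    0 ≤ tm pl H ξ c x a := by
  unfold tm
  split_ifs
  · exact sum_sgn _ fun t t' => by simp only [hc, hξ, sum_add_distrib]; abel
  · exact le_rfl

theorem tm_one (hj : ∀ t j, ∀ g ∈ H j, ∀ k ∈ H j, ξ t j (k⁻¹ * g * k) = ξ t j g) {x : J → ℕ}
    (a : ∀ j, pl.σ (x j) ∈ H j) (b : ∀ t, ∑ j, ξ t j (pl.σ (x j)) = c t) :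
    tm pl H ξ c x (fun j => ((1 : GQ) : GQ ⧸ H j)) = Fintype.card T := by
  have m : ∀ j, (((1 : GQ) : GQ ⧸ H j)).out ∈ H j := fun j => by
    simpa using QuotientGroup.eq.1 (QuotientGroup.out_eq' ((1 : GQ) : GQ ⧸ H j))
  have k : ∀ j, pl.σ (x j) • ((1 : GQ) : GQ ⧸ H j) = ((1 : GQ) : GQ ⧸ H j) := fun j =>
    QuotientGroup.eq.2 (by simpa using a j)
  rw [tm, if_pos k]
  simp only [fun t j => hj t j _ (a j) _ (m j), b, CharTwo.add_self_eq_zero, sgn_zero]
  simp

end four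

open Classical in
theorem prod_bd {J : Type} [Fintype J] {s w : J → ℝ} {n κ : ℝ} (p : J → Prop) (hκ : 0 ≤ κ)
    (hn : ∀ j : J, 1 ≤ n) (hw : ∀ j, 0 ≤ w j) (b : ∀ j, |s j| ≤ n * w j)
    (he : ∀ j, ¬ p j → |s j| ≤ κ * w j) :
    |∏ j, s j| ≤ n ^ Fintype.card J * (∏ j, w j) * ((if ∀ j, p j then 1 else 0) + κ) := by
  have e : n ^ Fintype.card J * ∏ j, w j = ∏ j, n * w j := by
    rw [prod_mul_distrib, prod_const, card_univ]
  have p0 : ∀ j, 0 ≤ n * w j := fun j => (abs_nonneg _).trans (b j)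
  rw [abs_prod, e]
  split_ifs with k
  · exact (prod_le_prod (fun j _ => abs_nonneg _) fun j _ => b j).trans
      (le_mul_of_one_le_right (prod_nonneg fun j _ => p0 j) (by linarith))
  · obtain ⟨i, hi⟩ := not_forall.1 k
    rw [zero_add, ← mul_prod_erase _ _ (mem_univ i), ← mul_prod_erase _ _ (mem_univ i),
      mul_right_comm]
    refine mul_le_mul ((he i hi).trans ?_) (prod_le_prod (fun j _ => abs_nonneg _)
      fun j _ => b j) (prod_nonneg fun j _ => abs_nonneg _) (mul_nonneg (p0 i) hκ)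
    rw [mul_comm]
    exact mul_le_mul_of_nonneg_right (le_mul_of_one_le_left (hw i) (hn i)) hκ

/-- **the Fourier bound** -/
theorem four {J T : Type} [Fintype J] [DecidableEq J] [AddCommGroup T] [Fintype T] (pl : Pl)
    (X : J → Finset ℕ) (H : J → Subgroup GQ) (ξ : T → J → GQ → ZMod 2) (c : T → ZMod 2) (n : ℕ)
    {κ : ℝ} (hκ : 0 ≤ κ) (h0 : ∀ j, (H j).index ≠ 0) (hn : ∀ j, (H j).index ≤ n)
    (hξ : ∀ t t' j g, ξ (t + t') j g = ξ t j g + ξ t' j g) (hc : ∀ t t', c (t + t') = c t + c t')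
    (hj : ∀ t j, ∀ g ∈ H j, ∀ k ∈ H j, ξ t j (k⁻¹ * g * k) = ξ t j g)
    (he : ∀ t j, ¬ (∀ g ∈ H j, ξ t j g = 0) →
      |∑ x ∈ X j, chs pl (H j) (ξ t j) x| ≤ κ * (X j).card)
    (G : Finset (J → ℕ)) (hG : ∀ x ∈ G, x ∈ Fintype.piFinset X ∧ (∀ j, pl.σ (x j) ∈ H j) ∧
      ∀ t, ∑ j, ξ t j (pl.σ (x j)) = c t) :
    (Fintype.card T : ℝ) * G.card ≤ n ^ Fintype.card J * (∏ j, ((X j).card : ℝ)) *
      (Nat.card {t // ∀ j, ∀ g ∈ H j, ξ t j g = 0} + κ * Fintype.card T) := by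
  classical
  haveI := fun j => (H j).fintypeOfIndexNeZero (h0 j)
  have h2 := tm_nonneg pl H hξ hc
  have h3 : ∀ x ∈ G, (Fintype.card T : ℝ) ≤ mj pl H ξ c x := fun x hx => by
    rw [mj_eq, ← tm_one pl H hj (hG x hx).2.1 (hG x hx).2.2]
    exact single_le_sum (fun a _ => h2 x a) (mem_univ _)
  have h4 := fun t => prod_bd (s := fun j => ∑ x ∈ X j, chs pl (H j) (ξ t j) x) (n := n)
    (w := fun j => (X j).card) (fun j => ∀ g ∈ H j, ξ t j g = 0) hκ
    (fun i => by exact_mod_cast (Nat.one_le_iff_ne_zero.2 (h0 i)).trans (hn i))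
    (fun j => Nat.cast_nonneg _) (fun j => (abs_sum_le_sum_abs _ _).trans
      ((sum_le_card_nsmul _ _ _ fun x _ => abs_chs pl (h0 j) (hn j) _ x).trans
        (by rw [nsmul_eq_mul, mul_comm]))) (he t)
  calc (Fintype.card T : ℝ) * G.card ≤ ∑ x ∈ G, mj pl H ξ c x := by
        rw [mul_comm, ← nsmul_eq_mul]; exact card_nsmul_le_sum _ _ _ h3
    _ ≤ ∑ x ∈ Fintype.piFinset X, mj pl H ξ c x :=
        sum_le_sum_of_subset_of_nonneg (fun x hx => (hG x hx).1) fun x _ _ => by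
          rw [mj_eq]; exact sum_nonneg fun a _ => h2 x a
    _ = ∑ t, sgn (c t) * ∏ j, ∑ x ∈ X j, chs pl (H j) (ξ t j) x := by
        simp only [mj, prod_univ_sum, mul_sum]
        exact sum_comm
    _ ≤ _ := by
        refine (sum_le_sum fun t _ => (le_abs_self _).trans
          ((by rw [abs_mul, abs_sgn, one_mul] : _ = _).trans_le (h4 t))).trans (le_of_eq ?_)
        rw [← mul_sum, sum_add_distrib, sum_boole, Nat.card_eq_fintype_card, Fintype.card_subtype,
          sum_const, card_univ, nsmul_eq_mul, mul_comm _ κ]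

/-! ### linear algebra -/

theorem sec {k A B : Type} [Field k] [AddCommGroup A] [Module k A] [AddCommGroup B] [Module k B]
    (R : Submodule k (A × B)) (h : ∀ a, ∃ b, (a, b) ∈ R) :
    ∃ s : A →ₗ[k] B, ∀ a, (a, s a) ∈ R := by
  obtain ⟨g, hg⟩ := ((LinearMap.fst k A B).comp R.subtype).exists_rightInverse_of_surjective
    (LinearMap.range_eq_top.2 fun a => (h a).elim fun b m => ⟨⟨_, m⟩, rfl⟩)
  refine ⟨(LinearMap.snd k A B).comp (R.subtype.comp g), fun a => ?_⟩
  have := (g a).2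
  rwa [show (g a).1 = (a, (g a).1.2) from Prod.ext (LinearMap.congr_fun hg a) rfl] at this

theorem card_kr {k A B : Type} [Ring k] [AddCommGroup A] [Module k A] [AddCommGroup B] [Module k B]
    (f : A →ₗ[k] B) : Nat.card A = Nat.card (LinearMap.ker f) * Nat.card (LinearMap.range f) := by
  rw [Submodule.card_eq_card_quotient_mul_card (LinearMap.ker f),
    Nat.card_congr f.quotKerEquivRange.toEquiv]

/-- the pairing on pairs -/
def Bn : LinearMap.BilinForm (ZMod 2) N :=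
  LinearMap.mk₂ (ZMod 2) (fun x y => wp x.1 y.1 + wp x.2 y.2)
    (fun a b c => by simp only [Prod.fst_add, Prod.snd_add, wp_add_left]; ring)
    (fun a b c => by simp only [Prod.smul_fst, Prod.smul_snd, wp_smul_left, smul_eq_mul]; ring)
    (fun a b c => by simp only [Prod.fst_add, Prod.snd_add, wp_add_right]; ring)
    (fun a b c => by simp only [Prod.smul_fst, Prod.smul_snd, wp_smul_right, smul_eq_mul]; ring)

theorem Bn_apply (x y : N) : Bn x y = wp x.1 y.1 + wp x.2 y.2 := rfl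

theorem Bn_comm (x y : N) : Bn x y = Bn y x := by
  simp only [Bn_apply, wp, CharTwo.sub_eq_add]; ring

theorem Bn_sep {x : N} (h : ∀ y, Bn y x = 0) : x = 0 := by
  have a := h (![0, 1], 0)
  have b := h (![1, 0], 0)
  have c := h (0, ![0, 1])
  have d := h (0, ![1, 0])
  simp [Bn_apply, wp] at a b c d
  ext i <;> fin_cases i <;> simp [a, b, c, d]

theorem Bn_nd : Bn.Nondegenerate :=
  ⟨fun x h => Bn_sep fun y => (Bn_comm y x).trans (h y), fun x h => Bn_sep h⟩

theorem card_orth (K : Submodule (ZMod 2) N) :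
    Nat.card (Bn.orthogonal K) * Nat.card K = Nat.card N := by
  rw [Module.natCard_eq_pow_finrank (K := ZMod 2), Module.natCard_eq_pow_finrank (K := ZMod 2)
    (V := K), Module.natCard_eq_pow_finrank (K := ZMod 2) (V := N), ← pow_add,
    LinearMap.BilinForm.finrank_orthogonal Bn_nd, Nat.sub_add_cancel K.finrank_le]

theorem card_sup (H I : Submodule (ZMod 2) N) :
    Nat.card (H ⊔ I : Submodule (ZMod 2) N) = Nat.card (H.map I.mkQ) * Nat.card I := by
  rw [card_kr (I.mkQ.domRestrict (H ⊔ I)), LinearMap.range_domRestrict, LinearMap.ker_domRestrict,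
    Submodule.ker_mkQ, Nat.card_congr (Submodule.comapSubtypeEquivOfLe le_sup_right).toEquiv,
    Submodule.map_sup, Submodule.mkQ_map_self, sup_bot_eq, mul_comm]

theorem card_hq (r : Rp) (H : Submodule (ZMod 2) N) (g : GQ) :
    Nat.card (Bn.orthogonal (H ⊔ Im r g)) * hq r H g = Nat.card (Bn.orthogonal (Im r g)) := by
  refine Nat.eq_of_mul_eq_mul_right (Nat.card_pos (α := Im r g)) ?_
  rw [card_orth, mul_assoc, hq, ← card_sup, card_orth]

end Vale.Agent.P004S.Fm
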