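import Vale.Agent.P004S.Fm0
import Vale.Agent.P004S.Cls

/-!
# P004, block SMITH, row FM: the extended module and the reciprocity relation (helper48)
-/

set_option linter.all false

noncomputable section

namespace Vale.Agent.P004S.Fm

open NumberField Finset Matrix
open Vale.Agent.P022 (Qb GQ IsConj)
open Vale.Agent.P027M.S (Inert)
open Vale.Agent.P022D.W (dec)
open Vale.Agent.P022E.GW (Ov Fb Gn Ch)
open Vale.Agent.P004S.Ms

variable {r : Rp} {S : Finset ℕ}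

abbrev Nh : Type := N × ZMod 2

/-- the action on the extended module -/
def rh (h : Rep r S) : GQ →* Nh →ₗ[ZMod 2] Nh where
  toFun g := (dg (rb r g)).prodMap LinearMap.id
  map_one' := LinearMap.ext fun x => Prod.ext (by rw [rb_one]; exact dg_one _) rfl
  map_mul' g k := LinearMap.ext fun x => Prod.ext (by rw [h.rb_mul]; exact dg_mul _ _ _) rfl

theorem rh_apply (h : Rep r S) (g : GQ) (x : Nh) : rh h g x = (dg (rb r g) x.1, x.2) := rfl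

theorem rh_tr (h : Rep r S) {g : GQ} (hg : g ∈ h.Kn 1) : rh h g = 1 :=
  LinearMap.ext fun x => Prod.ext (by rw [rh_apply, h.tr_one_iff.1 hg]; exact dg_one _) rfl

theorem rh_lc (h : Rep r S) : IsLocallyConstant (rh h) :=
  h.rb_lc.comp fun A => (dg A).prodMap (LinearMap.id : ZMod 2 →ₗ[ZMod 2] ZMod 2)

theorem rh_in (h : Rep r S) {l : ℕ} {P : Ideal (𝓞 Qb)} (ho : Ov l P) (hl : l ∉ S) {g : GQ}
    (hg : Inert P g) : rh h g = 1 := rh_tr h (h.Kn_uns 1 l P ho hl g hg)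

/-- the pairing on the extended module -/
def Bh : Nh →ₗ[ZMod 2] Nh →ₗ[ZMod 2] ZMod 2 :=
  Bn.compl₁₂ (LinearMap.fst _ _ _) (LinearMap.fst _ _ _) +
    (LinearMap.mul (ZMod 2) (ZMod 2)).compl₁₂ (LinearMap.snd _ _ _) (LinearMap.snd _ _ _)

theorem Bh_apply (x y : Nh) : Bh x y = Bn x.1 y.1 + x.2 * y.2 := rfl

theorem Bn_dg (h : Rep r S) (g : GQ) (x y : N) :
    Bn (dg (rb r g) x) (dg (rb r g) y) = Bn x y := by
  simp only [Bn_apply, dg_apply, h.wp_rb]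

theorem Bh_rh (h : Rep r S) (g : GQ) (x y : Nh) : Bh (rh h g x) (rh h g y) = Bh x y := by
  simp only [Bh_apply, rh_apply, Bn_dg h]

/-- cocycles -/
def Zh (h : Rep r S) : Submodule (ZMod 2) (GQ → Nh) where
  carrier := {Θ | IsLocallyConstant Θ ∧ ∀ g k, Θ (g * k) = Θ g + rh h g (Θ k)}
  add_mem' {a b} ha hb := ⟨ha.1.add hb.1, fun g k => by
    simp only [Pi.add_apply, ha.2 g k, hb.2 g k, map_add]; abel⟩
  zero_mem' := ⟨IsLocallyConstant.const 0, fun g k => by simp⟩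
  smul_mem' c a ha := ⟨ha.1.comp (c • ·), fun g k => by
    simp only [Pi.smul_apply, ha.2 g k, map_smul, smul_add]⟩

section

variable {h : Rep r S} {Θ : GQ → Nh}

theorem z_one (z : Θ ∈ Zh h) : Θ 1 = 0 := by
  have := z.2 1 1
  rw [one_mul, map_one, Module.End.one_apply] at this
  exact left_eq_add.1 this

theorem z_conj (z : Θ ∈ Zh h) (t : GQ) {g : GQ} (hg : rh h g = 1) :
    Θ (t * g * t⁻¹) = rh h t (Θ g) := by
  have h1 := z.2 (t * g * t⁻¹) t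
  rw [inv_mul_cancel_right, z.2 t g, map_mul, map_mul, hg, mul_one, ← map_mul, mul_inv_cancel,
    map_one, Module.End.one_apply, add_comm] at h1
  exact (add_right_cancel h1).symm

/-- the kernel of a cocycle -/
def zk (z : Θ ∈ Zh h) : Subgroup GQ where
  carrier := {g | Θ g = 0}
  mul_mem' {g k} hg hk := by
    show Θ (g * k) = 0
    rw [z.2, hg, hk, map_zero, add_zero]
  one_mem' := z_one z
  inv_mem' {g} hg := by
    have := z.2 g⁻¹ g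
    rw [inv_mul_cancel, z_one z, hg, map_zero, add_zero] at this
    exact this.symm

theorem z_un (lt : LT) (z : Θ ∈ Zh h) (pl : Pl) {l : ℕ} {P : Ideal (𝓞 Qb)} (ho : Ov l P)
    (hl : l ∉ S) (h0 : Θ (pl.τ l) = 0) {g : GQ} (hg : Inert P g) : Θ g = 0 := by
  have ho' := pl.ov l ho.1
  obtain ⟨k, hk⟩ := inert_conj ho' ho
  have hi := hk g hg
  obtain ⟨j, hj⟩ := (lt l _ ho').1 (pl.τ l) 1 _ (h.ne_two hl) (pl.gn l ho.1 (h.ne_two hl)) hi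
    (zk z) (z.1 {0})
  have h1 := hj Nh Θ (fun a => by rw [pow_one, two_smul, add_self]) (fun g _ k => k)
    fun a b ha hb => by rw [z.2, rh_in h ho' hl ha, Module.End.one_apply]
  have := z_conj z k (rh_in h ho' hl hi)
  rwa [h1, h0, smul_zero, map_zero, show k * (k⁻¹ * g * k) * k⁻¹ = g by group] at this

end

/-- the extended cocycle of a pair -/
def hat (d : ℤ) (Φ : GQ → N) (g : GQ) : Nh := (Φ g, nu d g)

section

variable {d d' : ℤ} {Φ Φ' : GQ → N}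

theorem hat_mem (h : Rep r S) (hp : Pre2 r S d Φ) : hat d Φ ∈ Zh h :=
  ⟨(pre_lc hp).prodMk (nu_lc d), fun g k => Prod.ext (pre_coc hp g k) (nu_mul d g k)⟩

theorem hat_un (h : Rep r S) (hp : Pre2 r S d Φ) {l : ℕ} {P : Ideal (𝓞 Qb)} (ho : Ov l P)
    (hl : l ∉ S) (hd : ¬ (l : ℤ) ∣ d) {g : GQ} (hg : Inert P g) : hat d Φ g = 0 :=
  Prod.ext (Prod.ext (hp.1.2.1 l P ho ⟨hl, hd⟩ g hg) (hp.2.2.1 l P ho ⟨hl, hd⟩ g hg))
    (nu_inert ho (h.ne_two hl) hd hg)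

theorem hat_tau (h : Rep r S) (sq : Squarefree d) (pl : Pl) {q : ℕ} (hq : q.Prime) (hS : q ∉ S)
    (hd : (q : ℤ) ∣ d) : hat d Φ (pl.τ q) = (Φ (pl.τ q), 1) :=
  Prod.ext rfl (nu_tau (pl.ov q hq) (h.ne_two hS) sq hd (pl.gn q hq (h.ne_two hS)))

theorem pre_fix (h : Rep r S) {φ : GQ → W} (hp : Pre r S d d φ) (sq : Squarefree d) (pl : Pl)
    {q : ℕ} (hq : q.Prime) (hS : q ∉ S) (hd : (q : ℤ) ∣ d) :
    rb r (pl.σ q) *ᵥ φ (pl.τ q) = φ (pl.τ q) := by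
  obtain ⟨n, a1, a2, a3, -⟩ := pre_pt h hp sq pl hq hS hd
  rw [← a2, ← h.rv_mt _ a1, rv_eq_iff ((h.norm_mt _ _).trans a1) a1]
  exact a3

theorem pre_sub (h : Rep r S) {φ φ' : GQ → W} (hp : Pre r S d d φ) (hp' : Pre r S d' d' φ')
    (sq : Squarefree d) (sq' : Squarefree d') (pl : Pl) {q : ℕ} (hq : q.Prime) (hS : q ∉ S)
    (hd : (q : ℤ) ∣ d) (hd' : (q : ℤ) ∣ d') (e : φ (pl.τ q) = φ' (pl.τ q)) :
    ∃ y : W, φ (pl.σ q) + nu d (pl.σ q) • φ (pl.τ q) -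
      (φ' (pl.σ q) + nu d' (pl.σ q) • φ' (pl.τ q)) = rb r (pl.σ q) *ᵥ y - y := by
  obtain ⟨n, a1, a2, a3, a4⟩ := pre_pt h hp sq pl hq hS hd
  obtain ⟨m, b1, b2, b3, b4⟩ := pre_pt h hp' sq' pl hq hS hd'
  have k : ∀ v : V, ‖v‖ ≤ 1 / 2 → ‖(1 / 2 : ℚ_[2]) • v‖ ≤ 1 := fun v hv => by
    rw [norm_smul, norm_half]; linarith
  have c := k _ ((rv_eq_iff a1 b1).1 (by rw [a2, b2, e]))
  refine ⟨rv ((1 / 2 : ℚ_[2]) • (n - m)), ?_⟩
  rw [← a4, ← b4, ← rv_sub (k _ a3) (k _ b3), ← h.rv_mt _ c,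
    ← rv_sub ((h.norm_mt _ _).trans c) c, mulVec_smul, mulVec_sub]
  congr 1
  module

theorem pair_zero (h : Rep r S) (hp : Pre2 r S d Φ) (hp' : Pre2 r S d' Φ')
    (sq : Squarefree d) (sq' : Squarefree d') (pl : Pl) {q : ℕ} (hq : q.Prime) (hS : q ∉ S)
    (hd : (q : ℤ) ∣ d) (hd' : (q : ℤ) ∣ d') (e : Φ (pl.τ q) = Φ' (pl.τ q)) {t : Nh}
    (h1 : t.1 ∈ Bn.orthogonal (Im r (pl.σ q))) (h2 : t.2 = Bn t.1 (Φ (pl.τ q))) :
    Bh t ((hat d Φ - hat d' Φ') (pl.σ q)) = 0 := by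
  obtain ⟨y, hy⟩ := pre_sub h hp.1 hp'.1 sq sq' pl hq hS hd hd' (congrArg Prod.fst e)
  obtain ⟨y', hy'⟩ := pre_sub h hp.2 hp'.2 sq sq' pl hq hS hd hd' (congrArg Prod.snd e)
  have := LinearMap.BilinForm.mem_orthogonal_iff.1 h1 (Φ (pl.σ q) + nu d (pl.σ q) • Φ (pl.τ q) -
    (Φ' (pl.σ q) + nu d' (pl.σ q) • Φ' (pl.τ q))) ⟨(y, y'), Prod.ext hy.symm hy'.symm⟩
  rw [Bn_comm, ← e] at this
  rw [Bh_apply, h2, ← this]
  simp only [hat, Pi.sub_apply, Prod.fst_sub, Prod.snd_sub, map_sub, map_add, map_smul,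
    smul_eq_mul]
  ring

end

variable {J : Type} [Fintype J] [DecidableEq J]

/-- the solutions -/
def ZS (r : Rp) (S : Finset ℕ) (pl : Pl) (M : ℤ) (X : J → Finset ℕ) (e : ℕ → N) (f : J → N) :
    Set ((J → ℕ) × (GQ → N)) :=
  {z | z.1 ∈ Fintype.piFinset X ∧ Pre2 r S (dd M z.1) z.2 ∧
    (∀ q ∈ pf S M, z.2 (pl.τ q) = e q) ∧ ∀ j, z.2 (pl.τ (z.1 j)) = f j}

variable {pl : Pl} {M : ℤ} {X : J → Finset ℕ} {L : ℝ} {e : ℕ → N} {f : J → N}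
  {z z' : (J → ℕ) × (GQ → N)}

theorem zs_mem (hz : z ∈ ZS r S pl M X e f) (j : J) : z.1 j ∈ X j :=
  Fintype.mem_piFinset.1 hz.1 j

theorem zs_tau (h : Rep r S) (hF : Fam S M X L) (hz : z ∈ ZS r S pl M X e f) (j : J) :
    hat (dd M z.1) z.2 (pl.τ (z.1 j)) = (f j, 1) := by
  have a := hF.pm j _ (zs_mem hz j)
  rw [hat_tau h (hF.sqf (zs_mem hz)) pl a.1 a.2.1
    ((hF.dvd_iff (zs_mem hz) a.1).2 (.inr ⟨j, rfl⟩)), hz.2.2.2]

theorem zs_fix (h : Rep r S) (hF : Fam S M X L) (hz : z ∈ ZS r S pl M X e f) (j : J) :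
    dg (rb r (pl.σ (z.1 j))) (f j) = f j := by
  have a := hF.pm j _ (zs_mem hz j)
  have b := (hF.dvd_iff (zs_mem hz) a.1).2 (.inr ⟨j, rfl⟩)
  rw [← hz.2.2.2]
  exact Prod.ext (pre_fix h hz.2.1.1 (hF.sqf (zs_mem hz)) pl a.1 a.2.1 b)
    (pre_fix h hz.2.1.2 (hF.sqf (zs_mem hz)) pl a.1 a.2.1 b)

theorem zs_un (lt : LT) (h : Rep r S) (hF : Fam S M X L) (hz : z ∈ ZS r S pl M X e f)
    (hz' : z' ∈ ZS r S pl M X e f) {l : ℕ} {P : Ideal (𝓞 Qb)} (ho : Ov l P) (hl : l ∉ S)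
    (hj : ∀ j, z.1 j = l ↔ z'.1 j = l) {g : GQ} (hg : Inert P g) :
    (hat (dd M z.1) z.2 - hat (dd M z'.1) z'.2) g = 0 := by
  have d := hF.dvd_iff (zs_mem hz) ho.1
  have d' := hF.dvd_iff (zs_mem hz') ho.1
  refine z_un lt (sub_mem (hat_mem h hz.2.1) (hat_mem h hz'.2.1)) pl ho hl (sub_eq_zero.2 ?_) hg
  by_cases a : (l : ℤ) ∣ M
  · have m := (mem_pf hF.ne).2 ⟨ho.1, a, hl⟩
    rw [hat_tau h (hF.sqf (zs_mem hz)) pl ho.1 hl (d.2 (.inl a)),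
      hat_tau h (hF.sqf (zs_mem hz')) pl ho.1 hl (d'.2 (.inl a)), hz.2.2.1 l m, hz'.2.2.1 l m]
  by_cases b : ∃ j, z.1 j = l
  · obtain ⟨j, b⟩ := b
    have := zs_tau h hF hz' j
    rw [(hj j).1 b] at this
    rw [this, ← b, zs_tau h hF hz j]
  · have i := (pl.gn l ho.1 (h.ne_two hl)).1
    rw [hat_un h hz.2.1 (pl.ov l ho.1) hl (fun k => (d.1 k).elim a b) i,
      hat_un h hz'.2.1 (pl.ov l ho.1) hl
        (fun k => (d'.1 k).elim a fun ⟨j, c⟩ => b ⟨j, (hj j).2 c⟩) i]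

theorem zs_sum (h : Rep r S) (hF : Fam S M X L) (hz : z ∈ ZS r S pl M X e f) (Θ : GQ → Nh)
    {T : Finset ℕ} (hT : ∀ j, z.1 j ∈ T) (hp : ∀ p ∈ T, p.Prime ∧ p ∉ S ∧ ¬ (p : ℤ) ∣ M) :
    ∑ p ∈ T, Bh (Θ (pl.σ p)) (hat (dd M z.1) z.2 (pl.τ p)) =
      ∑ j, Bh (Θ (pl.σ (z.1 j))) (f j, 1) := by
  rw [← sum_subset (s₁ := univ.image z.1) (fun p m => by
      obtain ⟨j, -, rfl⟩ := mem_image.1 m; exact hT j) fun p m n => ?_,
    sum_image fun i _ j _ k => hF.inj (zs_mem hz) k]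
  · simp only [zs_tau h hF hz]
  · obtain ⟨a, b, c⟩ := hp p m
    rw [hat_un h hz.2.1 (pl.ov p a) b (fun k => ((hF.dvd_iff (zs_mem hz) a).1 k).elim c
      fun ⟨j, k⟩ => n (mem_image.2 ⟨j, mem_univ _, k⟩)) (pl.gn p a (h.ne_two b)).1, map_zero]

/-- **the reciprocity relation** -/
theorem key (lt : LT) (rc : REC) (h : Rep r S) (hF : Fam S M X L) (hz : z ∈ ZS r S pl M X e f)
    (hz' : z' ∈ ZS r S pl M X e f) {Θ : GQ → Nh} (hΘ : Θ ∈ Zh h)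
    (hu : Un (fun l => l ∉ S ∧ l ∉ pf S M) Θ)
    (ht : ∀ q ∈ pf S M, (Θ (pl.τ q)).1 ∈ Bn.orthogonal (Im r (pl.σ q)) ∧
      (Θ (pl.τ q)).2 = Bn (Θ (pl.τ q)).1 (e q))
    (hS : ∀ l ∈ S, l.Prime → ∀ g ∈ dec (pl.P l), Θ g = 0) (hc : ∃ c, IsConj c ∧ Θ c = 0) :
    ∑ j, Bh (Θ (pl.σ (z.1 j))) (f j, 1) = ∑ j, Bh (Θ (pl.σ (z'.1 j))) (f j, 1) := by
  let T := univ.image z.1 ∪ univ.image z'.1
  have m : ∀ j, z.1 j ∈ T := fun j => mem_union_left _ (mem_image_of_mem _ (mem_univ j))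
  have m' : ∀ j, z'.1 j ∈ T := fun j => mem_union_right _ (mem_image_of_mem _ (mem_univ j))
  have hp : ∀ p ∈ T, p.Prime ∧ p ∉ S ∧ ¬ (p : ℤ) ∣ M := fun p k => by
    rcases mem_union.1 k with k | k <;> obtain ⟨j, -, rfl⟩ := mem_image.1 k
    · exact (hF.pm j _ (zs_mem hz j)).imp_right fun a => ⟨a.1, a.2.1⟩
    · exact (hF.pm j _ (zs_mem hz' j)).imp_right fun a => ⟨a.1, a.2.1⟩
  have k := sub_mem (hat_mem h hz.2.1) (hat_mem h hz'.2.1)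
  have := rc pl Nh (rh h) Bh S (pf S M) T Θ _ (rh_lc h) (Bh_rh h) h.two
    (fun l P ho hl g hg => rh_in h ho hl hg) hΘ.1 hΘ.2 k.1 k.2
    (fun q a => by
      obtain ⟨b, c, d⟩ := (mem_pf hF.ne).1 a
      exact ⟨b, d, fun n => (hp q n).2.2 c⟩)
    (fun q a => ⟨(hp q a).1, (hp q a).2.1⟩) hu
    (fun l P ho a g hg => zs_un lt h hF hz hz' ho a.1 (fun j =>
      iff_of_false (fun c => a.2 (c ▸ m j)) fun c => a.2 (c ▸ m' j)) hg) hS hc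
  rw [sum_eq_zero fun q a => ?_, zero_add] at this
  · simp only [Pi.sub_apply, map_sub, sum_sub_distrib] at this
    rwa [zs_sum h hF hz Θ m hp, zs_sum h hF hz' Θ m' hp, sub_eq_zero] at this
  · obtain ⟨b, c, d⟩ := (mem_pf hF.ne).1 a
    exact pair_zero h hz.2.1 hz'.2.1 (hF.sqf (zs_mem hz)) (hF.sqf (zs_mem hz')) pl b d
      ((hF.dvd_iff (zs_mem hz) b).2 (.inl c)) ((hF.dvd_iff (zs_mem hz') b).2 (.inl c))
      ((hz.2.2.1 q a).trans (hz'.2.2.1 q a).symm) (ht q a).1 (by rw [hz.2.2.1 q a, (ht q a).2])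

end Vale.Agent.P004S.Fm
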