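import Vale.Agent.P004S.Chg
import Vale.Agent.P004S.Cls
import Vale.Agent.P004S.Thin

/-!
# P004, block SMITH: tools for the rows GEN1, GEN2, GEN3 (helper25)
-/

set_option linter.all false

noncomputable section

namespace Vale.Agent.P004S.Gn

open NumberField Matrix Filter Topology
open Vale.Agent.P022 (Qb GQ IsConj Irred UnrAt IsFrob)
open Vale.Agent.P027M.S (Inert)
open Vale.Agent.P022D.W (dec)
open Vale.Agent.P022E.GW (Ov Fb Gn Ch)
open scoped Pointwise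

variable {r r' : Rp} {S : Finset ℕ} {pl : Pl} {K U : Subgroup GQ} {s : ℕ} {y : Fin s → ℕ} {m d : ℤ}

/-! ### the subgroup `U` -/

/-- open, normal, unramified outside `S` -/
structure Gd (S : Finset ℕ) (U : Subgroup GQ) : Prop where
  opn : IsOpen (U : Set GQ)
  nrm : U.Normal
  uns : UnS S U

theorem Gd.inf {U' : Subgroup GQ} (h : Gd S U) (h' : Gd S U') : Gd S (U ⊓ U') :=
  haveI := h.nrm; haveI := h'.nrm
  ⟨h.opn.inter h'.opn, inferInstance, fun l P a b g c => ⟨h.uns l P a b g c, h'.uns l P a b g c⟩⟩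

theorem gd_top : Gd S ⊤ := ⟨isOpen_univ, inferInstance, fun _ _ _ _ _ _ => trivial⟩

theorem gd_kn (h : Rep r S) : Gd S (h.Kn 1) := ⟨h.Kn_open 1, h.Kn_normal 1, h.Kn_uns 1⟩

theorem occ_all (hU : Gd S U) (h : Occ pl U y) (g : GQ) :
    ∃ (t : Fin s) (k : GQ) (i : ℕ), Odd i ∧ (k * g ^ i * k⁻¹)⁻¹ * pl.σ (y t) ∈ U := by
  have := U.quotient_finite_of_isOpen hU.opn
  have := hU.nrm
  obtain ⟨a, o, ho, e⟩ := Nat.exists_eq_two_pow_mul_odd (orderOf_pos (g : GQ ⧸ U)).ne'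
  obtain ⟨t, k, i, hi, n⟩ := h (g ^ o) a (by
    rw [← pow_mul, ← QuotientGroup.eq_one_iff, QuotientGroup.mk_pow, mul_comm, ← e,
      pow_orderOf_eq_one])
  exact ⟨t, k, o * i, ho.mul hi, by rwa [pow_mul]⟩

/-- the quadratic characters of `K` unramified outside `S` vanish on `U` -/
def Kil (S : Finset ℕ) (K U : Subgroup GQ) : Prop :=
  U ≤ K ∧ ∀ ξ : GQ → ZMod 2, Ch K ξ → Un (· ∉ S) ξ → ∀ u ∈ U, ξ u = 0

theorem Kil.mono {U' : Subgroup GQ} (h : Kil S K U) (le : U' ≤ U) : Kil S K U' :=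
  ⟨le.trans h.1, fun ξ a b u c => h.2 ξ a b u (le c)⟩

theorem ch_add {ξ : GQ → ZMod 2} (c : Ch K ξ) {g j : GQ} (hg : g ∈ K) (hj : j ∈ K) :
    ξ (g * j) = ξ g + ξ j := c.2 ⟨g, hg⟩ ⟨j, hj⟩

theorem ch_pow {ξ : GQ → ZMod 2} (c : Ch K ξ) {g : GQ} (hg : g ∈ K) : ∀ i : ℕ, ξ (g ^ i) = i * ξ g
  | 0 => by simpa using ch_add c K.one_mem K.one_mem
  | i + 1 => by rw [pow_succ, ch_add c (pow_mem hg i) hg, ch_pow c hg i]; push_cast; ring

/-- the kernel of a character -/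
def kr {ξ : GQ → ZMod 2} (c : Ch K ξ) : Subgroup GQ where
  carrier := {g | g ∈ K ∧ ξ g = 0}
  mul_mem' a b := ⟨mul_mem a.1 b.1, by rw [ch_add c a.1 b.1, a.2, b.2, add_zero]⟩
  one_mem' := ⟨one_mem _, by simpa using ch_pow c K.one_mem 0⟩
  inv_mem' {g} a := ⟨inv_mem a.1, by
    have := ch_add c a.1 (inv_mem a.1)
    rw [mul_inv_cancel, a.2, zero_add] at this
    simpa [this] using ch_pow c K.one_mem 0⟩

theorem kr_open {ξ : GQ → ZMod 2} (c : Ch K ξ) (hK : IsOpen (K : Set GQ)) :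
    IsOpen (kr c : Set GQ) := by
  convert hK.isOpenMap_subtype_val _ (c.1.isOpen_fiber 0) using 1
  ext g
  exact ⟨fun a => ⟨⟨g, a.1⟩, a.2, rfl⟩, fun ⟨x, a, b⟩ => b ▸ ⟨x.2, a⟩⟩

theorem ex_kil (cnt : CNT) (hK : Gd S K) : ∃ U, Gd S U ∧ Kil S K U := by
  classical
  obtain ⟨C, hC⟩ := cnt K hK.opn
  have := (hC S).1.to_subtype
  let U : Subgroup GQ := K ⊓ ⨅ ξ : {ξ : GQ → ZMod 2 | Ch K ξ ∧ (∀ g ∉ K, ξ g = 0) ∧ Un (· ∉ S) ξ},
    kr ξ.2.1
  have o : IsOpen (U : Set GQ) := by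
    simp only [U, Subgroup.coe_inf, Subgroup.coe_iInf]
    exact hK.opn.inter (isOpen_iInter_of_finite fun ξ => kr_open _ hK.opn)
  have : U.FiniteIndex := ⟨idx_ne o⟩
  refine ⟨U.normalCore, ⟨Subgroup.isOpen_of_isClosed_of_finiteIndex _
    (U.normalCore_isClosed (U.isClosed_of_isOpen o)), inferInstance, fun l P a b g c k => ?_⟩,
    U.normalCore_le.trans inf_le_left, fun ξ a b u c => ?_⟩
  · have a' : Ov l (k • P) := ⟨a.1, haveI := a.2.1; Ideal.IsPrime.smul k, by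
      rw [Ideal.mem_pointwise_smul_iff_inv_smul_mem, show k⁻¹ • (l : 𝓞 Qb) = l from
        map_natCast (MulSemiringAction.toRingHom GQ (𝓞 Qb) k⁻¹) l]
      exact a.2.2⟩
    have c' : Inert (k • P) (k * g * k⁻¹) := by
      simpa using P022E.GW.Tg.inert_conj (P := k • P) (t := k⁻¹) (g := g) (by simpa using c)
    exact ⟨hK.uns l _ a' b _ c', Subgroup.mem_iInf.2 fun ξ =>
      ⟨hK.uns l _ a' b _ c', ξ.2.2.2 l _ a' b _ c'⟩⟩
  · have e := U.normalCore_le c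
    have := (Subgroup.mem_iInf.1 e.2 ⟨fun g => if g ∈ K then ξ g else 0, by
      convert a using 0
      unfold Ch
      simp only [SetLike.coe_mem, if_true], fun g n => if_neg n, fun l P a' b' g c' => by
      simp only [b l P a' b' g c', ite_self]⟩).2
    exact (if_pos (show u ∈ K from e.1)).symm.trans this

theorem Kil.zero (h : Kil S K U) (hU : Gd S U) (hK : K.Normal) (oc : Occ pl U y)
    {ξ : GQ → ZMod 2} (c : Ch K ξ) (u : Un (· ∉ S) ξ)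
    (f : ∀ t k, pl.σ (y t) ∈ K → ξ (k * pl.σ (y t) * k⁻¹) = 0) {g : GQ} (hg : g ∈ K) : ξ g = 0 := by
  obtain ⟨t, k, i, hi, n⟩ := occ_all hU oc g
  have n' := hU.nrm.conj_mem _ n k⁻¹
  have := f t k⁻¹ (by
    simpa only [mul_inv_cancel_left] using K.mul_mem (hK.conj_mem _ (pow_mem hg i) k) (h.1 n))
  rwa [show k⁻¹ * pl.σ (y t) * k⁻¹⁻¹ = g ^ i * (k⁻¹ * ((k * g ^ i * k⁻¹)⁻¹ * pl.σ (y t)) * k⁻¹⁻¹) by
    group, ch_add c (pow_mem hg i) (h.1 n'), h.2 ξ c u _ n', add_zero, ch_pow c hg,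
    (ZMod.natCast_eq_one_iff_odd).2 hi, one_mul] at this

theorem add_conj {f : GQ → ZMod 2} (h : ∀ g j, f (g * j) = f g + f j) (k g : GQ) :
    f (k * g * k⁻¹) = f g := by
  have := h (k * g * k⁻¹) k
  rw [inv_mul_cancel_right, h, add_comm] at this
  exact (add_right_cancel this).symm

/-! ### saturated pairs -/

variable {Λ : Loc r} {Λ' : Loc r'} {c c' : GQ → V} {a b a' b' : ℚ_[2]} {n n' : V}

/-- combinations -/
def cb (r : Rp) (d : ℤ) (c c' : GQ → V) (a b : ℚ_[2]) (n : V) (g : GQ) : V :=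
  a • c g + b • c' g - (ac r d g n - n)

theorem sel_cb (h : Rep r S) (s : Sel r Λ d c) (s' : Sel r Λ d c') (a b : ℚ_[2]) (n : V) :
    Sel r Λ d (cb r d c c' a b n) := by
  obtain ⟨z, z1, z2⟩ := s.2.1
  obtain ⟨z', z1', z2'⟩ := s'.2.1
  refine ⟨⟨((s.1.1.const_smul a).add (s'.1.1.const_smul b)).sub
    ((h.ac_cont d continuous_id continuous_const).sub continuous_const).continuousOn,
    fun g _ j _ => ?_⟩, ⟨_, sub_mem (add_mem (Submodule.smul_mem _ a z1) (Submodule.smul_mem _ b z1'))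
      (Λ.cob d n), fun g k => by rw [cb, z2 g k, z2' g k]; rfl⟩, fun l P o k => ?_⟩
  · simp only [cb, s.1.2 g trivial j trivial, s'.1.2 g trivial j trivial, ac_add, ac_sub, ac_smul,
      ac_mul]
    module
  · obtain ⟨u, hu⟩ := s.2.2 l P o k
    obtain ⟨u', hu'⟩ := s'.2.2 l P o k
    refine ⟨a • u + b • u' - n, fun g e => ?_⟩
    simp only [cb, hu g e, hu' g e, ac_add, ac_sub, ac_smul]
    module

theorem lat_cb {x z : ℚ_[2]} (h : Lat r d (cb r d c c' a b n) (cb r d c c' a' b' n') x z) :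
    Lat r d c c' (x * a + z * a') (x * b + z * b') := by
  obtain ⟨u, hu⟩ := h
  refine ⟨u + x • n + z • n', fun g => (congrArg norm ?_).trans_le (hu g)⟩
  simp only [cb, ac_add, ac_smul]
  module

/-- a basis of a saturated lattice of Selmer cocycles -/
structure Pair (r : Rp) (Λ : Loc r) (d : ℤ) (c c' : GQ → V) : Prop where
  s1 : Sel r Λ d c
  s2 : Sel r Λ d c'
  i1 : ∀ g, ‖c g‖ ≤ 1
  i2 : ∀ g, ‖c' g‖ ≤ 1
  sat : ∀ x z, Lat r d c c' x z → ‖x‖ ≤ 1 ∧ ‖z‖ ≤ 1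

theorem ex_pair (h : Rep r S) (t : Two r Λ d) : ∃ c c', Pair r Λ d c c' := by
  obtain ⟨c, c', s, s', i⟩ := t
  obtain ⟨a, b, a', b', -, k⟩ := sat r S d c c' h (continuousOn_univ.1 s.1.1)
    (continuousOn_univ.1 s'.1.1) i
  obtain ⟨n, hn⟩ := (k 1 0).2 (by simp)
  obtain ⟨n', hn'⟩ := (k 0 1).2 (by simp)
  exact ⟨_, _, sel_cb h s s' a b n, sel_cb h s s' a' b' n', by simpa [cb] using hn,
    by simpa [cb] using hn', fun x z e => (k x z).1 (lat_cb e)⟩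

theorem Pair.cb (p : Pair r Λ d c c') (h : Rep r S) (i : ∀ g, ‖cb r d c c' a b n g‖ ≤ 1)
    (i' : ∀ g, ‖cb r d c c' a' b' n' g‖ ≤ 1) (k : ∀ x z : ℚ_[2], ‖x * a + z * a'‖ ≤ 1 →
      ‖x * b + z * b'‖ ≤ 1 → ‖x‖ ≤ 1 ∧ ‖z‖ ≤ 1) :
    Pair r Λ d (cb r d c c' a b n) (cb r d c c' a' b' n') :=
  ⟨sel_cb h p.s1 p.s2 a b n, sel_cb h p.s1 p.s2 a' b' n', i, i', fun x z e =>
    (p.sat _ _ (lat_cb e)).elim (k x z)⟩

/-- change of lattice -/
theorem Pair.chg (p : Pair r Λ d c c') {w : GL (Fin 2) ℚ_[2]} (h : Chg r Λ r' Λ' w)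
    (iw : ∀ i j, ‖w.1 i j‖ ≤ 1) (i : ∀ g, ‖w⁻¹.1 *ᵥ c g‖ ≤ 1) (i' : ∀ g, ‖w⁻¹.1 *ᵥ c' g‖ ≤ 1) :
    Pair r' Λ' d (Cg.ul w⁻¹ c) (Cg.ul w⁻¹ c') := by
  refine ⟨(h.2 d _).2 (by simpa only [Cg.ul_apply, Cg.u_inv'] using p.s1),
    (h.2 d _).2 (by simpa only [Cg.ul_apply, Cg.u_inv'] using p.s2), i, i',
    fun x z ⟨u, hu⟩ => p.sat x z ⟨w.1 *ᵥ u, fun g => ?_⟩⟩
  refine (congrArg norm ?_).trans_le ((norm_mulVec_le iw _).trans (by simpa using hu g))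
  simp only [Cg.ul_apply, mulVec_sub, mulVec_add, mulVec_smul, Cg.u_inv', Cg.ac_u h.1]

/-- the residual pair -/
def ph (c c' : GQ → V) (g : GQ) : N := (rv (c g), rv (c' g))

theorem lift (h : Rep r S) (s : Sel r Λ d c) (i : ∀ g, ‖c g‖ ≤ 1) (k : ℕ) :
    Lift r Λ k d fun g => rv (c g) := ⟨c, sl r S Λ d c k h s i, fun _ => rfl⟩

theorem pre (h : Rep r S) (d0 : d ≠ 0) (s : Sel r Λ d c) (i : ∀ g, ‖c g‖ ≤ 1) :
    Pre r S d d fun g => rv (c g) := lp r S Λ d _ 1 h d0 le_rfl (lift h s i 1)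

theorem Pair.pre (p : Pair r Λ d c c') (h : Rep r S) (d0 : d ≠ 0) : Pre2 r S d (ph c c') :=
  ⟨Gn.pre h d0 p.s1 p.i1, Gn.pre h d0 p.s2 p.i2⟩

abbrev F : Type := ZMod 2 × ZMod 2

/-- linear combinations of the two components -/
def la (l : F) : N →ₗ[ZMod 2] W := l.1 • LinearMap.fst _ _ _ + l.2 • LinearMap.snd _ _ _

theorem la_apply (l : F) (x : N) : la l x = l.1 • x.1 + l.2 • x.2 := rfl

theorem la_dg (l : F) (A : Matrix (Fin 2) (Fin 2) (ZMod 2)) (x : N) :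
    la l (dg A x) = A *ᵥ la l x := by simp only [la_apply, Ms.dg_apply, mulVec_add, mulVec_smul]

/-- the coordinates -/
def pj (i : Fin 2) : N →ₗ[ZMod 2] F := (LinearMap.proj i).prodMap (LinearMap.proj i)

theorem pj_apply (i : Fin 2) (x : N) : pj i x = (x.1 i, x.2 i) := rfl

/-- pure tensors -/
def tn (f : F) (e : W) : N := (f.1 • e, f.2 • e)

/-- the determinant -/
def dt (f f' : F) : ZMod 2 := f.2 * f'.1 + f.1 * f'.2

theorem la_co (f : F) (x : N) (i : Fin 2) : la f.swap x i = dt f (pj i x) := rfl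

theorem la_tn (f f' : F) (e : W) : la f.swap (tn f' e) = dt f f' • e := by
  simp only [la_apply, tn, dt, smul_smul, add_smul, Prod.fst_swap, Prod.snd_swap]

theorem Pair.c0 (p : Pair r Λ d c c') (l : F) (g : GQ) :
    ‖Gn.cb r d c c' l.1.val l.2.val 0 g‖ ≤ 1 ∧
      rv (Gn.cb r d c c' l.1.val l.2.val 0 g) = la l (ph c c' g) := by
  have k : ∀ (a : ZMod 2) {v : V}, ‖v‖ ≤ 1 → ‖(a.val : ℚ_[2]) • v‖ ≤ 1 := fun a v h =>
    (norm_smul_le _ _).trans (mul_le_one₀ (norm_val_le a) (norm_nonneg _) h)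
  rw [Gn.cb, ac_zero, sub_zero, sub_zero, rv_add (k _ (p.i1 g)) (k _ (p.i2 g)),
    rv_smul (norm_val_le _) (p.i1 g), rv_smul (norm_val_le _) (p.i2 g), rd_val, rd_val]
  exact ⟨norm_add_le' (k _ (p.i1 g)) (k _ (p.i2 g)), rfl⟩

/-- torsion classes -/
def tt (r : Rp) (d : ℤ) (g : GQ) (v : W) : W := rv ((1 / 2 : ℚ_[2]) • (ac r d g (lf v) - lf v))

theorem half_le {v : V} (h : ‖v‖ ≤ 1 / 2) : ‖(1 / 2 : ℚ_[2]) • v‖ ≤ 1 := by
  rw [norm_smul, norm_half]; linarith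

theorem Pair.shift (p : Pair r Λ d c c') (h : Rep r S) {e : N} (fx : ∀ g, dg (rb r g) e = e) :
    ∃ c₁ c₁', Pair r Λ d c₁ c₁' ∧ ∀ g, ph c₁ c₁' g = ph c c' g - (tt r d g e.1, tt r d g e.2) := by
  have k : ∀ {v : W} {g}, rb r g *ᵥ v = v → ‖(1 / 2 : ℚ_[2]) • (ac r d g (lf v) - lf v)‖ ≤ 1 :=
    fun {v g} a => half_le ((rv_eq_iff ((h.norm_ac d g _).trans (norm_lf v)) (norm_lf v)).1
      (by rw [h.rv_ac d g (norm_lf v), rv_lf, a]))
  have e1 : ∀ g, Gn.cb r d c c' 1 0 ((1 / 2 : ℚ_[2]) • lf e.1) g =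
      c g - (1 / 2 : ℚ_[2]) • (ac r d g (lf e.1) - lf e.1) := fun g => by
    rw [Gn.cb, ac_smul]; module
  have e2 : ∀ g, Gn.cb r d c c' 0 1 ((1 / 2 : ℚ_[2]) • lf e.2) g =
      c' g - (1 / 2 : ℚ_[2]) • (ac r d g (lf e.2) - lf e.2) := fun g => by
    rw [Gn.cb, ac_smul]; module
  have k1 := fun g => k (v := e.1) (congrArg Prod.fst (fx g))
  have k2 := fun g => k (v := e.2) (congrArg Prod.snd (fx g))
  refine ⟨_, _, p.cb h (fun g => e1 g ▸ norm_sub_le' (p.i1 g) (k1 g))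
    (fun g => e2 g ▸ norm_sub_le' (p.i2 g) (k2 g)) fun x z a b => ⟨by simpa using a, by simpa using b⟩,
    fun g => ?_⟩
  rw [ph, e1, e2, rv_sub (p.i1 g) (k1 g), rv_sub (p.i2 g) (k2 g)]
  rfl

/-! ### points -/

/-- the hypotheses on the point -/
structure Pt (r : Rp) (S : Finset ℕ) (pl : Pl) (m : ℤ) {s : ℕ} (y : Fin s → ℕ) : Prop where
  lt : LT
  rep : Rep r S
  fam : ∃ X L, Fam S m X L ∧ y ∈ Fintype.piFinset X
  nu : ¬ Ub r S pl m y

theorem Pt.sq (P : Pt r S pl m y) : Squarefree (dd m y) := by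
  obtain ⟨X, L, a, b⟩ := P.fam
  exact a.sqf (Fintype.mem_piFinset.1 b)

theorem Pt.mem (P : Pt r S pl m y) (t : Fin s) : y t ∈ pf S (dd m y) := by
  obtain ⟨X, L, a, b⟩ := P.fam
  have b := Fintype.mem_piFinset.1 b
  have k := a.pm t _ (b t)
  exact (Ms.mem_pf P.sq.ne_zero).2 ⟨k.1, (a.dvd_iff b k.1).2 (.inr ⟨t, rfl⟩), k.2.1⟩

/-- the module of the patterns -/
def Hh (r : Rp) (pl : Pl) (y : Fin s → ℕ) (c c' : GQ → V) : Submodule (ZMod 2) N :=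
  Hs r (Set.range fun t => ph c c' (pl.τ (y t)))

theorem Pt.cl (P : Pt r S pl m y) (p : Pair r Λ (dd m y) c c') (t : Fin s) :
    Cl r S pl m y (Hh r pl y c c') (ph c c' (pl.τ (y t))) (ph c c') := by
  obtain ⟨X, L, a, b⟩ := P.fam
  exact cls P.lt r S pl P.rep m s X L y _ t a b P.nu (p.pre P.rep P.sq.ne_zero)

theorem Pt.tt (P : Pt r S pl m y) {q : ℕ} (hq : q ∈ pf S (dd m y)) (v : W) :
    tt r (dd m y) (pl.τ q) v = v := by
  obtain ⟨a, b, e⟩ := (Ms.mem_pf P.sq.ne_zero).1 hq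
  have g := pl.gn q a (P.rep.ne_two e)
  rw [Gn.tt, ac, sg_of_one (nu_tau (pl.ov q a) (P.rep.ne_two e) P.sq b g),
    P.rep.mt_inert (pl.ov q a) e g.1, one_mulVec,
    show (1 / 2 : ℚ_[2]) • ((-1 : ℚ_[2]) • lf v - lf v) = -lf v by module, rv_neg, rv_lf]

theorem Pt.shift (P : Pt r S pl m y) (p : Pair r Λ (dd m y) c c') {e : N}
    (fx : ∀ g, dg (rb r g) e = e) : ∃ c₁ c₁', Pair r Λ (dd m y) c₁ c₁' ∧
      (∀ g, ph c₁ c₁' g = ph c c' g - (Gn.tt r (dd m y) g e.1, Gn.tt r (dd m y) g e.2)) ∧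
      (∀ q ∈ pf S (dd m y), ph c₁ c₁' (pl.τ q) = ph c c' (pl.τ q) - e) ∧
      Hh r pl y c₁ c₁' = Hh r pl y c c' := by
  obtain ⟨c₁, c₁', a, b⟩ := p.shift P.rep fx
  have k : ∀ q ∈ pf S (dd m y), ph c₁ c₁' (pl.τ q) = ph c c' (pl.τ q) - e := fun q hq => by
    rw [b, P.tt hq, P.tt hq]
  have k2 : ∀ g t t', dg (rb r g) (ph c₁ c₁' (pl.τ (y t))) - ph c₁ c₁' (pl.τ (y t')) =
      dg (rb r g) (ph c c' (pl.τ (y t))) - ph c c' (pl.τ (y t')) := fun g t t' => by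
    rw [k _ (P.mem t), k _ (P.mem t'), map_sub, fx, sub_sub_sub_cancel_right]
  refine ⟨c₁, c₁', a, b, k, congrArg (Submodule.span _) (Set.ext fun x => ⟨?_, ?_⟩)⟩ <;>
    rintro ⟨g, _, ⟨t, rfl⟩, _, ⟨t', rfl⟩, rfl⟩
  exacts [⟨g, _, ⟨t, rfl⟩, _, ⟨t', rfl⟩, k2 g t t'⟩, ⟨g, _, ⟨t, rfl⟩, _, ⟨t', rfl⟩, (k2 g t t').symm⟩]

/-- all patterns are in the module -/
def Nm (r : Rp) (S : Finset ℕ) (pl : Pl) (m : ℤ) (y : Fin s → ℕ) (c c' : GQ → V) : Prop :=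
  ∀ q ∈ pf S (dd m y), ph c c' (pl.τ q) ∈ Hh r pl y c c'

theorem Pt.norm (P : Pt r S pl m y) (p : Pair r Λ (dd m y) c c') (t : Fin s)
    (fx : ∀ g, dg (rb r g) (ph c c' (pl.τ (y t))) = ph c c' (pl.τ (y t))) :
    ∃ c₁ c₁', Pair r Λ (dd m y) c₁ c₁' ∧ Nm r S pl m y c₁ c₁' ∧
      Hh r pl y c₁ c₁' = Hh r pl y c c' := by
  obtain ⟨c₁, c₁', a, -, b, e⟩ := P.shift p fx
  exact ⟨c₁, c₁', a, fun q hq => by rw [b q hq, e]; exact (P.cl p t).mem q hq, e⟩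

variable {γ : Submodule (ZMod 2) N → GQ → ℝ}

theorem Pt.rich (P : Pt r S pl m y) (p : Pair r Λ (dd m y) c c') (nm : Nm r S pl m y c c')
    {f f' : F} (h : dt f f' = 1) {e e' : W} (a : tn f e ∈ Hh r pl y c c')
    (a' : tn f' e' ∈ Hh r pl y c c') (w : wp e e' ≠ 0) : Gen r S Λ pl γ m y := by
  have d1 := (by decide : ∀ f f' : F, dt f f' = 1 → dt f' f = 1 ∧ dt f f = 0 ∧ dt f' f' = 0) f f' h
  have u : ‖(f'.2.val * f.1.val - f'.1.val * f.2.val : ℚ_[2])‖ = 1 := by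
    have k : ∀ a b : ZMod 2, ‖(a.val * b.val : ℚ_[2])‖ ≤ 1 := fun a b => by
      rw [norm_mul]; exact mul_le_one₀ (norm_val_le a) (norm_nonneg _) (norm_val_le b)
    refine (norm_sub_le' (k _ _) (k _ _)).eq_of_not_lt fun n => ?_
    rw [lt_one_iff, ← rd_eq_zero, rd_sub (k _ _) (k _ _), rd_mul (norm_val_le _) (norm_val_le _),
      rd_mul (norm_val_le _) (norm_val_le _), rd_val, rd_val, rd_val, rd_val, CharTwo.sub_eq_add] at n
    exact one_ne_zero (d1.1.symm.trans n)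
  have k : ∀ {x : ℚ_[2]} (a : ZMod 2), ‖x‖ ≤ 1 → ‖x * a.val‖ ≤ 1 := fun a n => by
    rw [norm_mul]; exact mul_le_one₀ n (norm_nonneg _) (norm_val_le a)
  have p' := p.cb P.rep (fun g => (p.c0 f'.swap g).1) (fun g => (p.c0 f.swap g).1) fun x z a b =>
    ⟨by have := norm_sub_le' (k f.1 a) (k f.2 b)
        rwa [show _ - _ = x * (f'.2.val * f.1.val - f'.1.val * f.2.val : ℚ_[2]) by
          simp only [Prod.fst_swap, Prod.snd_swap]; ring, norm_mul, u, mul_one] at this,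
     by have := norm_sub_le' (k f'.2 b) (k f'.1 a)
        rwa [show _ - _ = z * (f'.2.val * f.1.val - f'.1.val * f.2.val : ℚ_[2]) by
          simp only [Prod.fst_swap, Prod.snd_swap]; ring, norm_mul, u, mul_one] at this⟩
  generalize hc : cb r (dd m y) c c' f'.swap.1.val f'.swap.2.val 0 = c₁ at p'
  generalize hc' : cb r (dd m y) c c' f.swap.1.val f.swap.2.val 0 = c₁' at p'
  let β := (la f'.swap).prod (la f.swap)
  have e1 : ∀ g, ph c₁ c₁' g = β (ph c c' g) := fun g =>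
    Prod.ext (hc ▸ (p.c0 f'.swap g).2) (hc' ▸ (p.c0 f.swap g).2)
  have e2 : ∀ x ∈ Hh r pl y c c', β x ∈ Hh r pl y c₁ c₁' := fun x hx => by
    refine Submodule.span_le.2 (?_ : _ ⊆ ((Hh r pl y c₁ c₁').comap β : Set N)) hx
    rintro _ ⟨g, _, ⟨t, rfl⟩, _, ⟨t', rfl⟩, rfl⟩
    have := Ms.hs_mem (r := r) (E := Set.range fun t => ph c₁ c₁' (pl.τ (y t))) g ⟨t, rfl⟩ ⟨t', rfl⟩
    simp only [e1] at this ⊢
    show β _ ∈ Hs r _
    simp only [e1]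
    rw [map_sub]
    convert this using 2
    exact Prod.ext (la_dg _ _ _) (la_dg _ _ _)
  refine ⟨_, 0, _, ⟨p'.pre P.rep P.sq.ne_zero, rfl, fun q hq => ?_⟩, .inr ⟨⟨e, e', 1, ?_, ?_, by
    rwa [rb_one, one_mulVec]⟩, rfl, fun k => ⟨lift P.rep p'.s1 p'.i1 k, lift P.rep p'.s2 p'.i2 k⟩⟩⟩
  · rw [sub_zero, e1]
    exact e2 _ (nm q hq)
  · have : β (tn f e) = (e, 0) := Prod.ext ((la_tn _ _ _).trans (by rw [d1.1, one_smul]))
      ((la_tn _ _ _).trans (by rw [d1.2.1, zero_smul]))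
    exact this ▸ e2 _ a
  · have : β (tn f' e') = (0, e') := Prod.ext ((la_tn _ _ _).trans (by rw [d1.2.2, zero_smul]))
      ((la_tn _ _ _).trans (by rw [h, one_smul]))
    exact this ▸ e2 _ a'

theorem Pt.top (P : Pt r S pl m y) (p : Pair r Λ (dd m y) c c') (h : ∀ x, x ∈ Hh r pl y c c') :
    Gen r S Λ pl γ m y :=
  P.rich p (fun _ _ => h _) (f := (1, 0)) (f' := (0, 1)) (by decide) (h _) (h _)
    (e := ![1, 0]) (e' := ![0, 1]) (by decide)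

/-- residual cocycles which vanish on the kernel are coboundaries -/
def Hv (r : Rp) : Prop := ∀ φ, Zb r φ → (∀ g, rb r g = 1 → φ g = 0) →
  ∃ v, ∀ g, φ g = rb r g *ᵥ v - v

theorem Pt.zero (P : Pt r S pl m y) (p : Pair r Λ (dd m y) c c') (hv : Hv r) (hU : Gd S U)
    (k : Kil S (P.rep.Kn 1) U) (oc : Occ pl U y) {l : F}
    (h : ∀ q ∈ pf S (dd m y), la l (ph c c' (pl.τ q)) = 0) : l = 0 := by
  have hr := P.rep
  have pr := pre hr P.sq.ne_zero (sel_cb hr p.s1 p.s2 l.1.val l.2.val 0) fun g => (p.c0 l g).1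
  simp only [← (p.c0 l _).2] at h
  have i0 := fun g => (p.c0 l g).1
  generalize hc : cb r (dd m y) c c' l.1.val l.2.val 0 = c₀ at pr h i0
  obtain ⟨v, hv⟩ := hv _ pr.1 fun g hg => funext fun i => k.zero hU (hr.Kn_normal 1) oc
    (ξ := fun g => rv (c₀ g) i) ⟨(pr.1.1.comp fun v => v i).comp_continuous continuous_subtype_val,
      fun a b => (congrFun (pr.1.2 a b) i).trans (by rw [hr.tr_one_iff.1 a.2, one_mulVec]; rfl)⟩
    (fun q Q o n g hg => congrFun (if e : (q : ℤ) ∣ dd m y then P.lt.un_tau hr pl o.1 n pr.1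
      (h q ((Ms.mem_pf P.sq.ne_zero).2 ⟨o.1, e, n⟩)) o hg else pr.2.1 q Q o ⟨n, e⟩ g hg) i)
    (fun t j n => by
      obtain ⟨q1, q2, q3⟩ := (Ms.mem_pf P.sq.ne_zero).1 (P.mem t)
      obtain ⟨u, a1, a2, -, a4⟩ := Ms.pre_pt hr pr P.sq pl q1 q3 q2
      rw [Oc.rv_Am n a1, a2, h _ (P.mem t), mulVec_zero, smul_zero, add_zero] at a4
      simp only [pr.1.conj hr j (hr.tr_one_iff.1 n), ← a4, mulVec_zero, Pi.zero_apply])
    (hr.tr_one_iff.2 hg)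
  have z : ∀ a : ZMod 2, ‖(1 / 2 * a.val : ℚ_[2])‖ ≤ 1 → a = 0 := fun a n =>
    (z2 a).resolve_right fun e => by
      rw [e, ZMod.val_one, Nat.cast_one, mul_one, norm_half] at n
      norm_num at n
  have n1 := fun g => (hr.norm_ac (dd m y) g _).trans (norm_lf v)
  refine (p.sat _ _ ⟨(1 / 2 : ℚ_[2]) • lf v, fun g => ?_⟩).elim fun a b => Prod.ext (z _ a) (z _ b)
  have := half_le ((rv_eq_iff (i0 g) (norm_sub_le' (n1 g) (norm_lf v))).1 (by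
    rw [rv_sub (n1 g) (norm_lf v), hr.rv_ac _ g (norm_lf v), rv_lf, ← hv]))
  rw [← hc, cb, ac_zero] at this
  refine (congrArg (fun x : V => ‖x‖) ?_).trans_le this
  rw [ac_smul]
  module

theorem hs_map {E E' : Fin s → N} {π π' : N →ₗ[ZMod 2] F}
    (h1 : ∀ g t, π (dg (rb r g) (E t)) = π (E t))
    (h2 : ∀ t t', π' (E' t) - π' (E' t') = π (E t) - π (E t')) {x : N}
    (hx : x ∈ Hs r (Set.range E)) : ∃ x' ∈ Hs r' (Set.range E'), π' x' = π x := by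
  refine Submodule.span_le.2 (?_ : _ ⊆ (((Hs r' (Set.range E')).map π').comap π : Set N)) hx
  rintro _ ⟨g, _, ⟨t, rfl⟩, _, ⟨t', rfl⟩, rfl⟩
  exact ⟨_, Ms.hs_sub ⟨t, rfl⟩ ⟨t', rfl⟩, by rw [map_sub, map_sub, h1, h2]⟩

/-! ### lower triangular entry even -/

/-- the residual representation is upper triangular -/
def Low (r : Rp) : Prop := ∀ g, rb r g 1 0 = 0

/-- the character of the neighbour -/
def bb (r : Rp) (g : GQ) : ZMod 2 := rd (mt r g 1 0 / 2)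

theorem Low.diag (h : Low r) (hr : Rep r S) (g : GQ) : rb r g 0 0 = 1 ∧ rb r g 1 1 = 1 := by
  have := hr.wp_rb g ![1, 0] ![0, 1]
  simp [wp, mulVec, dotProduct, h g] at this
  revert this
  generalize rb r g 0 0 = a
  generalize rb r g 1 1 = b
  revert a b
  decide

theorem Low.co (h : Low r) (hr : Rep r S) (g : GQ) (v : W) :
    (rb r g *ᵥ v) 0 = v 0 + rb r g 0 1 * v 1 ∧ (rb r g *ᵥ v) 1 = v 1 := by
  simp [mulVec, dotProduct, h g, h.diag hr g]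

theorem Low.fix (h : Low r) (hr : Rep r S) (g : GQ) {v : W} (hv : v 1 = 0) : rb r g *ᵥ v = v := by
  ext i
  fin_cases i
  · simpa [hv] using (h.co hr g v).1
  · exact (h.co hr g v).2

theorem Low.half (h : Low r) (g : GQ) : ‖mt r g 1 0 / 2‖ ≤ 1 := by
  have : ‖mt r g 1 0‖ ≤ 1 / 2 := rd_eq_zero.1 (h g)
  rw [norm_div, norm_two]
  linarith [div_le_div_of_nonneg_right this (show (0 : ℝ) ≤ 1 / 2 by norm_num)]

theorem nmul {x z : ℚ_[2]} (a : ‖x‖ ≤ 1) (b : ‖z‖ ≤ 1) : ‖x * z‖ ≤ 1 := by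
  rw [norm_mul]; exact mul_le_one₀ a (norm_nonneg _) b

theorem Low.bb_mul (h : Low r) (hr : Rep r S) (g j : GQ) : bb r (g * j) = bb r g + bb r j := by
  have e : mt r (g * j) 1 0 / 2 = mt r g 1 0 / 2 * mt r j 0 0 + mt r g 1 1 * (mt r j 1 0 / 2) := by
    rw [mt_mul, mul_apply, Fin.sum_univ_two]; ring
  rw [bb, e, rd_add (nmul (h.half g) (hr.int _ _ _)) (nmul (hr.int _ _ _) (h.half j)),
    rd_mul (h.half g) (hr.int _ _ _), rd_mul (hr.int _ _ _) (h.half j),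
    show rd (mt r j 0 0) = 1 from (h.diag hr j).1, show rd (mt r g 1 1) = 1 from (h.diag hr g).2,
    mul_one, one_mul, bb, bb]

theorem Low.hf (h : Low r) (hr : Rep r S) (d : ℤ) (g : GQ) {n : V} (i : ‖n‖ ≤ 1) (e : rv n 1 = 0) :
    rv ((1 / 2 : ℚ_[2]) • (ac r d g n - n)) 1 = bb r g * rv n 0 := by
  have n1 : ‖n 1 / 2‖ ≤ 1 := by
    have : ‖n 1‖ ≤ 1 / 2 := rd_eq_zero.1 e
    rw [norm_div, norm_two]
    linarith [div_le_div_of_nonneg_right this (show (0 : ℝ) ≤ 1 / 2 by norm_num)]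
  have s := (norm_sg d g).le
  have t := nmul s (hr.int g 1 1)
  have t' := norm_sub_le' t norm_one.le
  have k : ((1 / 2 : ℚ_[2]) • (ac r d g n - n)) 1 =
      sg d g * (mt r g 1 0 / 2 * n 0) + (sg d g * mt r g 1 1 - 1) * (n 1 / 2) := by
    simp only [ac, mulVec, dotProduct, Fin.sum_univ_two, Pi.smul_apply, Pi.sub_apply, smul_eq_mul]
    ring
  rw [rv, k, rd_add (nmul s (nmul (h.half g) (norm_co i 0))) (nmul t' n1),
    rd_mul s (nmul (h.half g) (norm_co i 0)), rd_mul (h.half g) (norm_co i 0), rd_mul t' n1,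
    rd_sub t norm_one.le, rd_mul s (hr.int g 1 1), rd_sg, show rd (mt r g 1 1) = 1 from
      (h.diag hr g).2, rd_one, one_mul, one_mul, sub_self, zero_mul, add_zero]
  rfl

theorem Pt.eps (P : Pt r S pl m y) (h : Low r) (hK : ∀ g, g ∈ K ↔ bb r g = 0) (hU : Gd S U)
    (k : Kil S K U) (oc : Occ pl U y) {φ : GQ → W} (pr : Pre r S (dd m y) (dd m y) φ)
    (h1 : ∀ q ∈ pf S (dd m y), φ (pl.τ q) 1 = 0) : ∃ ε, ∀ g, φ g 1 = bb r g * ε := by
  have hr := P.rep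
  have ad : ∀ g j, φ (g * j) 1 = φ g 1 + φ j 1 := fun g j => by
    rw [pr.1.2, Pi.add_apply, (h.co hr g _).2]
  have zb : Zb r fun g => ![φ g 1, 0] := ⟨pr.1.1.comp fun v => ![v 1, 0], fun g j => by
    simp only [ad]
    rw [h.fix hr g rfl]
    simp⟩
  have z : ∀ g, bb r g = 0 → φ g 1 = 0 := fun g hg => k.zero hU
    ⟨fun g a j => (hK _).2 (by rw [add_conj (h.bb_mul hr), (hK _).1 a])⟩ oc (ξ := fun g => φ g 1)
    ⟨(pr.1.1.comp fun v => v 1).comp_continuous continuous_subtype_val, fun a b => ad a b⟩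
    (fun q Q o n g hg => if e : (q : ℤ) ∣ dd m y then congrFun (P.lt.un_tau hr pl o.1 n zb (by
      rw [h1 q ((Ms.mem_pf P.sq.ne_zero).2 ⟨o.1, e, n⟩)]; simp) o hg) 0
      else congrFun (pr.2.1 q Q o ⟨n, e⟩ g hg) 1)
    (fun t j n => by
      obtain ⟨q1, q2, q3⟩ := (Ms.mem_pf P.sq.ne_zero).1 (P.mem t)
      obtain ⟨u, a1, a2, -, a4⟩ := Ms.pre_pt hr pr P.sq pl q1 q3 q2
      have := h.hf hr 1 (pl.σ (y t)) a1 (by rw [a2, h1 _ (P.mem t)])
      rw [ac, sg_of_zero (nu_one_left _), one_smul, a4, (hK _).1 n] at this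
      rw [add_conj (f := fun g => φ g 1) ad]
      simpa [h1 _ (P.mem t)] using this) ((hK g).2 hg)
  by_cases e : ∃ j, bb r j = 1
  · obtain ⟨j, e⟩ := e
    refine ⟨φ j 1, fun g => (z2 (bb r g)).elim (fun a => by rw [a, z g a, zero_mul]) fun a => ?_⟩
    have := z (g * j) (by rw [h.bb_mul hr, a, e]; rfl)
    rw [ad, CharTwo.add_eq_zero] at this
    rw [a, one_mul, this]
  · exact ⟨0, fun g => by rw [mul_zero, z g ((z2 _).resolve_right fun a => e ⟨g, a⟩)]⟩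

/-- the pair descends to the neighbour -/
theorem Pt.down (P : Pt r S pl m y) (p : Pair r Λ (dd m y) c c') (h : Low r)
    (hK : ∀ g, g ∈ K ↔ bb r g = 0) (hU : Gd S U) (k : Kil S K U) (oc : Occ pl U y)
    (h1 : ∀ q ∈ pf S (dd m y), pj 1 (ph c c' (pl.τ q)) = 0) :
    ∃ c₁ c₁', Pair r Λ (dd m y) c₁ c₁' ∧ (∀ g, ‖c₁ g 1‖ ≤ 1 / 2 ∧ ‖c₁' g 1‖ ≤ 1 / 2) ∧
      ∀ t t', ph c₁ c₁' (pl.τ (y t)) - ph c₁ c₁' (pl.τ (y t')) =
        ph c c' (pl.τ (y t)) - ph c c' (pl.τ (y t')) := by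
  have pr := p.pre P.rep P.sq.ne_zero
  obtain ⟨ε, h2⟩ := P.eps h hK hU k oc pr.1 fun q hq => congrArg Prod.fst (h1 q hq)
  obtain ⟨ε', h3⟩ := P.eps h hK hU k oc pr.2 fun q hq => congrArg Prod.snd (h1 q hq)
  obtain ⟨c₁, c₁', a, b, e, -⟩ := P.shift p (e := (![ε, 0], ![ε', 0])) fun g =>
    Prod.ext (h.fix P.rep g rfl) (h.fix P.rep g rfl)
  have k : ∀ g ε, Gn.tt r (dd m y) g ![ε, 0] 1 = bb r g * ε := fun g ε => by
    rw [Gn.tt, h.hf P.rep _ g (norm_lf _) (by rw [rv_lf]; rfl), rv_lf]; rfl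
  refine ⟨c₁, c₁', a, fun g => ⟨rd_eq_zero.1 ((congrArg (·.1 1) (b g)).trans ?_),
    rd_eq_zero.1 ((congrArg (·.2 1) (b g)).trans ?_)⟩, fun t t' => by
      rw [e _ (P.mem t), e _ (P.mem t'), sub_sub_sub_cancel_right]⟩
  · simp only [Prod.fst_sub, Pi.sub_apply, k, h2, sub_self]
  · simp only [Prod.snd_sub, Pi.sub_apply, k, h3, sub_self]

/-! ### complex conjugation -/

theorem ex_cj (hc : Cyc r) : ∃ j : GQ, j * j = 1 ∧ mt r j 1 1 = -mt r j 0 0 ∧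
    mt r j 0 0 ^ 2 + mt r j 0 1 * mt r j 1 0 = 1 := by
  obtain ⟨j, hj⟩ : ∃ c : GQ, IsConj c := by
    have := P022.H443.galQb
    let φ : Qb →+* ℂ := (IsAlgClosed.lift (R := ℚ) (S := Qb) (M := ℂ)).toRingHom
    obtain ⟨g, hg⟩ := ComplexEmbedding.exists_comp_symm_eq_of_comp_eq (k := ℚ) φ
      (ComplexEmbedding.conjugate φ) (Subsingleton.elim _ _)
    exact ⟨g.symm, φ, fun x => RingHom.congr_fun hg x⟩
  have e := mt_mul r j j
  have e2 := ep_mul r j j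
  rw [conj_sq hj, mt_one] at e
  rw [conj_sq hj, ep_one, eq_comm, mul_self_eq_one_iff] at e2
  obtain ⟨w, hw⟩ := ex_sqrt (-1)
  have e3 := e2.resolve_left fun k => by
    have := hc j 2 1 w (by rw [show 2 ^ 2 = 2 * 2 from rfl, pow_mul, hw]; simp) (by simp [k])
    rw [pow_one, ← nu_eq_zero hw, nu_neg_conj (by norm_num) hj] at this
    exact one_ne_zero this
  rw [ep, det_fin_two] at e3
  have a := congrFun (congrFun e 0) 0
  have b := congrFun (congrFun e 1) 1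
  simp only [mul_apply, Fin.sum_univ_two, one_apply_eq] at a b
  exact ⟨j, conj_sq hj, eq_neg_of_add_eq_zero_left (pow_eq_zero_iff two_ne_zero |>.1
    (by linear_combination 2 * e3 - a - b)), by linear_combination -a⟩

theorem am_cj (hr : Rep r S) {j : GQ} (a : mt r j 1 1 = -mt r j 0 0)
    (b : mt r j 0 0 ^ 2 + mt r j 0 1 * mt r j 1 0 = 1) (t : rb r j = 1) :
    Am r j 0 0 = Am r j 1 1 + 1 ∧ Am r j 0 0 * Am r j 1 1 = Am r j 0 1 * Am r j 1 0 := by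
  have k : ∀ i i', ‖(mt r j - 1) i i' / 2‖ ≤ 1 := fun i i' => by
    simpa [div_eq_inv_mul] using Oc.half_le (hr.tr_one_iff.2 t) i i'
  have u : rd (mt r j 0 0) = 1 := congrFun (congrFun t 0) 0
  simp only [Am, map_apply]
  rw [← rd_mul (k _ _) (k _ _), ← rd_mul (k _ _) (k _ _), ← u, ← rd_add (k _ _) (hr.int _ _ _)]
  constructor <;> congr 1 <;> simp [a]
  · ring
  · linear_combination (-1 / 4 : ℚ_[2]) * b

end Vale.Agent.P004S.Gn
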