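import Vale.Agent.P004S.Wt
import Vale.Agent.P004S.Cnz

/-!
# P004, block SMITH: the finite group part of GEN1
-/

set_option linter.all false

noncomputable section

namespace Vale.Agent.P004S.Wg

open Matrix Ms
open Vale.Agent.P022 (Qb GQ IsConj)

variable {r : Rp} {S : Finset ℕ} {H : Submodule (ZMod 2) N}

theorem ex_cj : ∃ c : GQ, IsConj c := by
  let φ : Qb →+* ℂ := (IsAlgClosed.lift (R := ℚ) (S := Qb) (M := ℂ)).toRingHom
  let _ : Algebra Qb ℂ := φ.toAlgebra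
  have : IsScalarTower ℚ Qb ℂ := IsScalarTower.of_algebraMap_eq' (Subsingleton.elim _ _)
  exact ⟨(Complex.conjAe.restrictScalars ℚ).restrictNormal Qb, φ,
    AlgEquiv.restrictNormal_commutes (Complex.conjAe.restrictScalars ℚ) Qb⟩

theorem ep_cj (h : Cyc r) {c : GQ} (k : IsConj c) : ep r c = -1 := by
  refine (mul_self_eq_one_iff.1 (by rw [← ep_mul, conj_sq k, ep_one])).resolve_left fun a => ?_
  obtain ⟨w, b⟩ := ex_sqrt (-1)
  have := h c 2 1 w (by rw [show 2 ^ 2 = 2 * 2 from rfl, pow_mul, b]; norm_num) (by simp [a])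
  rw [pow_one, ← nu_eq_zero b, nu_neg_conj (by norm_num) k] at this
  exact one_ne_zero this

theorem ex_cc (h : Cyc r) : ∃ c, IsConj c ∧ ep r c = -1 := ex_cj.imp fun _ k => ⟨k, ep_cj h k⟩

theorem d3 : ∀ A ω : M2, A.det = 1 → o3 ω → (A * ω, A * (ω * ω)) = (ω * A, ω * ω * A) ∨
    (A * ω, A * (ω * ω)) = (ω * ω * A, ω * A) := by
  simp only [det_fin_two]
  decide +kernel

theorem d9 : ∀ ω : M2, o3 ω → ω + ω * ω = 1 := by decide +kernel

theorem d4 : ∀ ω B : M2, o3 ω → (B * B = 1 ∧ B ≠ 1 ∨ B.det = 0 ∧ B 0 0 + B 1 1 = 1) → ∀ M : M2,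
    ∃ a b c d : ZMod 2, M = a • 1 + b • ω + c • B + d • (ω * B) := by
  simp only [det_fin_two]
  decide +kernel

theorem d7 : ∀ ω : M2, o3 ω → ω * (ω - 1) = 1 := by decide +kernel

theorem irb_mem (h : Rep r S) (i : IrB r) {e₀ : N} (s : Stb r H e₀) : e₀ ∈ H := by
  obtain ⟨g, o⟩ := ex_o3 h i
  have := (s g).2 _ (s g).1
  rwa [show dg (rb r g) e₀ - e₀ = _ from dg_sub _ _, ← dg_mul, d7 _ o, dg_one] at this

theorem irb_cob (h : Rep r S) (i : IrB r) {φ : GQ → W} (z : Zb r φ) (k : ∀ g, Tr r 1 g → φ g = 0) :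
    ∃ v, ∀ g, φ g = rb r g *ᵥ v - v := by
  obtain ⟨j, o⟩ := ex_o3 h i
  have e : ∀ x y, rb r x = rb r y → φ x = φ y := fun x y a => by
    rw [← mul_inv_cancel_left y x, z.2, k (y⁻¹ * x) (h.tr_one_iff.2 (by
      rw [h.rb_mul, a, ← h.rb_mul, inv_mul_cancel, rb_one])), mulVec_zero, add_zero]
  refine ⟨φ j + φ (j * j), fun g => ?_⟩
  have a : φ (g * j) + φ (g * (j * j)) = φ (j * g) + φ (j * j * g) := by
    rcases d3 _ _ (det_rb h g) o with a | a <;> simp only [← h.rb_mul, Prod.mk.injEq] at a <;>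
      rw [e _ _ a.1, e _ _ a.2]
    rw [add_comm]
  have b := congrArg (· *ᵥ φ g) (d9 _ o)
  simp only [add_mulVec, one_mulVec, ← h.rb_mul] at b
  rw [z.2 g, z.2 g, z.2 j g, z.2 (j * j) g, add_add_add_comm, add_self, zero_add,
    add_add_add_comm, b] at a
  rw [mulVec_add, a, add_sub_cancel_left]

theorem am_cj (h : Rep r S) (y : Cyc r) {c : GQ} (k : IsConj c) (t : Tr r 1 c) :
    (Am r c).det = 0 ∧ Am r c 0 0 + Am r c 1 1 = 1 := by
  have p : ∀ i j, ‖(mt r c - 1) i j / 2‖ ≤ 1 := fun i j => by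
    rw [norm_div, norm_two]
    linarith [t i j]
  have q : ∀ i j i' j', ‖(mt r c - 1) i j / 2 * ((mt r c - 1) i' j' / 2)‖ ≤ 1 := fun _ _ _ _ =>
    (norm_mul_le _ _).trans (mul_le_one₀ (p _ _) (norm_nonneg _) (p _ _))
  have a := ep_cj y k
  have b := congrFun (congrFun (mt_mul r c c) 0) 0
  rw [conj_sq k, mt_one, mul_apply, Fin.sum_univ_two, one_apply_eq] at b
  rw [ep, det_fin_two] at a
  have n : mt r c 0 0 ≠ 0 := fun e => by
    have := t 0 0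
    norm_num [e] at this
  have e : mt r c 1 1 = -mt r c 0 0 := mul_left_cancel₀ n (by linear_combination a - b)
  simp only [det_fin_two, Am, map_apply]
  rw [← rd_mul (p _ _) (p _ _), ← rd_mul (p _ _) (p _ _), ← rd_sub (q _ _ _ _) (q _ _ _ _),
    ← rd_add (p _ _) (p _ _), ← rd_zero, ← rd_one, ← rd_neg 1]
  constructor <;> congr 1 <;> simp [e]
  · linear_combination 4⁻¹ * b
  · ring

theorem irb_all (h : Rep r S) (y : Cyc r) (i : IrB r) (s : Sta r H) (t : Stab r H) (M : M2) :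
    ∀ x ∈ H, dg M x ∈ H := fun x m => by
  obtain ⟨j, o⟩ := ex_o3 h i
  obtain ⟨c, k⟩ := ex_cj
  obtain ⟨B, a, b⟩ : ∃ B : M2, (B * B = 1 ∧ B ≠ 1 ∨ B.det = 0 ∧ B 0 0 + B 1 1 = 1) ∧
      dg B x ∈ H := by
    by_cases a : rb r c = 1
    · exact ⟨_, .inr (am_cj h y k (h.tr_one_iff.2 a)), t c (h.tr_one_iff.2 a) x m⟩
    · exact ⟨_, .inl ⟨by rw [← h.rb_mul, conj_sq k, rb_one], a⟩, s c x m⟩
  obtain ⟨a, b', c, d, rfl⟩ := d4 _ B o a M
  convert add_mem (add_mem (add_mem (H.smul_mem a m) (H.smul_mem b' (s j x m))) (H.smul_mem c b))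
    (H.smul_mem d (s j _ b)) using 1
  simp only [dg_apply, add_mulVec, smul_mulVec, one_mulVec, mulVec_mulVec]
  rfl

theorem d8 : ∀ (x y : ZMod 2) (e : N), x • e.1 + y • e.2 ≠ 0 → ∃ (M : M2) (s t : ZMod 2),
    x * s + y * t = 1 ∧ (M *ᵥ e.1, M *ᵥ e.2) = (![s, 0], ![t, 0]) := by decide +kernel

theorem d0 : ∀ t s' t' : ZMod 2, 1 * s' + 1 * t' = 1 → (∃ x y : ZMod 2, ((![1, 0], 0) : N) =
    x • (![1, 0], ![t, 0]) + y • (![s', 0], ![t', 0])) ∧ ∃ x y : ZMod 2, ((0, ![1, 0]) : N) =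
      x • (![t, 0], ![1, 0]) + y • (![s', 0], ![t', 0]) := by decide +kernel

theorem irb_rich (h : Rep r S) (y : Cyc r) (i : IrB r) (s : Sta r H) (t : Stab r H)
    (k : ∀ x y : ZMod 2, (∀ e ∈ H, x • e.1 + y • e.2 = 0) → x = 0 ∧ y = 0) : Rich r H := by
  have a := irb_all h y i s t
  have b : ∀ x y : ZMod 2, ¬ (x = 0 ∧ y = 0) → ∃ s t : ZMod 2, x * s + y * t = 1 ∧
      (![s, 0], ![t, 0]) ∈ H := fun x y n => by
    obtain ⟨e, m, c⟩ : ∃ e ∈ H, x • e.1 + y • e.2 ≠ 0 := by simpa using _root_.mt (k x y) n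
    obtain ⟨M, s, t, p, q⟩ := d8 x y e c
    exact ⟨s, t, p, q ▸ a M e m⟩
  have c : (![1, 0], 0) ∈ H ∧ (0, ![1, 0]) ∈ H := by
    obtain ⟨s1, t1, p1, q1⟩ := b 1 0 (by decide)
    obtain ⟨s2, t2, p2, q2⟩ := b 0 1 (by decide)
    obtain ⟨s3, t3, p3, q3⟩ := b 1 1 (by decide)
    obtain rfl : s1 = 1 := by simpa using p1
    obtain rfl : t2 = 1 := by simpa using p2
    obtain ⟨x, y, e⟩ := (d0 t1 s3 t3 p3).1
    obtain ⟨x', y', e'⟩ := (d0 s2 s3 t3 p3).2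
    exact ⟨e ▸ add_mem (H.smul_mem x q1) (H.smul_mem y q3),
      e' ▸ add_mem (H.smul_mem x' q2) (H.smul_mem y' q3)⟩
  refine ⟨![1, 0], ![0, 1], 1, c.1, ?_, by rw [rb_one, one_mulVec]; decide⟩
  convert a !![0, 0; 1, 0] _ c.2 using 1
  rw [dg_apply]
  decide

end Vale.Agent.P004S.Wg
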