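import Vale.Agent.P004S.Gn0
import Vale.Agent.P004S.Irb

/-!
# P004, block SMITH: the rows GEN1 and GEN3 (helper25)
-/

set_option linter.all false

noncomputable section

namespace Vale.Agent.P004S

open NumberField Matrix Filter Topology
open Vale.Agent.P022 (Qb GQ IsConj Irred UnrAt IsFrob)
open Vale.Agent.P027M.S (Inert)
open Vale.Agent.P022D.W (dec)
open Vale.Agent.P022E.GW (Ov Fb Gn Ch)

namespace Gn

variable {r r' : Rp} {S : Finset ℕ} {H : Submodule (ZMod 2) N}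

local instance dF : DecidableEq F := inferInstance

local instance dN : DecidableEq N := inferInstance

theorem dcp : ∀ x : N, x = tn (pj 0 x) ![1, 0] + tn (pj 1 x) ![0, 1] := by
  simp only [pj_apply]
  decide +kernel

theorem tn_add (f f' : F) (e : W) : tn (f + f') e = tn f e + tn f' e := by simp [tn, add_smul]

theorem tn_zero (e : W) : tn 0 e = 0 := by simp [tn]

theorem pj_tn (f : F) : pj 0 (tn f ![1, 0]) = f := by simp [tn, pj_apply]

theorem ex_dt : ∀ f : F, f ≠ 0 → ∃ f', dt f f' = 1 := by decide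

theorem Low.aa (h : Low r) (hr : Rep r S) (g j : GQ) :
    rb r (g * j) 0 1 = rb r g 0 1 + rb r j 0 1 := by
  rw [hr.rb_mul, mul_apply, Fin.sum_univ_two, (h.diag hr g).1, (h.diag hr j).2, one_mul, mul_one,
    add_comm]

theorem Low.one (h : Low r) (hr : Rep r S) {g : GQ} : rb r g = 1 ↔ rb r g 0 1 = 0 :=
  ⟨fun e => by rw [e]; rfl, fun e => by
    ext i j
    fin_cases i <;> fin_cases j
    exacts [(h.diag hr g).1, e, h g, (h.diag hr g).2]⟩

theorem Low.nil (h : Low r) (hr : Rep r S) (up : ∃ g, rb r g 0 1 ≠ 0) (st : Ms.Sta r H) {x : N}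
    (hx : x ∈ H) : tn (pj 1 x) ![1, 0] ∈ H := by
  obtain ⟨g, e⟩ := up
  have k : ∀ v : W, v 1 • (![1, 0] : W) = rb r g *ᵥ v - v := fun v => by
    ext i
    fin_cases i <;> simp [h g, h.diag hr g, (z2 _).resolve_left e]
  exact (Prod.ext (k _) (k _) : tn (pj 1 x) ![1, 0] = dg (rb r g) x - x) ▸ sub_mem (st g x hx) hx

theorem Low.hv (h : Low r) (hr : Rep r S) (up : ∃ g, rb r g 0 1 ≠ 0) : Hv r := fun φ z k => by
  obtain ⟨j, e⟩ := up
  have e := (z2 _).resolve_left e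
  have k' : ∀ g, rb r g 0 1 = 1 → φ g + rb r g *ᵥ φ j = 0 := fun g a => by
    rw [← z.2, k _ ((h.one hr).2 (by rw [h.aa hr, a, e]; rfl))]
  have k1 := congrFun (k' j e) 0
  rw [Pi.add_apply, (h.co hr j _).1, e, one_mul, ← add_assoc, CharTwo.add_self_eq_zero,
    zero_add] at k1
  refine ⟨![0, φ j 0], fun g => (z2 (rb r g 0 1)).elim (fun a => ?_) fun a => ?_⟩
  · rw [k g ((h.one hr).2 a), (h.one hr).2 a, one_mulVec, sub_self]
  · have := k' g a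
    rw [h.fix hr g k1, add_eq_zero_iff_eq_neg, Ms.neg_self] at this
    ext i
    fin_cases i <;> simp [h.diag hr g, a, this, show φ j 1 = 0 from k1]

local instance dZ : DecidableEq (ZMod 2) := inferInstance

theorem d10 : ∀ (A : Matrix (Fin 2) (Fin 2) (ZMod 2)) (x : N), dt (pj 1 x) (pj 0 x) = 1 →
    pj 1 (dg A x) = 0 ∨ pj 1 (dg A x) = pj 1 x → A 1 0 = 0 := by
  simp only [pj_apply, Ms.dg_apply]
  decide +kernel

theorem d11 : ∀ (A : Matrix (Fin 2) (Fin 2) (ZMod 2)) (x : N), A 1 0 = 0 →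
    tn (pj 0 (dg A x - A 1 1 • x)) ![1, 0] = dg A x - A 1 1 • x := by
  simp only [pj_apply, Ms.dg_apply]
  decide +kernel

theorem d14 : ∀ (A : Matrix (Fin 2) (Fin 2) (ZMod 2)) (x : N), dt (pj 1 x) (pj 0 x) = 1 →
    dt (pj 1 x) (pj 0 (dg A x - A 1 1 • x)) = 0 → A 0 0 = A 1 1 := by
  simp only [pj_apply, Ms.dg_apply]
  decide +kernel

/-- the exceptional module is not stable -/
theorem not_stab (h : Rep r S) (hc : Cyc r) (un : Uni r)
    (k : ∀ g, rb r g = 1 → bb r g = 0 ∧ Am r g 0 0 = Am r g 1 1) : False := by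
  have lo : Low r := un.low
  obtain ⟨j, -, a, b⟩ := ex_cj hc
  have t : rb r j 0 1 = 1 := (z2 _).resolve_left fun e => by
    have := (am_cj h a b ((lo.one h).2 e)).1
    rw [(k j ((lo.one h).2 e)).2, left_eq_add] at this
    exact one_ne_zero this
  obtain ⟨g, e⟩ := un.dn
  have t2 : rb r g 0 1 = 1 := (z2 _).resolve_left fun n => e (k g ((lo.one h).2 n)).1
  have t3 := (k (g * j) ((lo.one h).2 (by rw [lo.aa h, t, t2]; rfl))).1
  rw [lo.bb_mul h, CharTwo.add_eq_zero] at t3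
  have p : ‖mt r j 0 0 - 1‖ ≤ 1 / 2 :=
    (rd_eq_iff (h.int _ _ _) norm_one.le).1 ((lo.diag h j).1.trans rd_one.symm)
  have p' : ‖(mt r j 0 0 - 1) / 2 + 1‖ ≤ 1 := norm_add_le' (by
    rw [norm_div, norm_two]
    linarith [div_le_div_of_nonneg_right p (show (0 : ℝ) ≤ 1 / 2 by norm_num)]) norm_one.le
  have q : rd (mt r j 0 1 * (mt r j 1 0 / 2)) = 0 := rd_eq_zero.2 (by
    rw [show mt r j 0 1 * (mt r j 1 0 / 2) = -((mt r j 0 0 - 1) * ((mt r j 0 0 - 1) / 2 + 1)) by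
      linear_combination (1 / 2 : ℚ_[2]) * b, norm_neg, norm_mul]
    exact (mul_le_of_le_one_right (norm_nonneg _) p').trans p)
  rw [rd_mul (h.int _ _ _) (lo.half j), show rd (mt r j 0 1) = 1 from t, one_mul] at q
  exact e (t3.trans q)

variable {u : GL (Fin 2) ℚ_[2]}

theorem nb_inv (hu : (u : Matrix _ _ ℚ_[2]) = nb) (v : V) : u⁻¹.1 *ᵥ v = ![v 1 / 2, v 0] := by
  rw [← Cg.u_inj (u := u), Cg.u_inv', hu]
  ext i
  fin_cases i <;> simp [nb, mulVec, dotProduct]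
  ring

theorem nb_rb (h : Rep r S) (hu : (u : Matrix _ _ ℚ_[2]) = nb) (k : ∀ g, r' g = u⁻¹ * r g * u)
    (g : GQ) : rb r' g 1 0 = 0 ∧ rb r' g 0 1 = bb r g := by
  have e := fun v => (congrArg (u⁻¹.1 *ᵥ ·) (Cg.mt_u k g v)).symm
  simp only [Cg.u_inv, nb_inv hu] at e
  have a := congrFun (e ![1, 0]) 1
  have b := congrFun (e ![0, 1]) 0
  simp [hu, nb, mulVec, dotProduct] at a b
  refine ⟨rd_eq_zero.2 ?_, congrArg rd b⟩
  rw [a, norm_mul, norm_two]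
  linarith [h.int g 0 1]

theorem small {v : V} (a : ‖v‖ ≤ 1) (b : ‖v 1‖ ≤ 1 / 2) : ‖v 1 / 2‖ ≤ 1 ∧ ‖v 0‖ ≤ 1 := by
  rw [norm_div, norm_two]
  exact ⟨by linarith [div_le_div_of_nonneg_right b (show (0 : ℝ) ≤ 1 / 2 by norm_num)], norm_co a 0⟩

theorem vec_le {a b : ℚ_[2]} (h : ‖a‖ ≤ 1 ∧ ‖b‖ ≤ 1) : ‖(![a, b] : V)‖ ≤ 1 :=
  (pi_norm_le_iff_of_nonneg zero_le_one).2 fun i => by fin_cases i; exacts [h.1, h.2]

end Gn

open Gn

attribute [local instance] dF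

theorem igen1 : iGEN1 := fun cy lt cnt _ _ _ _ _ r S Λ pl h i => by
  obtain ⟨U, hU, k⟩ := ex_kil cnt (gd_kn h)
  refine ⟨U, hU.opn, hU.nrm, hU.uns, fun m s X L y a b tw nu oc => ?_⟩
  have P : Pt r S pl m y := ⟨lt, h, ⟨X, L, a, b⟩, nu⟩
  obtain ⟨c, c', p⟩ := ex_pair h tw
  obtain ⟨t, -⟩ := occ_all hU oc 1
  have cl := P.cl p t
  by_cases st : Stab r (Hh r pl y c c')
  · have e0 : ph c c' (pl.τ (y t)) ∈ Hh r pl y c c' :=
      Wg.irb_mem h i (Ms.hs_stb h ⟨t, rfl⟩ (by rw [sub_self]; exact zero_mem _))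
    have nm : Nm r S pl m y c c' := fun q hq => by simpa using add_mem (cl.mem q hq) e0
    exact ⟨_, 0, _, ⟨cl.pre, rfl, fun q hq => by rw [sub_zero]; exact nm q hq⟩,
      .inr ⟨Wg.irb_rich h (cy r S h) i (Ms.hs_sta h _) st fun x z e => Prod.ext_iff.1 (P.zero p
        (fun φ z k => Wg.irb_cob h i z fun g t => k g (h.tr_one_iff.1 t)) hU k oc (l := (x, z))
        fun q hq => e _ (nm q hq)), rfl, fun k => ⟨lift h p.s1 p.i1 k, lift h p.s2 p.i2 k⟩⟩⟩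
  · exact ⟨_, _, _, cl, .inl ⟨fun _ => rfl, st⟩⟩

theorem igen3 : iGEN3 := fun cy lt cnt _ _ _ _ _ r r' S Λ Λ' pl u h h' un hu ch => by
  obtain ⟨U0, g0, k0⟩ := ex_kil cnt (gd_top (S := S))
  obtain ⟨U1, g1, k1⟩ := ex_kil cnt (gd_kn h)
  obtain ⟨U2, g2, k2⟩ := ex_kil cnt (gd_kn h')
  have hU := (g0.inf g1).inf g2
  refine ⟨_, hU.opn, hU.nrm, hU.uns, fun m s X L y a b tw nu nu' oc => ?_⟩
  have P : Pt r S pl m y := ⟨lt, h, ⟨X, L, a, b⟩, nu⟩
  have P' : Pt r' S pl m y := ⟨lt, h', ⟨X, L, a, b⟩, nu'⟩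
  have lo : Low r := un.low
  obtain ⟨t, ht⟩ : ∃ t, rb r (pl.σ (y t)) 0 1 ≠ 0 := by
    by_contra! n
    obtain ⟨g, e⟩ := un.up
    exact e ((k0.mono (inf_le_left.trans inf_le_left)).zero hU inferInstance oc
      (ξ := fun g => rb r g 0 1) ⟨(h.rb_lc.comp fun A => A 0 1).comp_continuous
        continuous_subtype_val, fun a b => lo.aa h a b⟩
      (fun l Q o n g hg => (lo.one h).1 (Ms.rb_inert h o n hg))
      (fun t j _ => (add_conj (f := fun g => rb r g 0 1) (lo.aa h) j _).trans (n t)) trivial)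
  obtain ⟨c₀, c₀', p₀⟩ := ex_pair h tw
  have fx : ∀ {φ}, Pre r S (dd m y) (dd m y) φ → φ (pl.τ (y t)) 1 = 0 := fun {φ} pr => by
    obtain ⟨q1, q2, q3⟩ := (Ms.mem_pf P.sq.ne_zero).1 (P.mem t)
    obtain ⟨n, a1, a2, a3, -⟩ := Ms.pre_pt h pr P.sq pl q1 q3 q2
    rw [← rv_eq_iff ((h.norm_mt _ _).trans a1) a1, h.rv_mt _ a1, a2] at a3
    simpa [lo.co h, ht] using congrFun a3 0
  have pr := p₀.pre h P.sq.ne_zero
  obtain ⟨c, c', p, nm, -⟩ := P.norm p₀ t fun g =>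
    Prod.ext (lo.fix h g (fx pr.1)) (lo.fix h g (fx pr.2))
  have cl : Cl r S pl m y (Hh r pl y c c') 0 (ph c c') :=
    ⟨p.pre h P.sq.ne_zero, rfl, fun q hq => by rw [sub_zero]; exact nm q hq⟩
  have hN := fun x => lo.nil h un.up (x := x) (H := Hh r pl y c c') (Ms.hs_sta h _)
  by_cases A : ∀ f, tn f ![1, 0] ∈ Hh r pl y c c'
  · by_cases B : ∃ x ∈ Hh r pl y c c', pj 1 x ≠ 0
    · obtain ⟨x, hx, n⟩ := B
      obtain ⟨f', e⟩ := ex_dt _ n
      exact .inl (P.rich p nm e (e := ![0, 1]) (by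
        rw [eq_sub_of_add_eq' (dcp x).symm]
        exact sub_mem hx (A _)) (A f') (by decide))
    push Not at B
    refine .inr ⟨⟨_, _, _, cl, ?_⟩, ?_⟩
    · have : Subsingleton {v : ZMod 2 × ZMod 2 // ∃ x ∈ Hh r pl y c c', (x.1 1, x.2 1) = v} :=
        ⟨fun ⟨_, x, a, rfl⟩ ⟨_, z, b, rfl⟩ => Subtype.ext ((B x a).trans (B z b).symm)⟩
      rw [kap, Nat.log_of_lt (n := Nat.card {v : ZMod 2 × ZMod 2 // _})
        (Nat.lt_succ_of_le (Finite.card_le_one_iff_subsingleton.2 this))]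
      exact Nat.log_pos one_lt_two (Finite.one_lt_card_iff_nontrivial.2 ⟨⟨0, zero_mem _, rfl, rfl⟩,
        ⟨_, A (1, 0), rfl, rfl⟩, fun e => (by decide : (0 : N) ≠ tn (1, 0) ![1, 0]) (congrArg Subtype.val e)⟩)
    have lo' : Low r' := fun g => (nb_rb h hu ch.1 g).1
    obtain ⟨c₁, c₁', p₁, s₁, e₁⟩ := P.down p lo (K := h'.Kn 1) (fun g => by
      rw [h'.mem_Kn, h'.tr_one_iff, lo'.one h', (nb_rb h hu ch.1 g).2]) hU (k2.mono inf_le_right) oc
      fun q hq => B _ (nm q hq)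
    have p₂ := p₁.chg ch (fun i j => by
      rw [hu]
      fin_cases i <;> fin_cases j <;> simp [nb, norm_two]
      norm_num) (fun g => nb_inv hu _ ▸ vec_le (small (p₁.i1 g) (s₁ g).1))
      fun g => nb_inv hu _ ▸ vec_le (small (p₁.i2 g) (s₁ g).2)
    have e₂ : ∀ g, pj 1 (ph (Cg.ul u⁻¹ c₁) (Cg.ul u⁻¹ c₁') g) = pj 0 (ph c₁ c₁' g) := fun g => by
      simp only [ph, Cg.ul_apply, nb_inv hu]
      rfl
    have D : ∀ f, ∃ x ∈ Hh r' pl y (Cg.ul u⁻¹ c₁) (Cg.ul u⁻¹ c₁'), pj 1 x = f := fun f =>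
      pj_tn f ▸ hs_map (π := pj 0) (E := fun t => ph c c' (pl.τ (y t))) (fun g t => congrArg _ (Prod.ext
        (lo.fix h g (congrArg Prod.fst (B _ (nm _ (P.mem t)))))
        (lo.fix h g (congrArg Prod.snd (B _ (nm _ (P.mem t)))))))
        (fun t t' => by rw [e₂, e₂, ← map_sub, e₁, map_sub]) (A f)
    refine P'.top p₂ fun z => ?_
    obtain ⟨x, hx, e⟩ := D (pj 1 z)
    obtain ⟨x', hx', e'⟩ := D (pj 0 z - pj 0 x)
    have := add_mem (lo'.nil h' (un.dn.imp fun g a => (nb_rb h hu ch.1 g).2 ▸ a)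
      (Ms.hs_sta h' _) hx') hx
    rwa [e', dcp x, ← add_assoc, ← tn_add, ← dcp x, sub_add_cancel, e, ← dcp z] at this
  push Not at A
  obtain ⟨f₀, A⟩ := A
  obtain ⟨f, f0, hf⟩ : ∃ f : F, f ≠ 0 ∧ ∀ f', tn f' ![1, 0] ∈ Hh r pl y c c' → f' = 0 ∨ f' = f := by
    by_cases e : ∃ f ≠ 0, tn f ![1, 0] ∈ Hh r pl y c c'
    · obtain ⟨f, a, b⟩ := e
      refine ⟨f, a, fun f' e => by_contra fun n => A ?_⟩
      rcases (by decide : ∀ f f' z : F, f ≠ 0 → ¬ (f' = 0 ∨ f' = f) →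
        z = 0 ∨ z = f ∨ z = f' ∨ z = f + f') f f' f₀ a n with rfl | rfl | rfl | rfl
      exacts [tn_zero _ ▸ zero_mem _, b, e, tn_add _ _ _ ▸ add_mem b e]
    · exact ⟨(1, 0), by decide, fun f' a => .inl (by_contra fun n => e ⟨f', n, a⟩)⟩
  obtain ⟨x, hx, n⟩ : ∃ x ∈ Hh r pl y c c', la f.swap x ≠ 0 := by
    by_contra! n
    exact f0 (Prod.swap_injective (P.zero p (lo.hv h un.up) hU
      (k1.mono (inf_le_left.trans inf_le_right)) oc fun q hq => n _ (nm q hq)))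
  have z : ∀ f' : F, f' = 0 ∨ f' = f → dt f f' = 0 :=
    (by decide : ∀ f f' : F, f' = 0 ∨ f' = f → dt f f' = 0) f
  have x0 : dt f (pj 0 x) = 1 := (z2 _).resolve_left fun e => n (funext fun i => by
    fin_cases i
    exacts [e, z _ (hf _ (hN x hx))])
  have z0 : ∀ w ∈ Hh r pl y c c', pj 1 w = 0 → pj 0 w = 0 ∨ pj 0 w = f := fun w a b => hf _ (by
    rwa [dcp w, b, tn_zero, add_zero] at a)
  have x1 : pj 1 x = f := (hf _ (hN x hx)).resolve_left fun e =>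
    one_ne_zero (x0.symm.trans (z _ (z0 x hx e)))
  refine .inl ⟨_, _, _, cl, .inl ⟨fun g => ?_, fun st => not_stab h (cy r S h) un fun g e => ?_⟩⟩
  · rw [gam, kap, Nat.sub_eq_zero_of_le (Nat.log_mono_right (Nat.card_le_card_of_injective
      (fun w => ⟨pj 0 w.1, (z0 _ w.2.1 (Prod.ext w.2.2.1 w.2.2.2)).elim
        (fun a => ⟨0, zero_mem _, a.symm⟩) fun a => ⟨x, hx, x1.trans a.symm⟩⟩)
      fun w w' a => Subtype.ext ?_))]
    · simp
    · rw [dcp w.1, dcp w'.1, show pj 0 w.1 = pj 0 w'.1 from congrArg Subtype.val a,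
        show pj 1 w.1 = pj 1 w'.1 from Prod.ext (w.2.2.1.trans w'.2.2.1.symm)
          (w.2.2.2.trans w'.2.2.2.symm)]
  · have k := st g (h.tr_one_iff.2 e) x hx
    have a := d10 (Am r g) x (x1.symm ▸ x0) (x1.symm ▸ hf _ (hN _ k))
    exact ⟨by simpa [Am, bb] using a, d14 _ x (x1.symm ▸ x0) (x1.symm ▸ z _ (hf _
      ((d11 _ x a).symm ▸ sub_mem k (Submodule.smul_mem _ _ hx))))⟩

end Vale.Agent.P004S
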