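import Vale.Agent.P004S.Box
import Mathlib.Analysis.SpecificLimits.Basic
import Mathlib.Analysis.SpecialFunctions.Pow.Real

/-!
P004, block SMITH: the halving lemma (pure combinatorics).
-/

set_option linter.all false

open Finset Function
open scoped BigOperators Classical

namespace Vale.Agent.P004S

namespace Hf

/-- indicator -/
noncomputable def ind (p : Prop) : ℝ := if p then 1 else 0

theorem ind_nonneg (p : Prop) : 0 ≤ ind p := by unfold ind; split_ifs <;> norm_num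
theorem ind_le (p : Prop) : ind p ≤ 1 := by unfold ind; split_ifs <;> norm_num
theorem abs_ind (p : Prop) : |ind p| ≤ 1 := by rw [abs_of_nonneg (ind_nonneg p)]; exact ind_le p
theorem ind_pos {p : Prop} (h : p) : ind p = 1 := if_pos h
theorem ind_neg {p : Prop} (h : ¬ p) : ind p = 0 := if_neg h
theorem ind_congr {p q : Prop} (h : p ↔ q) : ind p = ind q := by rw [propext h]
theorem ind_mono {p q : Prop} (h : p → q) : ind p ≤ ind q := by
  by_cases hp : p
  · rw [ind_pos hp, ind_pos (h hp)]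
  · rw [ind_neg hp]; exact ind_nonneg q
theorem ind_and (p q : Prop) : ind (p ∧ q) = ind p * ind q := by
  by_cases hp : p <;> by_cases hq : q <;> simp [ind, hp, hq]
theorem ind_not (p : Prop) : ind (¬ p) = 1 - ind p := by
  by_cases hp : p <;> simp [ind, hp]
theorem prod_ind {ι : Type*} (s : Finset ι) (p : ι → Prop) :
    ∏ i ∈ s, ind (p i) = ind (∀ i ∈ s, p i) := by
  unfold ind
  rw [prod_boole]
  congr

theorem ex_ind {X : Type*} [Fintype X] (s : Finset X) :
    𝔼 x, ind (x ∈ s) = (s.card : ℝ) / Fintype.card X := by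
  rw [expect_eq_sum_div_card, card_univ]
  congr 1
  rw [← sum_subset (subset_univ s) fun x _ hx => ind_neg hx, sum_congr rfl fun x hx => ind_pos hx]
  simp

section
variable {X B : Type*} [Fintype X] [Nonempty X] [Fintype B] [Nonempty B]
  {Yp Y : X → Prop} {Zs : B → X → Prop} {G : B → X → ℝ} {J : ℕ} {η ε σ : ℝ}

theorem lemA (Bd : ∀ a (P : List B), P.length ≤ J →
      |𝔼 z, G a z * ind (Zs a z ∧ ∀ l ∈ P, Zs l z)| ≤ σ) (a : B) (L : List B) :
    ∀ P : List B, L.length + P.length ≤ J →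
      |𝔼 z, G a z * ind ((Zs a z ∧ ∀ l ∈ P, Zs l z) ∧ ∀ l ∈ L, ¬ Zs l z)| ≤ 2 ^ L.length * σ := by
  induction L with
  | nil =>
    intro P hP
    simpa using Bd a P (by simpa using hP)
  | cons c L ih =>
    intro P hP
    rw [List.length_cons] at hP ⊢
    have h1 := ih P (by omega)
    have h2 := ih (c :: P) (by rw [List.length_cons]; omega)
    have e : 𝔼 z, G a z * ind ((Zs a z ∧ ∀ l ∈ P, Zs l z) ∧ ∀ l ∈ c :: L, ¬ Zs l z) =
        𝔼 z, G a z * ind ((Zs a z ∧ ∀ l ∈ P, Zs l z) ∧ ∀ l ∈ L, ¬ Zs l z) -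
        𝔼 z, G a z * ind ((Zs a z ∧ ∀ l ∈ c :: P, Zs l z) ∧ ∀ l ∈ L, ¬ Zs l z) := by
      rw [← expect_sub_distrib]
      refine expect_congr rfl fun z _ => ?_
      simp only [List.forall_mem_cons, ind_and, ind_not]
      ring
    rw [e, pow_succ]
    refine (abs_sub _ _).trans ?_
    linarith

theorem lemB (hG : ∀ a z, |G a z| ≤ 1) (R : ∀ a z, Zs a z → Y z)
    (F : ∀ a z, Zs a z → Yp z → G a z = 1)
    (Bd : ∀ a (P : List B), P.length ≤ J →
      |𝔼 z, G a z * ind (Zs a z ∧ ∀ l ∈ P, Zs l z)| ≤ σ) (L : List B) : L.length ≤ J →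
    𝔼 z, ind (Yp z ∧ ¬ ∀ l ∈ L, ¬ Zs l z) ≤
      (𝔼 z, ind (Y z ∧ ¬ ∀ l ∈ L, ¬ Zs l z)) / 2 + 2 ^ L.length * σ := by
  have hσ : 0 ≤ σ := (abs_nonneg _).trans (Bd (Classical.arbitrary B) [] (Nat.zero_le _))
  induction L with
  | nil =>
    intro _
    simp [ind, hσ]
  | cons c L ih =>
    intro hL
    rw [List.length_cons] at hL ⊢
    have h1 := ih (by omega)
    have h2 := (le_abs_self _).trans (lemA Bd c L [] (by simp; omega))
    have k : 𝔼 z, ind (Yp z ∧ ¬ ∀ l ∈ c :: L, ¬ Zs l z) * 2 +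
        𝔼 z, ind (Y z ∧ ¬ ∀ l ∈ L, ¬ Zs l z) ≤
        𝔼 z, ind (Yp z ∧ ¬ ∀ l ∈ L, ¬ Zs l z) * 2 +
        (𝔼 z, ind (Y z ∧ ¬ ∀ l ∈ c :: L, ¬ Zs l z) +
        𝔼 z, G c z * ind ((Zs c z ∧ ∀ l ∈ ([] : List B), Zs l z) ∧ ∀ l ∈ L, ¬ Zs l z)) := by
      rw [← expect_add_distrib, ← expect_add_distrib, ← expect_add_distrib]
      refine expect_le_expect fun z _ => ?_
      simp only [List.forall_mem_cons]
      generalize (∀ l ∈ L, ¬ Zs l z) = U
      by_cases hU : U
      · by_cases hc : Zs c z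
        · have g := abs_le.1 (hG c z)
          by_cases hp : Yp z
          · simp [ind, hU, hc, hp, R c z hc, F c z hc hp]
            norm_num
          · simp [ind, hU, hc, hp, R c z hc]
            linarith [g.1]
        · simp [ind, hU, hc]
      · simp only [hU, and_false, not_false_eq_true, and_true, ind_neg not_false, mul_zero, add_zero,
          le_refl]
    rw [← expect_mul, ← expect_mul] at k
    have : 0 ≤ 2 ^ L.length * σ := by positivity
    rw [pow_succ]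
    linarith

theorem lemC (h0 : η ≤ 1) (j : ℕ) : ∃ L : List B, L.length = j ∧
    𝔼 z, ind ((η ≤ 𝔼 a, ind (Zs a z)) ∧ ∀ l ∈ L, ¬ Zs l z) ≤ (1 - η) ^ j := by
  induction j with
  | zero =>
    refine ⟨[], rfl, ?_⟩
    rw [pow_zero]
    exact expect_le univ_nonempty fun z _ => ind_le _
  | succ j ih =>
    obtain ⟨L, h1, h2⟩ := ih
    have k : 𝔼 c : B, 𝔼 z, ind ((η ≤ 𝔼 a, ind (Zs a z)) ∧ ∀ l ∈ c :: L, ¬ Zs l z) ≤
        (1 - η) ^ (j + 1) := by
      rw [expect_comm, pow_succ]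
      refine le_trans ?_ (mul_le_mul_of_nonneg_right h2 (by linarith))
      rw [expect_mul]
      refine expect_le_expect fun z _ => ?_
      have e : ∀ c : B, ind ((η ≤ 𝔼 a, ind (Zs a z)) ∧ ∀ l ∈ c :: L, ¬ Zs l z) =
          ind ((η ≤ 𝔼 a, ind (Zs a z)) ∧ ∀ l ∈ L, ¬ Zs l z) * (1 - ind (Zs c z)) := by
        intro c
        simp only [List.forall_mem_cons, ind_and, ind_not]
        ring
      simp only [e]
      rw [← mul_expect, expect_sub_distrib, Fintype.expect_const]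
      by_cases h : η ≤ 𝔼 a, ind (Zs a z)
      · exact mul_le_mul_of_nonneg_left (by linarith) (ind_nonneg _)
      · rw [ind_neg fun h' => h h'.1, zero_mul, zero_mul]
    obtain ⟨c, -, hc⟩ := exists_le_of_expect_le univ_nonempty k
    exact ⟨c :: L, by rw [List.length_cons, h1], hc⟩

theorem half0 (hG : ∀ a z, |G a z| ≤ 1) (R : ∀ a z, Zs a z → Y z)
    (F : ∀ a z, Zs a z → Yp z → G a z = 1) (h0 : η ≤ 1)
    (D : 𝔼 z, ind (Yp z ∧ 𝔼 a, ind (Zs a z) < η) ≤ ε)
    (Bd : ∀ a (P : List B), P.length ≤ J →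
      |𝔼 z, G a z * ind (Zs a z ∧ ∀ l ∈ P, Zs l z)| ≤ σ) :
    𝔼 z, ind (Yp z) ≤ (𝔼 z, ind (Y z)) / 2 + ε + (1 - η) ^ J + 2 ^ J * σ := by
  obtain ⟨L, h1, h2⟩ := lemC (Zs := Zs) h0 J
  have h3 := lemB hG R F Bd L h1.le
  have h4 : 𝔼 z, ind (Y z ∧ ¬ ∀ l ∈ L, ¬ Zs l z) ≤ 𝔼 z, ind (Y z) :=
    expect_le_expect fun z _ => ind_mono And.left
  have h5 : 𝔼 z, ind (Yp z) ≤ 𝔼 z, ind (Yp z ∧ ¬ ∀ l ∈ L, ¬ Zs l z) +
      (𝔼 z, ind (Yp z ∧ 𝔼 a, ind (Zs a z) < η) +
      𝔼 z, ind ((η ≤ 𝔼 a, ind (Zs a z)) ∧ ∀ l ∈ L, ¬ Zs l z)) := by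
    rw [← expect_add_distrib, ← expect_add_distrib]
    refine expect_le_expect fun z _ => ?_
    have k1 := ind_nonneg (Yp z ∧ ¬ ∀ l ∈ L, ¬ Zs l z)
    have k2 := ind_nonneg (Yp z ∧ 𝔼 a, ind (Zs a z) < η)
    have k3 := ind_nonneg ((η ≤ 𝔼 a, ind (Zs a z)) ∧ ∀ l ∈ L, ¬ Zs l z)
    by_cases hp : Yp z
    · rw [ind_pos hp]
      by_cases hU : ∀ l ∈ L, ¬ Zs l z
      · by_cases h : η ≤ 𝔼 a, ind (Zs a z)
        · linarith [ind_pos (And.intro h hU)]
        · linarith [ind_pos (And.intro hp (not_le.1 h))]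
      · linarith [ind_pos (And.intro hp hU)]
    · rw [ind_neg hp]
      linarith
  rw [h1] at h3
  linarith

end

end Hf

open Hf Bx

section
variable {κ : Type} [Fintype κ] [DecidableEq κ] {Z : κ → Type} {K : Type}

/-- all corners of the cube with base `a` and top `z`, except the top, lie in `Yp` and have the
colour of `a` -/
def Mono (Yp : Finset (∀ i, Z i)) (col : (∀ i, Z i) → K) (a z : ∀ i, Z i) : Prop :=
  ∀ s : Finset κ, s ≠ univ → s.piecewise z a ∈ Yp ∧ col (s.piecewise z a) = col a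

/-- the main function of the base `a` and of the further bases `P` -/
noncomputable def Hm {X : Type} (C : X → X → Prop) (G : X → X → ℝ) (a : X) (P : List X) (z : X) :
    ℝ := if C a z ∧ ∀ l ∈ P, C l z then G a z else 0

variable [∀ i, Fintype (Z i)] [∀ i, Nonempty (Z i)]

theorem Hf.dens {Yp : Finset (∀ i, Z i)} {col : (∀ i, Z i) → K} {N : ℕ} (hN : 0 < N)
    (hc : (Yp.image col).card ≤ N) {Zs : (∀ i, Z i) → (∀ i, Z i) → Prop}
    (M : ∀ a z, Mono Yp col a z → z ∈ Yp → col z = col a → Zs a z) {ε η : ℝ} (hε : 0 < ε)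
    (hη : η ≤ (ε / N) ^ 2 ^ Fintype.card κ) :
    𝔼 z, ind (z ∈ Yp ∧ 𝔼 a, ind (Zs a z) < η) ≤ ε := by
  have hN' : (0 : ℝ) < N := by exact_mod_cast hN
  have k : ∀ c : K, 𝔼 z, ind ((z ∈ Yp ∧ 𝔼 a, ind (Zs a z) < η) ∧ col z = c) ≤ ε / N := by
    intro c
    by_contra hlt
    rw [not_le] at hlt
    have k1 := cubes fun z => ind ((z ∈ Yp ∧ 𝔼 a, ind (Zs a z) < η) ∧ col z = c)
    have k2 : box univ (fun z => ind ((z ∈ Yp ∧ 𝔼 a, ind (Zs a z) < η) ∧ col z = c)) ≤ η := by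
      have h0 : 0 ≤ η := by
        by_contra h
        have : 𝔼 z, ind ((z ∈ Yp ∧ 𝔼 a, ind (Zs a z) < η) ∧ col z = c) = 0 :=
          expect_eq_zero fun z _ => ind_neg fun h' => h
            ((expect_nonneg fun a _ => ind_nonneg _).trans h'.1.2.le)
        rw [this] at hlt
        exact absurd hlt (not_lt.2 (by positivity))
      refine expect_le univ_nonempty fun z _ => ?_
      simp only [prod_ind]
      by_cases h : 𝔼 a, ind (Zs a z) < η
      · refine le_trans (expect_le_expect fun a _ => ind_mono fun h' => ?_) h.le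
        have t := h' univ (mem_powerset_self _)
        have t0 := h' ∅ (empty_mem_powerset _)
        rw [piecewise_univ] at t
        rw [piecewise_empty] at t0
        refine M a z (fun s _ => ?_) t.1.1 (t.2.trans t0.2.symm)
        have ts := h' s (mem_powerset.2 (subset_univ s))
        exact ⟨ts.1.1, ts.2.trans t0.2.symm⟩
      · refine expect_le univ_nonempty fun a _ => ?_
        rw [ind_neg]
        · exact h0
        · intro h'
          have t := h' univ (mem_powerset_self _)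
          rw [piecewise_univ] at t
          exact h t.1.2
    have k3 := pow_lt_pow_left₀ hlt (by positivity) (n := 2 ^ Fintype.card κ) (by positivity)
    linarith
  have e : 𝔼 z, ind (z ∈ Yp ∧ 𝔼 a, ind (Zs a z) < η) = ∑ c ∈ Yp.image col,
      𝔼 z, ind ((z ∈ Yp ∧ 𝔼 a, ind (Zs a z) < η) ∧ col z = c) := by
    rw [← expect_sum_comm]
    refine expect_congr rfl fun z _ => ?_
    by_cases h : z ∈ Yp ∧ 𝔼 a, ind (Zs a z) < η
    · rw [sum_eq_single_of_mem (col z) (mem_image_of_mem _ h.1)]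
      · exact ind_congr (by simp)
      · exact fun c _ hc => ind_neg fun h' => hc h'.2.symm
    · rw [ind_neg h]
      exact (sum_eq_zero fun c _ => ind_neg fun h' => h h'.1).symm
  rw [e]
  refine (sum_le_card_nsmul _ _ _ fun c _ => k c).trans ?_
  rw [nsmul_eq_mul]
  calc ((Yp.image col).card : ℝ) * (ε / N) ≤ N * (ε / N) :=
        mul_le_mul_of_nonneg_right (by exact_mod_cast hc) (by positivity)
    _ = ε := by field_simp

/-- the part of `Mono` attached to a missing coordinate -/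
theorem Hf.mono_prod (Yp : Finset (∀ i, Z i)) (col : (∀ i, Z i) → K) (P : List (∀ i, Z i)) :
    ∃ f : κ → (∀ i, Z i) → ℝ, (∀ i x, |f i x| ≤ 1) ∧ (∀ i x u, f i (update x i u) = f i x) ∧
      ∀ z, ∏ i, f i z = ind (∀ l ∈ P, Mono Yp col l z) := by
  refine ⟨fun i z => ind (∀ l ∈ P, ∀ s : Finset κ, i ∉ s →
    s.piecewise z l ∈ Yp ∧ col (s.piecewise z l) = col l), fun i x => abs_ind _,
    fun i x u => ind_congr ?_, fun z => ?_⟩
  · refine forall₂_congr fun l _ => forall₂_congr fun s hs => ?_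
    rw [pw_update hs]
  · rw [prod_ind]
    refine ind_congr ⟨fun h l hl s hs => ?_, fun h i _ l hl s hs => h l hl s ?_⟩
    · obtain ⟨i, hi⟩ : ∃ i, i ∉ s := by
        by_contra h'
        exact hs (eq_univ_of_forall (by simpa using h'))
      exact h i (mem_univ i) l hl s hi
    · rintro rfl
      exact hs (mem_univ i)

theorem Hf.ex_eq (i : κ) (w : Z i) :
    𝔼 y : ∀ i, Z i, ind (y i = w) = 1 / (Fintype.card (Z i) : ℝ) := by
  rw [← ex_update i]
  simp only [update_self]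
  rw [Fintype.expect_const]
  have := ex_ind ({w} : Finset (Z i))
  simpa using this

theorem Hf.degen {n : ℕ} (hn : 0 < n) (hZ : ∀ i, n ≤ Fintype.card (Z i)) (P : List (∀ i, Z i)) :
    𝔼 y : ∀ i, Z i, ind (¬ ∀ l ∈ P, ∀ i, y i ≠ l i) ≤
      P.length * (Fintype.card κ / (n : ℝ)) := by
  have hn' : (0 : ℝ) < n := by exact_mod_cast hn
  induction P with
  | nil => simp [ind]
  | cons c P ih =>
    have k : 𝔼 y : ∀ i, Z i, ind (¬ ∀ l ∈ c :: P, ∀ i, y i ≠ l i) ≤
        𝔼 y : ∀ i, Z i, ind (¬ ∀ l ∈ P, ∀ i, y i ≠ l i) + ∑ i, 𝔼 y : ∀ i, Z i, ind (y i = c i) := by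
      rw [← expect_sum_comm, ← expect_add_distrib]
      refine expect_le_expect fun y _ => ?_
      have k0 : 0 ≤ ∑ i, ind (y i = c i) := sum_nonneg fun i _ => ind_nonneg _
      have k1 := ind_nonneg (¬ ∀ l ∈ P, ∀ i, y i ≠ l i)
      by_cases h : ∀ i, y i ≠ c i
      · have : ind (¬ ∀ l ∈ c :: P, ∀ i, y i ≠ l i) = ind (¬ ∀ l ∈ P, ∀ i, y i ≠ l i) :=
          ind_congr (by rw [List.forall_mem_cons]; simp only [h, ne_eq, not_false_eq_true,
            implies_true, true_and])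
        linarith
      · obtain ⟨i, hi⟩ := not_forall.1 h
        have k2 := single_le_sum (f := fun i => ind (y i = c i)) (fun i _ => ind_nonneg _)
          (mem_univ i)
        simp only [ind_pos (not_not.1 hi)] at k2
        linarith [ind_le (¬ ∀ l ∈ c :: P, ∀ i, y i ≠ l i)]
    have k3 : ∑ i, 𝔼 y : ∀ i, Z i, ind (y i = c i) ≤ Fintype.card κ / (n : ℝ) := by
      refine (sum_le_card_nsmul _ _ (1 / (n : ℝ)) fun i _ => ?_).trans (le_of_eq ?_)
      · rw [Hf.ex_eq]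
        exact one_div_le_one_div_of_le hn' (by exact_mod_cast hZ i)
      · rw [nsmul_eq_mul, card_univ]
        ring
    rw [List.length_cons]
    push_cast
    linarith

theorem Hf.gcs_abs (b : κ) (H : (∀ i, Z i) → ℝ) (f : κ → (∀ i, Z i) → ℝ)
    (h1 : ∀ i x, |f i x| ≤ 1) (h2 : ∀ i x u, f i (update x i u) = f i x) :
    |𝔼 x, H x * ∏ i, f i x| ^ 2 ^ (univ.erase b).card ≤
      𝔼 y : ∀ i, Z i, 𝔼 x : ∀ i, Z i,
        |𝔼 u : Z b, ∏ s ∈ (univ.erase b).powerset, H (update (s.piecewise y x) b u)| := by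
  rcases abs_choice (𝔼 x, H x * ∏ i, f i x) with h | h
  · rw [h]; exact gcs_b b H f h1 h2
  · have k := gcs_b b H (fun i x => (if i = b then -1 else 1) * f i x)
      (fun i x => by split_ifs <;> simpa using h1 i x) fun i x u => by rw [h2]
    rw [h, ← expect_neg_distrib]
    refine le_trans (le_of_eq ?_) k
    congr 1
    refine expect_congr rfl fun x _ => ?_
    rw [prod_mul_distrib, prod_ite_eq' univ b fun _ => (-1 : ℝ), if_pos (mem_univ b)]
    ring

end

/-- **HALF.** -/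
theorem half (m N : ℕ) {ε : ℝ} (hε : 0 < ε) : ∃ (J n : ℕ) (δ : ℝ), 0 < δ ∧
    ∀ (κ : Type) [Fintype κ] [DecidableEq κ] (b : κ) (Z : κ → Type) [∀ i, Fintype (Z i)]
      (K : Type) (Yp Y : Finset (∀ i, Z i)) (col : (∀ i, Z i) → K)
      (C : (∀ i, Z i) → (∀ i, Z i) → Prop) (G : (∀ i, Z i) → (∀ i, Z i) → ℝ),
      Fintype.card κ ≤ m → (∀ i, n ≤ Fintype.card (Z i)) → (Yp.image col).card ≤ N →
      (∀ a z, |G a z| ≤ 1) →
      (∀ a z, Mono Yp col a z → C a z → z ∈ Y) →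
      (∀ a z, Mono Yp col a z → C a z → z ∈ Yp → G a z = 1) →
      (∀ a z, Mono Yp col a z → z ∈ Yp → col z = col a → C a z) →
      (∀ (a : ∀ i, Z i) (P : List (∀ i, Z i)), P.length ≤ J → ∀ x y : ∀ i, Z i,
        (∀ l ∈ x :: a :: P, ∀ i, y i ≠ l i) →
        |∑ u : Z b, ∏ s ∈ (univ.erase b).powerset, Hm C G a P (update (s.piecewise y x) b u)| ≤
          δ * Fintype.card (Z b)) →
      (Yp.card : ℝ) ≤ Y.card / 2 + ε * ∏ i, (Fintype.card (Z i) : ℝ) := by
  have h3 : 0 < ε / 3 := by positivity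
  have hr0 : 0 < min 1 (ε / 3 / (N + 1 : ℕ)) := lt_min one_pos (by positivity)
  have hr1 : min 1 (ε / 3 / (N + 1 : ℕ)) ≤ 1 := min_le_left _ _
  have hr2 : min 1 (ε / 3 / (N + 1 : ℕ)) ≤ ε / 3 / (N + 1 : ℕ) := min_le_right _ _
  generalize min 1 (ε / 3 / (N + 1 : ℕ)) = r at hr0 hr1 hr2
  have hη0 : 0 < r ^ 2 ^ m := by positivity
  obtain ⟨J, hJ⟩ := exists_pow_lt_of_lt_one h3 (show 1 - r ^ 2 ^ m < 1 by linarith)
  have hs0 : 0 < min 1 (ε / 3 / 2 ^ J) := lt_min one_pos (by positivity)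
  have hs1 : min 1 (ε / 3 / 2 ^ J) ≤ 1 := min_le_left _ _
  have hs2 : min 1 (ε / 3 / 2 ^ J) ≤ ε / 3 / 2 ^ J := min_le_right _ _
  generalize min 1 (ε / 3 / 2 ^ J) = σ at hs0 hs1 hs2
  have hδ : 0 < σ ^ 2 ^ m / 2 := by positivity
  obtain ⟨n, hn⟩ := exists_nat_gt ((J + 2 : ℝ) * m / (σ ^ 2 ^ m / 2))
  have hn0 : (0 : ℝ) < n := lt_of_le_of_lt (by positivity) hn
  have hn1 : 0 < n := by exact_mod_cast hn0
  refine ⟨J, n, σ ^ 2 ^ m / 2, hδ, ?_⟩
  intro κ _ _ b Z _ K Yp Y col C G hm hZ hc hG R F M Bd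
  have hne : ∀ i, Nonempty (Z i) := fun i => Fintype.card_pos_iff.1 (hn1.trans_le (hZ i))
  have hcard : (Fintype.card (∀ i, Z i) : ℝ) = ∏ i, (Fintype.card (Z i) : ℝ) := by
    rw [← Nat.cast_prod]
    congr 1
    convert Fintype.card_pi
  have hpos : (0 : ℝ) < Fintype.card (∀ i, Z i) := by exact_mod_cast Fintype.card_pos
  have hHm : ∀ a P z, |Hm C G a P z| ≤ 1 := fun a P z => by
    unfold Hm
    split_ifs
    · exact hG a z
    · simp
  have k := half0 (Yp := fun z => z ∈ Yp) (Y := fun z => z ∈ Y)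
    (Zs := fun a z => Mono Yp col a z ∧ C a z) (G := G) (J := J) (η := r ^ 2 ^ m) (ε := ε / 3)
    (σ := σ) hG (fun a z h => R a z h.1 h.2) (fun a z h => F a z h.1 h.2)
    (pow_le_one₀ hr0.le hr1)
    (Hf.dens (Nat.succ_pos N) (hc.trans (Nat.le_succ N))
      (fun a z h1 h2 h3 => ⟨h1, M a z h1 h2 h3⟩) h3
      ((pow_le_pow_of_le_one hr0.le hr1 (Nat.pow_le_pow_right two_pos hm)).trans
        (pow_le_pow_left₀ hr0.le hr2 _))) (by
    intro a P hP
    obtain ⟨f, f1, f2, f3⟩ := Hf.mono_prod Yp col (a :: P)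
    have e : 𝔼 z, G a z * ind ((Mono Yp col a z ∧ C a z) ∧ ∀ l ∈ P, Mono Yp col l z ∧ C l z) =
        𝔼 z, Hm C G a P z * ∏ i, f i z := by
      refine expect_congr rfl fun z _ => ?_
      rw [f3, Hm, List.forall_mem_cons]
      split_ifs with h
      · congr 1
        exact ind_congr ⟨fun t => ⟨t.1.1, fun l hl => (t.2 l hl).1⟩,
          fun t => ⟨⟨t.1, h.1⟩, fun l hl => ⟨t.2 l hl, h.2 l hl⟩⟩⟩
      · rw [ind_neg fun t => h ⟨t.1.2, fun l hl => (t.2 l hl).2⟩, mul_zero, zero_mul]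
    rw [e]
    have k1 := Hf.gcs_abs b (Hm C G a P) f f1 f2
    have k2 : 𝔼 y : ∀ i, Z i, 𝔼 x : ∀ i, Z i, |𝔼 u : Z b, ∏ s ∈ (univ.erase b).powerset,
        Hm C G a P (update (s.piecewise y x) b u)| ≤ σ ^ 2 ^ m := by
      rw [expect_comm]
      refine expect_le univ_nonempty fun x _ => ?_
      have k3 := Hf.degen hn1 hZ (x :: a :: P)
      have k4 : ((x :: a :: P).length : ℝ) * (Fintype.card κ / (n : ℝ)) ≤ σ ^ 2 ^ m / 2 := by
        rw [div_lt_iff₀ hδ] at hn
        rw [← mul_div_assoc, div_le_iff₀ hn0]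
        have t1 : ((x :: a :: P).length : ℝ) ≤ J + 2 := by
          simp only [List.length_cons]
          exact_mod_cast Nat.add_le_add_right hP 2
        have t2 : (Fintype.card κ : ℝ) ≤ m := by exact_mod_cast hm
        have t3 := mul_le_mul t1 t2 (Nat.cast_nonneg _) (by positivity)
        linarith
      have k5 : 𝔼 y : ∀ i, Z i, |𝔼 u : Z b, ∏ s ∈ (univ.erase b).powerset,
          Hm C G a P (update (s.piecewise y x) b u)| ≤ 𝔼 y : ∀ i, Z i,
          (σ ^ 2 ^ m / 2 + ind (¬ ∀ l ∈ x :: a :: P, ∀ i, y i ≠ l i)) := by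
        refine expect_le_expect fun y _ => ?_
        by_cases h : ∀ l ∈ x :: a :: P, ∀ i, y i ≠ l i
        · have hb : (0 : ℝ) < Fintype.card (Z b) := by exact_mod_cast Fintype.card_pos
          rw [ind_neg (not_not.2 h), add_zero, expect_eq_sum_div_card, card_univ, abs_div,
            abs_of_pos hb, div_le_iff₀ hb]
          exact Bd a P hP x y h
        · rw [ind_pos h]
          refine le_trans ((abs_expect_le _ _).trans (expect_le univ_nonempty fun u _ => ?_))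
            (le_add_of_nonneg_left hδ.le)
          rw [abs_prod]
          exact prod_le_one (fun _ _ => abs_nonneg _) fun _ _ => hHm _ _ _
      rw [expect_add_distrib, Fintype.expect_const] at k5
      linarith
    have k6 : (univ.erase b).card ≤ m := (card_le_univ _).trans hm
    exact le_of_pow_le_pow_left₀ (by positivity) hs0.le (k1.trans (k2.trans
      (pow_le_pow_of_le_one hs0.le hs1 (Nat.pow_le_pow_right two_pos k6)))))
  rw [ex_ind, ex_ind] at k
  rw [le_div_iff₀ (by positivity)] at hs2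
  have k7 : (Yp.card : ℝ) / Fintype.card (∀ i, Z i) ≤
      (Y.card : ℝ) / Fintype.card (∀ i, Z i) / 2 + ε := by linarith
  rw [div_le_iff₀ hpos, add_mul, div_right_comm, div_mul_cancel₀ _ hpos.ne', hcard] at k7
  exact k7

end Vale.Agent.P004S
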