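import Vale.Agent.P004S.Half

/-!
P004, block SMITH: the halving lemma for boxes with a set of active directions.
-/

set_option linter.all false

open Finset Function
open scoped BigOperators Classical

namespace Vale.Agent.P004S

open Hf Bx

section
variable {ι α K : Type} [Fintype ι] [DecidableEq ι]

/-- the corner `w ⊆ J` of the cube with base `a`, top `z` and active directions `J` -/
def cor (J : Finset ι) (a z : ι → α) (w : Finset ι) : ι → α := w.piecewise z (J.piecewise a z)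

/-- non degenerate cube, all corners but the top in `Yp` and of one colour -/
def Mo (J : Finset ι) (Yp : Finset (ι → α)) (col : (ι → α) → K) (a z : ι → α) : Prop :=
  (∀ i ∈ J, z i ≠ a i) ∧ ∀ w ⊂ J, cor J a z w ∈ Yp ∧ col (cor J a z w) = col (cor J a z ∅)

/-- the part of `Mo` on the face opposite to the direction `b` -/
def Fa (J : Finset ι) (b : ι) (Yp : Finset (ι → α)) (col : (ι → α) → K) (a z : ι → α) : Prop :=
  (∀ i ∈ J.erase b, z i ≠ a i) ∧
    ∀ w ⊆ J.erase b, cor J a z w ∈ Yp ∧ col (cor J a z w) = col (cor J a z ∅)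

theorem cor_top (J : Finset ι) (a z : ι → α) : cor J a z J = z := by
  funext i
  by_cases h : i ∈ J <;> simp [cor, piecewise, h]

theorem cor_update {J w : Finset ι} {b : ι} (hb : b ∈ J) (hw : b ∉ w) (a z : ι → α) (u : α) :
    cor J a (update z b u) w = cor J a z w := by
  funext i
  by_cases h : i = b
  · subst h; simp [cor, piecewise, hb, hw]
  · simp [cor, piecewise, update_of_ne h]

variable {J : Finset ι} {Yp : Finset (ι → α)} {col : (ι → α) → K}

theorem fa_update {b : ι} (hb : b ∈ J) (a z : ι → α) (u : α) :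
    Fa J b Yp col a (update z b u) ↔ Fa J b Yp col a z := by
  refine and_congr (forall₂_congr fun i hi => ?_) (forall₂_congr fun w hw => ?_)
  · rw [update_of_ne (ne_of_mem_erase hi)]
  · rw [cor_update hb (fun h => notMem_erase b J (hw h)), cor_update hb (notMem_empty b)]

theorem Mo.fa {a z : ι → α} (h : Mo J Yp col a z) {b : ι} (hb : b ∈ J) : Fa J b Yp col a z :=
  ⟨fun i hi => h.1 i (mem_of_mem_erase hi), fun w hw => h.2 w (hw.trans_ssubset (erase_ssubset hb))⟩

theorem mo_iff (hJ : 2 ≤ J.card) (a z : ι → α) :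
    Mo J Yp col a z ↔ ∀ b ∈ J, Fa J b Yp col a z := by
  refine ⟨fun h b hb => h.fa hb, fun h => ⟨fun i hi => ?_, fun w hw => ?_⟩⟩
  · obtain ⟨b, hb, hbi⟩ := exists_mem_ne (lt_of_lt_of_le one_lt_two hJ) i
    exact (h b hb).1 i (mem_erase.2 ⟨hbi.symm, hi⟩)
  · obtain ⟨b, hb, hbw⟩ := exists_of_ssubset hw
    exact (h b hb).2 w (subset_erase.2 ⟨hw.subset, hbw⟩)

end

namespace Hb

section
variable {κ : Type} [Fintype κ] [DecidableEq κ] {Z : κ → Type} [∀ i, Fintype (Z i)]
  [∀ i, Nonempty (Z i)]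

theorem gcs1 {S : Finset κ} {b : κ} (hb : b ∉ S) (H g : (∀ i, Z i) → ℝ)
    (f : κ → (∀ i, Z i) → ℝ) (h1 : ∀ i x, |f i x| ≤ 1)
    (h2 : ∀ i ∈ S, ∀ x u, f i (update x i u) = f i x) (h3 : ∀ x u, g (update x b u) = g x) :
    (𝔼 x, (H x * g x) * ∏ i ∈ S, f i x) ^ 2 ^ S.card ≤
      𝔼 y : ∀ i, Z i, 𝔼 x : ∀ i, Z i,
        |𝔼 u : Z b, ∏ s ∈ S.powerset, H (update (s.piecewise y x) b u)| *
          ∏ s ∈ S.powerset, |g (s.piecewise y x)| := by
  refine (gcs S (fun x => H x * g x) f h1 h2).trans (expect_le_expect fun y _ => ?_)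
  rw [← ex_update b]
  refine expect_le_expect fun x _ => ?_
  have e2 : ∀ u : Z b, ∀ s ∈ S.powerset,
      s.piecewise y (update x b u) = update (s.piecewise y x) b u := by
    intro u s hs
    have hb' : b ∉ s := fun h => hb (mem_powerset.1 hs h)
    funext i
    by_cases hi : i = b
    · subst hi; simp [piecewise, hb']
    · by_cases hs' : i ∈ s <;> simp [piecewise, hs', update_of_ne hi]
  have e3 : 𝔼 u : Z b, ∏ s ∈ S.powerset,
      H (s.piecewise y (update x b u)) * g (s.piecewise y (update x b u)) =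
      (𝔼 u : Z b, ∏ s ∈ S.powerset, H (update (s.piecewise y x) b u)) *
        ∏ s ∈ S.powerset, g (s.piecewise y x) := by
    rw [expect_mul]
    refine expect_congr rfl fun u _ => ?_
    rw [← prod_mul_distrib]
    exact prod_congr rfl fun s hs => by rw [e2 u s hs, h3]
  rw [e3, ← abs_prod, ← abs_mul]
  exact le_abs_self _

theorem gcs2 {S : Finset κ} {b : κ} (hb : b ∉ S) (H g : (∀ i, Z i) → ℝ)
    (f : κ → (∀ i, Z i) → ℝ) (h1 : ∀ i x, |f i x| ≤ 1)
    (h2 : ∀ i ∈ S, ∀ x u, f i (update x i u) = f i x) (h3 : ∀ x u, g (update x b u) = g x) :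
    |𝔼 x, (H x * g x) * ∏ i ∈ S, f i x| ^ 2 ^ S.card ≤
      𝔼 y : ∀ i, Z i, 𝔼 x : ∀ i, Z i,
        |𝔼 u : Z b, ∏ s ∈ S.powerset, H (update (s.piecewise y x) b u)| *
          ∏ s ∈ S.powerset, |g (s.piecewise y x)| := by
  rcases abs_choice (𝔼 x, (H x * g x) * ∏ i ∈ S, f i x) with h | h
  · rw [h]; exact gcs1 hb H g f h1 h2 h3
  · have k := gcs1 hb H (fun x => - g x) f h1 h2 fun x u => by rw [h3]
    simp only [abs_neg] at k
    rw [h, ← expect_neg_distrib]
    refine le_trans (le_of_eq ?_) k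
    congr 1
    exact expect_congr rfl fun x _ => by ring

theorem degen {n : ℕ} (hn : 0 < n) {J : Finset κ} (hZ : ∀ i ∈ J, n ≤ Fintype.card (Z i))
    (x : ∀ i, Z i) : 𝔼 y : ∀ i, Z i, ind (¬ ∀ i ∈ J, y i ≠ x i) ≤ J.card / (n : ℝ) := by
  have hn' : (0 : ℝ) < n := by exact_mod_cast hn
  have k : 𝔼 y : ∀ i, Z i, ind (¬ ∀ i ∈ J, y i ≠ x i) ≤
      ∑ i ∈ J, 𝔼 y : ∀ i, Z i, ind (y i = x i) := by
    rw [← expect_sum_comm]
    refine expect_le_expect fun y _ => ?_
    by_cases h : ∀ i ∈ J, y i ≠ x i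
    · rw [ind_neg (not_not.2 h)]
      exact sum_nonneg fun i _ => ind_nonneg _
    · simp only [not_forall, not_not] at h
      obtain ⟨i, hi, h⟩ := h
      have k2 := single_le_sum (f := fun i => ind (y i = x i)) (fun i _ => ind_nonneg _) hi
      simp only [ind_pos h] at k2
      exact (ind_le _).trans k2
  refine k.trans ((sum_le_card_nsmul _ _ (1 / (n : ℝ)) fun i hi => ?_).trans (le_of_eq ?_))
  · rw [Hf.ex_eq]
    exact one_div_le_one_div_of_le hn' (by exact_mod_cast hZ i hi)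
  · rw [nsmul_eq_mul]
    ring

theorem swap (J : Finset κ) (Φ : (∀ i, Z i) → (∀ i, Z i) → ℝ) :
    𝔼 y, 𝔼 x, Φ (J.piecewise y x) (J.piecewise x y) = 𝔼 z, 𝔼 a, Φ z a := by
  rw [← expect_product' univ univ fun y x => Φ (J.piecewise y x) (J.piecewise x y),
    ← expect_product' univ univ Φ, univ_product_univ]
  have h : ∀ y x : ∀ i, Z i, J.piecewise (J.piecewise y x) (J.piecewise x y) = y := by
    intro y x
    funext i
    by_cases h : i ∈ J <;> simp [piecewise, h]
  let e : (∀ i, Z i) × (∀ i, Z i) ≃ (∀ i, Z i) × (∀ i, Z i) :=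
    { toFun := fun p => (J.piecewise p.1 p.2, J.piecewise p.2 p.1)
      invFun := fun p => (J.piecewise p.1 p.2, J.piecewise p.2 p.1)
      left_inv := fun p => by simp [h]
      right_inv := fun p => by simp [h] }
  exact Fintype.expect_equiv e _ _ fun p => rfl

theorem dens {K : Type} {J : Finset κ} {P : (∀ i, Z i) → Prop} {col : (∀ i, Z i) → K}
    {T : Finset K} {N n : ℕ} (hN : 0 < N) (hT : T.card ≤ N) (hc : ∀ z, P z → col z ∈ T)
    (hn : 0 < n) (hZ : ∀ i ∈ J, n ≤ Fintype.card (Z i)) {Zs : (∀ i, Z i) → (∀ i, Z i) → Prop}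
    (M : ∀ a z c, (∀ i ∈ J, z i ≠ a i) → (∀ w ⊆ J, P (w.piecewise z (J.piecewise a z)) ∧
      col (w.piecewise z (J.piecewise a z)) = c) → Zs a z) {ε η : ℝ} (hε : 0 < ε) (h0 : 0 ≤ η)
    (hη : η + J.card / (n : ℝ) ≤ (ε / N) ^ 2 ^ J.card) :
    𝔼 z, ind (P z ∧ 𝔼 a, ind (Zs a z) < η) ≤ ε := by
  have hN' : (0 : ℝ) < N := by exact_mod_cast hN
  have k : ∀ c : K, 𝔼 z, ind ((P z ∧ 𝔼 a, ind (Zs a z) < η) ∧ col z = c) ≤ ε / N := by
    intro c
    by_contra hlt
    rw [not_le] at hlt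
    have k1 := gcs J (fun z => ind ((P z ∧ 𝔼 a, ind (Zs a z) < η) ∧ col z = c)) (fun _ _ => 1)
      (by simp) (by simp)
    simp only [prod_const_one, mul_one] at k1
    have k2 : box J (fun z => ind ((P z ∧ 𝔼 a, ind (Zs a z) < η) ∧ col z = c)) =
        𝔼 z : ∀ i, Z i, 𝔼 a : ∀ i, Z i, ∏ w ∈ J.powerset,
          (fun z => ind ((P z ∧ 𝔼 a, ind (Zs a z) < η) ∧ col z = c))
            (w.piecewise z (J.piecewise a z)) := by
      rw [← swap J]
      refine expect_congr rfl fun y _ => expect_congr rfl fun x _ => prod_congr rfl fun w hw => ?_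
      congr 1
      funext i
      by_cases h1 : i ∈ w
      · simp [piecewise, h1, mem_powerset.1 hw h1]
      · by_cases h2 : i ∈ J <;> simp [piecewise, h1, h2]
    have hd : 0 ≤ J.card / (n : ℝ) := by positivity
    have k4 : box J (fun z => ind ((P z ∧ 𝔼 a, ind (Zs a z) < η) ∧ col z = c)) ≤
        η + J.card / (n : ℝ) := by
      rw [k2]
      refine expect_le univ_nonempty fun z _ => ?_
      simp only [prod_ind]
      have top : ∀ a : ∀ i, Z i, J.piecewise z (J.piecewise a z) = z := by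
        intro a
        funext i
        by_cases h : i ∈ J <;> simp [piecewise, h]
      by_cases h : 𝔼 a, ind (Zs a z) < η
      · refine le_trans ?_ (add_le_add h.le (degen hn hZ z))
        rw [← expect_add_distrib]
        refine expect_le_expect fun a _ => ?_
        by_cases h2 : ∀ i ∈ J, a i ≠ z i
        · rw [ind_neg (not_not.2 h2), add_zero]
          refine ind_mono fun h' => M a z c (fun i hi => (h2 i hi).symm) fun w hw => ?_
          have ts := h' w (mem_powerset.2 hw)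
          exact ⟨ts.1.1, ts.2⟩
        · rw [ind_pos h2]
          linarith [ind_nonneg (Zs a z), ind_le (∀ w ∈ J.powerset,
            (P (w.piecewise z (J.piecewise a z)) ∧
              𝔼 a', ind (Zs a' (w.piecewise z (J.piecewise a z))) < η) ∧
              col (w.piecewise z (J.piecewise a z)) = c)]
      · refine expect_le univ_nonempty fun a _ => ?_
        rw [ind_neg]
        · linarith
        · intro h'
          have t := h' J (mem_powerset_self _)
          rw [top] at t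
          exact h t.1.2
    have k3 := pow_lt_pow_left₀ hlt (by positivity) (n := 2 ^ J.card) (by positivity)
    linarith
  have e : 𝔼 z, ind (P z ∧ 𝔼 a, ind (Zs a z) < η) = ∑ c ∈ T,
      𝔼 z, ind ((P z ∧ 𝔼 a, ind (Zs a z) < η) ∧ col z = c) := by
    rw [← expect_sum_comm]
    refine expect_congr rfl fun z _ => ?_
    by_cases h : P z ∧ 𝔼 a, ind (Zs a z) < η
    · rw [sum_eq_single_of_mem (col z) (hc z h.1)]
      · exact ind_congr (by simp [h])
      · exact fun c _ hc => ind_neg fun h' => hc h'.2.symm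
    · rw [ind_neg h]
      exact (sum_eq_zero fun c _ => ind_neg fun h' => h h'.1).symm
  rw [e]
  refine (sum_le_card_nsmul _ _ _ fun c _ => k c).trans ?_
  rw [nsmul_eq_mul]
  calc (T.card : ℝ) * (ε / N) ≤ N * (ε / N) :=
        mul_le_mul_of_nonneg_right (by exact_mod_cast hT) (by positivity)
    _ = ε := by field_simp

end

section
variable {ι α : Type} [Fintype ι] [DecidableEq ι] {X : ι → Finset α}

/-- a point of the box -/
def vl (x : ∀ i, X i) : ι → α := fun i => (x i).1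

theorem vl_mem (x : ∀ i, X i) : vl x ∈ Fintype.piFinset X :=
  Fintype.mem_piFinset.2 fun i => (x i).2

theorem vl_pw (s : Finset ι) (y x : ∀ i, X i) :
    vl (s.piecewise y x) = s.piecewise (vl y) (vl x) := by
  funext i
  by_cases h : i ∈ s <;> simp [vl, piecewise, h]

theorem vl_up (x : ∀ i, X i) (b : ι) (u : X b) : vl (update x b u) = update (vl x) b u.1 := by
  funext i
  by_cases h : i = b
  · subst h; simp [vl]
  · simp [vl, update_of_ne h]

theorem vl_ne {x y : ∀ i, X i} {i : ι} : vl x i ≠ vl y i ↔ x i ≠ y i :=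
  not_congr Subtype.ext_iff.symm

theorem card_vl {Y : Finset (ι → α)} (hY : Y ⊆ Fintype.piFinset X) :
    (univ.filter fun x : ∀ i, X i => vl x ∈ Y).card = Y.card := by
  refine card_bij (fun x _ => vl x) (fun x hx => (mem_filter.1 hx).2)
    (fun x _ y _ h => funext fun i => Subtype.ext (congrFun h i)) fun y hy => ?_
  exact ⟨fun i => ⟨y i, Fintype.mem_piFinset.1 (hY hy) i⟩, mem_filter.2 ⟨mem_univ _, hy⟩, rfl⟩

theorem ex_vl {Y : Finset (ι → α)} (hY : Y ⊆ Fintype.piFinset X) :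
    𝔼 x : ∀ i, X i, ind (vl x ∈ Y) = (Y.card : ℝ) / (Fintype.piFinset X).card := by
  rw [← card_vl hY, ← card_vl (subset_refl (Fintype.piFinset X)),
    filter_true_of_mem fun x _ => vl_mem x, card_univ, ← ex_ind]
  exact expect_congr rfl fun x _ => ind_congr (by simp)

end

end Hb

open Hb in
/-- **HALF** for boxes. -/
theorem half_box (m N : ℕ) {ε : ℝ} (hε : 0 < ε) : ∃ (N0 L : ℕ) (σ : ℝ), 0 < σ ∧
    ∀ (ι α K : Type) [Fintype ι] [DecidableEq ι] (X : ι → Finset α) (J : Finset ι) (b : ι)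
      (Yp Y : Finset (ι → α)) (col : (ι → α) → K) (T : Finset K)
      (C : (ι → α) → (ι → α) → Prop) (G : (ι → α) → (ι → α) → ℝ),
      (∀ i, (X i).Nonempty) → b ∈ J → 2 ≤ J.card → J.card ≤ m → (∀ i ∈ J, L ≤ (X i).card) →
      Yp ⊆ Fintype.piFinset X → Y ⊆ Fintype.piFinset X → T.card ≤ N → (∀ z ∈ Yp, col z ∈ T) →
      (∀ a z, |G a z| ≤ 1) →
      (∀ a ∈ Fintype.piFinset X, ∀ z ∈ Fintype.piFinset X, Mo J Yp col a z → C a z → z ∈ Y) →
      (∀ a ∈ Fintype.piFinset X, ∀ z ∈ Yp, Mo J Yp col a z → C a z → G a z = 1) →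
      (∀ a ∈ Fintype.piFinset X, ∀ z ∈ Yp, Mo J Yp col a z → col z = col (cor J a z ∅) → C a z) →
      (∀ n ≤ N0, ∀ a : Fin (n + 1) → ι → α, (∀ l, a l ∈ Fintype.piFinset X) →
        ∀ x ∈ Fintype.piFinset X, ∀ y ∈ Fintype.piFinset X, (∀ i ∈ J.erase b, x i ≠ y i) →
        (∀ l, ∀ w ⊆ J.erase b, Fa J b Yp col (a l) (w.piecewise y x)) →
        |∑ p ∈ X b, ∏ w ∈ (J.erase b).powerset, (G (a 0) (update (w.piecewise y x) b p) *
          ∏ l, if C (a l) (update (w.piecewise y x) b p) then 1 else 0)| ≤ σ * (X b).card) →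
      2 * (Yp.card : ℝ) ≤ Y.card + ε * (Fintype.piFinset X).card := by
  have h3 : 0 < ε / 6 := by positivity
  have hr0 : 0 < min 1 (ε / 6 / (N + 1 : ℕ)) := lt_min one_pos (by positivity)
  have hr1 : min 1 (ε / 6 / (N + 1 : ℕ)) ≤ 1 := min_le_left _ _
  have hr2 : min 1 (ε / 6 / (N + 1 : ℕ)) ≤ ε / 6 / (N + 1 : ℕ) := min_le_right _ _
  generalize min 1 (ε / 6 / (N + 1 : ℕ)) = r at hr0 hr1 hr2
  have hη0 : 0 < r ^ 2 ^ m / 2 := by positivity
  have hη1 : r ^ 2 ^ m ≤ 1 := pow_le_one₀ hr0.le hr1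
  obtain ⟨N0, hJ⟩ := exists_pow_lt_of_lt_one h3 (show 1 - r ^ 2 ^ m / 2 < 1 by linarith)
  have hs0 : 0 < min 1 (ε / 6 / 2 ^ N0) := lt_min one_pos (by positivity)
  have hs1 : min 1 (ε / 6 / 2 ^ N0) ≤ 1 := min_le_left _ _
  have hs2 : min 1 (ε / 6 / 2 ^ N0) ≤ ε / 6 / 2 ^ N0 := min_le_right _ _
  generalize min 1 (ε / 6 / 2 ^ N0) = σ at hs0 hs1 hs2
  have hδ : 0 < σ ^ 2 ^ m / 2 := by positivity
  have hμ : 0 < min (r ^ 2 ^ m / 2) (σ ^ 2 ^ m / 2) := lt_min hη0 hδ
  obtain ⟨n, hn⟩ := exists_nat_gt ((m : ℝ) / min (r ^ 2 ^ m / 2) (σ ^ 2 ^ m / 2))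
  have hn0 : (0 : ℝ) < n := lt_of_le_of_lt (by positivity) hn
  have hn1 : 0 < n := by exact_mod_cast hn0
  refine ⟨N0, n, σ ^ 2 ^ m / 2, hδ, ?_⟩
  intro ι α K _ _ X J b Yp Y col T C G hX hb h2 hm hL hYp hY hT hc hG R F M Bd
  have hne : ∀ i, Nonempty (X i) := fun i => (hX i).to_subtype
  have hZ : ∀ i ∈ J, n ≤ Fintype.card (X i) := fun i hi => by
    rw [Fintype.card_coe]; exact hL i hi
  have hmn : ∀ S ⊆ J, (S.card : ℝ) / n ≤ min (r ^ 2 ^ m / 2) (σ ^ 2 ^ m / 2) := by
    intro S hS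
    rw [div_lt_iff₀ hμ] at hn
    rw [div_le_iff₀ hn0]
    have : (S.card : ℝ) ≤ m := by exact_mod_cast (card_le_card hS).trans hm
    linarith
  have hpos : (0 : ℝ) < (Fintype.piFinset X).card := by
    exact_mod_cast card_pos.2 ⟨_, vl_mem (Classical.arbitrary (∀ i, X i))⟩
  have k := half0 (X := ∀ i, X i) (B := ∀ i, X i) (Yp := fun z => vl z ∈ Yp)
    (Y := fun z => vl z ∈ Y)
    (Zs := fun a z => Mo J Yp col (vl a) (vl z) ∧ C (vl a) (vl z))
    (G := fun a z => G (vl a) (vl z)) (J := N0) (η := r ^ 2 ^ m / 2) (ε := ε / 6)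
    (σ := σ) (fun a z => hG _ _) (fun a z h => R _ (vl_mem a) _ (vl_mem z) h.1 h.2)
    (fun a z h hz => F _ (vl_mem a) _ hz h.1 h.2) (by linarith)
    (Hb.dens (J := J) (col := fun z => col (vl z)) (Nat.succ_pos N) (hT.trans (Nat.le_succ N))
      (fun z hz => hc _ hz) hn1 hZ (fun a z c h1 h2 => by
        simp only [vl_pw] at h2
        have t0 := h2 ∅ (empty_subset J)
        have t1 := h2 J (subset_refl J)
        have t2 : Mo J Yp col (vl a) (vl z) := ⟨fun i hi => vl_ne.2 (h1 i hi), fun w hw =>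
          ⟨(h2 w hw.subset).1, (h2 w hw.subset).2.trans t0.2.symm⟩⟩
        have t3 : J.piecewise (vl z) (J.piecewise (vl a) (vl z)) = vl z := cor_top J _ _
        rw [t3] at t1
        exact ⟨t2, M _ (vl_mem a) _ t1.1 t2 (t1.2.trans t0.2.symm)⟩) h3 hη0.le (by
        have t1 := (hmn J (subset_refl J)).trans (min_le_left _ _)
        have t2 := (pow_le_pow_of_le_one hr0.le hr1 (Nat.pow_le_pow_right two_pos hm)).trans
          (pow_le_pow_left₀ hr0.le hr2 _)
        linarith)) (by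
    intro a P hP
    have hmem : ∀ Q : (∀ i, X i) → Prop, (∀ l, Q ((a :: P).get l)) ↔ Q a ∧ ∀ l ∈ P, Q l := by
      intro Q
      rw [← List.forall_mem_cons, List.forall_mem_iff_get]
    have k1 := gcs2 (notMem_erase b J)
      (fun z : ∀ i, X i => G (vl a) (vl z) *
        ∏ l : Fin (P.length + 1), if C (vl ((a :: P).get l)) (vl z) then 1 else 0)
      (fun z => ind (∀ l, Fa J b Yp col (vl ((a :: P).get l)) (vl z)))
      (fun i z => ind (∀ l, Fa J i Yp col (vl ((a :: P).get l)) (vl z))) (fun _ _ => abs_ind _)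
      (fun i hi x u => by simp only [vl_up, fa_update (mem_of_mem_erase hi)])
      (fun x u => by simp only [vl_up, fa_update hb])
    have e : 𝔼 z : ∀ i, X i, G (vl a) (vl z) * ind ((Mo J Yp col (vl a) (vl z) ∧ C (vl a) (vl z)) ∧
        ∀ l ∈ P, Mo J Yp col (vl l) (vl z) ∧ C (vl l) (vl z)) =
        𝔼 z : ∀ i, X i, ((G (vl a) (vl z) *
        ∏ l : Fin (P.length + 1), if C (vl ((a :: P).get l)) (vl z) then 1 else 0) *
        ind (∀ l, Fa J b Yp col (vl ((a :: P).get l)) (vl z))) *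
        ∏ i ∈ J.erase b, ind (∀ l, Fa J i Yp col (vl ((a :: P).get l)) (vl z)) := by
      refine expect_congr rfl fun z _ => ?_
      have t : (∏ l : Fin (P.length + 1), if C (vl ((a :: P).get l)) (vl z) then (1 : ℝ) else 0) =
          ind (∀ l ∈ univ, C (vl ((a :: P).get l)) (vl z)) := prod_ind _ _
      rw [mul_assoc, mul_prod_erase J
        (fun i => ind (∀ l, Fa J i Yp col (vl ((a :: P).get l)) (vl z))) hb, prod_ind, t,
        mul_assoc, ← ind_and, ← hmem fun l => Mo J Yp col (vl l) (vl z) ∧ C (vl l) (vl z)]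
      congr 1
      refine ind_congr ⟨fun h => ⟨fun l _ => (h l).2, fun i hi l => (h l).1.fa hi⟩,
        fun h l => ⟨(mo_iff h2 _ _).2 fun i hi => h.2 i hi l, h.1 l (mem_univ l)⟩⟩
    rw [e]
    refine le_of_pow_le_pow_left₀ (by positivity) hs0.le (k1.trans (le_trans ?_
      (pow_le_pow_of_le_one hs0.le hs1 (Nat.pow_le_pow_right two_pos
        ((card_le_card (erase_subset b J)).trans hm)))))
    rw [expect_comm]
    refine expect_le univ_nonempty fun x _ => ?_
    have k3 := (Hb.degen hn1 (fun i hi => hZ i (mem_of_mem_erase hi)) x).trans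
      ((hmn _ (erase_subset b J)).trans (min_le_right _ _))
    refine le_trans (expect_le_expect (g := fun y : ∀ i, X i =>
      σ ^ 2 ^ m / 2 + ind (¬ ∀ i ∈ J.erase b, y i ≠ x i)) fun y _ => ?_) (by
        rw [expect_add_distrib, Fintype.expect_const]
        linarith)
    have k4 : ∏ s ∈ (J.erase b).powerset,
        |ind (∀ l, Fa J b Yp col (vl ((a :: P).get l)) (vl (s.piecewise y x)))| ≤ 1 :=
      prod_le_one (fun _ _ => abs_nonneg _) fun _ _ => abs_ind _
    by_cases h : ∀ i ∈ J.erase b, y i ≠ x i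
    · rw [ind_neg (not_not.2 h), add_zero]
      by_cases hF : ∀ s ⊆ J.erase b, ∀ l,
        Fa J b Yp col (vl ((a :: P).get l)) (vl (s.piecewise y x))
      · refine (mul_le_of_le_one_right (abs_nonneg _) k4).trans ?_
        have hb' : (0 : ℝ) < (X b).card := by exact_mod_cast card_pos.2 (hX b)
        rw [expect_eq_sum_div_card, card_univ, Fintype.card_coe, abs_div, abs_of_pos hb',
          div_le_iff₀ hb']
        have t := Bd P.length hP (fun l => vl ((a :: P).get l)) (fun l => vl_mem _) _ (vl_mem x) _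
          (vl_mem y) (fun i hi => vl_ne.2 (h i hi).symm) fun l w hw => by
            rw [← vl_pw]; exact hF w hw l
        rw [← sum_coe_sort (X b)] at t
        simp only [vl_up, vl_pw]
        exact t
      · simp only [not_forall] at hF
        obtain ⟨s, hs, l, hl⟩ := hF
        rw [prod_eq_zero (mem_powerset.2 hs) (by rw [ind_neg fun t => hl (t l), abs_zero]), mul_zero]
        exact hδ.le
    · rw [ind_pos h]
      refine le_trans (mul_le_one₀ ((abs_expect_le _ _).trans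
        (expect_le univ_nonempty fun u _ => ?_)) (prod_nonneg fun _ _ => abs_nonneg _) k4)
        (le_add_of_nonneg_left hδ.le)
      rw [abs_prod]
      refine prod_le_one (fun _ _ => abs_nonneg _) fun _ _ => ?_
      rw [abs_mul]
      refine mul_le_one₀ (hG _ _) (abs_nonneg _) ?_
      rw [abs_prod]
      exact prod_le_one (fun _ _ => abs_nonneg _) fun _ _ => by split_ifs <;> simp)
  rw [ex_vl hYp, ex_vl hY] at k
  rw [le_div_iff₀ (by positivity)] at hs2
  have k7 : (Yp.card : ℝ) / (Fintype.piFinset X).card ≤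
      (Y.card : ℝ) / (Fintype.piFinset X).card / 2 + ε / 2 := by linarith
  rw [div_le_iff₀ hpos, add_mul, div_right_comm, div_mul_cancel₀ _ hpos.ne'] at k7
  linarith

end Vale.Agent.P004S
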