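import Vale.Agent.P004S.Hf1
import Vale.Agent.P004S.Cnz

/-!
# P004, block SMITH: halving in one block
-/

set_option linter.all false

noncomputable section

namespace Vale.Agent.P004S.Hv

open NumberField Finset Matrix
open Vale.Agent.P022 (Qb GQ)
open Vale.Agent.P027M.S (Inert)
open Vale.Agent.P022D.W (dec)
open Vale.Agent.P022E.GW (Ov Ch)
open Ms
open scoped Classical

variable {r : Rp} {S : Finset ℕ} {pl : Pl} {m d d' : ℤ} {F F' : GQ → W} {T T' : Set ℕ}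

/-- like `Pre`, with a free ramification at the primes in `T` -/
def Px (r : Rp) (S : Finset ℕ) (m d : ℤ) (T : Set ℕ) (F : GQ → W) : Prop :=
  Zb r F ∧ Un (fun l => (l ∉ S ∧ ¬ (l : ℤ) ∣ m) ∧ l ∉ T) F ∧
    ∀ (l : ℕ) (P : Ideal (𝓞 Qb)), Ov l P → l ∉ S → (l : ℤ) ∣ m →
      ∃ n : V, ∀ g ∈ dec P, ‖ac r d g n - n‖ ≤ 1 ∧ rv (ac r d g n - n) = F g

theorem px_iff : Px r S m d ∅ F ↔ Pre r S m d F :=
  ⟨fun h => ⟨h.1, fun l P a b => h.2.1 l P a ⟨b, id⟩, h.2.2⟩,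
    fun h => ⟨h.1, fun l P a b => h.2.1 l P a b.1, h.2.2⟩⟩

theorem Px.sub (h : Px r S m d T F) (h' : Px r S m d T F') : Px r S m d T (F - F') := by
  refine ⟨⟨h.1.1.sub h'.1.1, fun g k => ?_⟩, fun l P a b g k => ?_, fun l P a b c => ?_⟩
  · simp only [Pi.sub_apply, h.1.2 g k, h'.1.2 g k, mulVec_sub]
    abel
  · rw [Pi.sub_apply, h.2.1 l P a b g k, h'.2.1 l P a b g k, sub_self]
  · obtain ⟨n, hn⟩ := h.2.2 l P a b c
    obtain ⟨n', hn'⟩ := h'.2.2 l P a b c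
    refine ⟨n - n', fun g k => ?_⟩
    rw [ac_sub, show ac r d g n - ac r d g n' - (n - n') = (ac r d g n - n) - (ac r d g n' - n') by
      abel, rv_sub (hn g k).1 (hn' g k).1, (hn g k).2, (hn' g k).2]
    exact ⟨norm_sub_le' (hn g k).1 (hn' g k).1, rfl⟩

theorem Px.drop (lt : LT) (hr : Rep r S) (h : Px r S m d T F)
    (h0 : ∀ x ∈ T, x ∉ T' → F (pl.τ x) = 0) : Px r S m d T' F := by
  refine ⟨h.1, fun l P a b g k => ?_, h.2.2⟩
  by_cases c : l ∈ T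
  · exact lt.un_tau hr pl a.1 b.1.1 h.1 (h0 l c b.2) a k
  · exact h.2.1 l P a ⟨b.1, c⟩ g k

theorem Px.congr (h : Px r S m d T F) (e : ∀ (l : ℕ) (P : Ideal (𝓞 Qb)), Ov l P → (l : ℤ) ∣ m →
    ∀ g ∈ dec P, nu d' g = nu d g) : Px r S m d' T F :=
  ⟨h.1, h.2.1, fun l P a b c => (h.2.2 l P a b c).imp fun n hn g k => by
    rw [ac_congr r (e l P a c g k)]; exact hn g k⟩

/-- the kernel of a cocycle -/
def zk (h : Zb r F) : Subgroup GQ where
  carrier := {g | F g = 0}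
  mul_mem' {g k} a b := by
    show F (g * k) = 0
    rw [h.2, a, b, mulVec_zero, add_zero]
  one_mem' := h.one
  inv_mem' {g} a := by
    have := h.2 g⁻¹ g
    rw [inv_mul_cancel, h.one, a, mulVec_zero, add_zero] at this
    exact this.symm

theorem zero_dec (lt : LT) (hr : Rep r S) (h : Zb r F) {l : ℕ} (hS : l ∉ S) {P : Ideal (𝓞 Qb)}
    (hP : Ov l P) (ht : Tr r 1 (pl.σ l)) (h0 : F (pl.σ l) = 0)
    (hu : ∀ g, Inert (pl.P l) g → F g = 0) {g : GQ} (hg : g ∈ dec P) : F g = 0 := by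
  have o := pl.ov l hP.1
  obtain ⟨t, -, k⟩ := ex_conj o hP
  have a : F (t⁻¹ * g * t) = 0 :=
    lt.dec_le o (pl.fb l hP.1) (U := zk h) (h.1.isOpen_fiber 0) h0 hu (k g hg)
  have b := h.conj hr t (hr.tr_one_iff.1 (lt.tr_dec hr pl hP.1 hS ht o (k g hg)))
  rwa [a, mulVec_zero, show t * (t⁻¹ * g * t) * t⁻¹ = g by group] at b

theorem pre_fin (h1 : CNT) (h2 : CNZ) (hr : Rep r S) (hm : m ≠ 0) :
    {F | Pre r S m d F}.Finite := by
  obtain ⟨C, hC⟩ := h1 _ (hr.Kn_open 1)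
  let U := S ∪ m.natAbs.primeFactors
  let Q : Set GQ := {g | ∃ l P, Ov l P ∧ l ∉ U ∧ Inert P g}
  have e : {ξ : GQ → ZMod 2 | Ch (hr.Kn 1 ⊓ ⊤) ξ ∧ (∀ g ∉ hr.Kn 1 ⊓ ⊤, ξ g = 0) ∧
      ∀ g ∈ Q, ξ g = 0}.Finite := by
    rw [inf_top_eq]
    exact (hC U).1.subset fun ξ k => ⟨k.1, k.2.1, fun l P a b g c => k.2.2 g ⟨l, P, a, b, c⟩⟩
  refine (h2 W (fun g => (rb r g).toLin') (hr.Kn 1) ⊤ Q _ (idx_ne (hr.Kn_open 1))
    (fun g k x => by rw [hr.tr_one_iff.1 k, toLin'_apply, one_mulVec]) e le_rfl).1.subset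
    fun F k => ⟨k.1.1.comp_continuous continuous_subtype_val, fun g _ j _ => k.1.2 g j,
      fun g a => absurd trivial a, ?_⟩
  rintro g ⟨l, P, a, b, c⟩
  exact k.2.1 l P a ⟨fun j => b (mem_union_left _ j), fun j => b (mem_union_right _
    (Nat.mem_primeFactors.2 ⟨a.1, Int.natCast_dvd.1 j, Int.natAbs_ne_zero.2 hm⟩))⟩ g c

theorem mod8 (hr : Rep r S) {x : ℕ} (hx : x.Prime) (hS : x ∉ S) (ht : Tr r 3 (pl.σ x)) :
    x % 8 = 1 := by
  have o := pl.ov x hx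
  have e := (hr.frob x hx hS _ ⟨_, o.2.1, o.2.2, pl.fb x hx⟩).1
  have k : ‖ep r (pl.σ x) - 1‖ ≤ (1 / 2) ^ 3 := by
    have a := fun i j => hr.int (pl.σ x) i j
    have b0 := ht 0 0
    have b1 := ht 1 1
    have b2 := ht 0 1
    simp only [Matrix.sub_apply, one_apply_eq, one_apply_ne (show (0 : Fin 2) ≠ 1 by decide),
      sub_zero] at b0 b1 b2
    rw [ep, det_fin_two, show ∀ a b c d : ℚ_[2], a * d - b * c - 1 =
      (a - 1) * d + (d - 1) - b * c from fun _ _ _ _ => by ring]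
    refine norm_sub_le' (norm_add_le' ?_ b1) ?_ <;> rw [norm_mul]
    · exact (mul_le_of_le_one_right (norm_nonneg _) (a _ _)).trans b0
    · exact (mul_le_of_le_one_right (norm_nonneg _) (a _ _)).trans b2
  have k2 := (Padic.norm_int_le_pow_iff_dvd (p := 2) ((x : ℤ) - 1) 3).1 (by
    rw [e] at k
    push_cast
    exact k.trans (by norm_num))
  norm_num at k2
  omega

variable {ι : Type} [Fintype ι] [DecidableEq ι] {X X' : ι → Finset ℕ} {L : ℝ} {y y' : ι → ℕ}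

theorem fam_sub {L' : ℝ} {κ : Type} {Y : κ → Finset ℕ} (h : Fam S m X L) (f : κ → ι)
    (hf : Function.Injective f) (hY : ∀ i, Y i ⊆ X (f i)) (hL : L ≤ L') : Fam S m Y L' :=
  ⟨h.sq, fun i x a => have k := h.pm _ x (hY i a); ⟨k.1, k.2.1, k.2.2.1, k.2.2.2.trans hL⟩,
    fun i j x a b => hf (h.dj _ _ x (hY i a) (hY j b)), h.lm.trans hL, h.lS.trans hL⟩

theorem pre_px (hF : Fam S m X L) (hy : ∀ i, y i ∈ X i) (h : Pre r S (dd m y) d F) :
    Px r S m d (Set.range y) F :=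
  ⟨h.1, fun l P a b => h.2.1 l P a ⟨b.1.1, fun k => ((hF.dvd_iff hy a.1).1 k).elim b.1.2 b.2⟩,
    fun l P a b c => h.2.2 l P a b ((hF.dvd_iff hy a.1).2 (Or.inl c))⟩

theorem pre_up (lt : LT) (hr : Rep r S) (hF : Fam S m X L) (hy : ∀ i, y i ∈ X i)
    (h : Pre r S m d F) (ht : ∀ i, Tr r 1 (pl.σ (y i))) (h0 : ∀ i, F (pl.σ (y i)) = 0) :
    Pre r S (dd m y) d F := by
  refine ⟨h.1, fun l P a b => h.2.1 l P a ⟨b.1, fun k => b.2 ((hF.dvd_iff hy a.1).2 (Or.inl k))⟩,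
    fun l P a b c => ?_⟩
  rcases (hF.dvd_iff hy a.1).1 c with k | ⟨i, rfl⟩
  · exact h.2.2 l P a b k
  · refine ⟨0, fun g k => ?_⟩
    rw [ac_zero, sub_self, rv_zero, zero_dec lt hr h.1 b a (ht i) (h0 i)
      (h.2.1 _ _ (pl.ov _ a.1) ⟨b, (hF.pm i _ (hy i)).2.2.1⟩) k]
    simp

theorem fin2 (h1 : CNT) (h2 : CNZ) (hr : Rep r S) (hF : Fam S m X L) :
    {z : (ι → ℕ) × (GQ → N) | z.1 ∈ Fintype.piFinset X ∧ Pre2 r S (dd m z.1) z.2}.Finite := by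
  refine (Set.Finite.biUnion (Fintype.piFinset X).finite_toSet fun y hy =>
    have k := pre_fin (d := dd m y) h1 h2 hr (hF.sqf (Fintype.mem_piFinset.1 hy)).ne_zero
    (k.prod k).image fun q => (y, fun g => (q.1 g, q.2 g))).subset fun z hz => ?_
  exact Set.mem_biUnion hz.1 ⟨(fun g => (z.2 g).1, fun g => (z.2 g).2), hz.2, rfl⟩

/-- the standard patterns -/
def pt (b p : ι) (e e' : W) (i : ι) : N := (if i = b then e else 0, if i = p then e' else 0)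

/-- the admissible pairs in a block -/
def Yb (r : Rp) (S : Finset ℕ) (Λ : Loc r) (pl : Pl) (n : ℕ) (pat : ι → N) (m : ℤ)
    (X : ι → Finset ℕ) (c : (GQ → N) → Prop) (k R : ℕ) : Set ((ι → ℕ) × (GQ → N)) :=
  {z | z.1 ∈ Fintype.piFinset X ∧ Adm r pl n pat z.1 (fun i => z.2 (pl.τ (z.1 i))) ∧ c z.2 ∧
    Lift r Λ k (dd m z.1) (fun g => (z.2 g).1) ∧ Lift r Λ k (dd m z.1) (fun g => (z.2 g).2) ∧
    {F | Pre r S (dd m z.1) (dd m z.1) F}.ncard ≤ R}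

variable {Λ : Loc r} {n k R : ℕ} {pat : ι → N} {c : (GQ → N) → Prop}

theorem yb_pre (hr : Rep r S) (hF : Fam S m X L) (hk : 1 ≤ k) {z : (ι → ℕ) × (GQ → N)}
    (hz : z ∈ Yb r S Λ pl n pat m X c k R) : Pre2 r S (dd m z.1) z.2 :=
  have a := (hF.sqf (Fintype.mem_piFinset.1 hz.1)).ne_zero
  ⟨lp r S Λ _ _ k hr a hk hz.2.2.2.1, lp r S Λ _ _ k hr a hk hz.2.2.2.2.1⟩

theorem yb_fin (h1 : CNT) (h2 : CNZ) (hr : Rep r S) (hF : Fam S m X L) (hk : 1 ≤ k) :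
    (Yb r S Λ pl n pat m X c k R).Finite :=
  (fin2 h1 h2 hr hF).subset fun z hz => ⟨hz.1, yb_pre hr hF hk hz⟩

theorem card_W : Fintype.card (ι → W) = 4 ^ Fintype.card ι := by simp

/-- **halving in a piece** -/
theorem pc (lt : LT) (qr : QR) (h1 : CNT) (h2 : CNZ) (hr : Rep r S) (hk : 1 ≤ k) {b p : ι}
    (hc : Fintype.card ι = k + 2) {s : ι → ℕ → ZMod 2} (hF' : Fam S m X' L)
    (hX : ∀ i, X i = piece r pl (k + 2) (S ∪ m.natAbs.primeFactors) (X' i) (s i)) {e e' : W}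
    {x : ℝ} (hx : 0 ≤ x) (h : ∀ (φ ψ : ℕ → GQ → W) (Q : ℕ → ℕ → Prop),
      (∀ y ∈ Fintype.piFinset X, {F | Pre r S m (dd m y) F}.Finite ∧
        {F | Pre r S m (dd m y) F}.ncard ≤ 4 ^ (k + 2) * R) →
      ((Yk r Λ pl b p m X φ ψ Q e e' (k + 1)).card : ℝ) ≤
        (Yk r Λ pl b p m X φ ψ Q e e' k).card / 2 + x) :
    Hl (Yb r S Λ pl (k + 2) (pt b p e e') m X c (k + 1) R)
      (Yb r S Λ pl (k + 2) (pt b p e e') m X c k (4 ^ (k + 2) * (4 ^ (k + 2) * R)))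
      (((4 ^ (k + 2) * R : ℕ) : ℝ) ^ 2 * x) := by
  have hF : Fam S m X L := fam_sub hF' id (fun _ _ => id)
    (fun i => hX i ▸ filter_subset _ _) le_rfl
  have mem : ∀ i, ∀ a ∈ X i, Tr r (k + 2) (pl.σ a) ∧
      ∀ l ∈ S ∪ m.natAbs.primeFactors, l.Prime → nu l (pl.σ a) = s i l := fun i a k => by
    rw [hX i] at k
    exact (mem_filter.1 k).2
  have cg : ∀ y ∈ Fintype.piFinset X, ∀ y' ∈ Fintype.piFinset X, ∀ T F,
      Px r S m (dd m y) T F → Px r S m (dd m y') T F := fun y a y' a' T F k => by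
    rw [Fintype.mem_piFinset] at a a'
    refine k.congr fun l P o j g t => ?_
    rw [nu_dd hF.ne fun i => (hF.pm i _ (a i)).1.ne_zero,
      nu_dd hF.ne fun i => (hF.pm i _ (a' i)).1.ne_zero]
    refine congrArg _ (sum_congr rfl fun i _ => ?_)
    have q := hF.pm i _ (a i)
    have q' := hF.pm i _ (a' i)
    have u := mem_union_right S (Nat.mem_primeFactors.2
      ⟨o.1, Int.natCast_dvd.1 j, Int.natAbs_ne_zero.2 hF.ne⟩)
    exact qr pl _ _ l P q'.1 q.1 (mod8 hr q'.1 q'.2.1 ((mem i _ (a' i)).1.mono (by omega)))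
      (mod8 hr q.1 q.2.1 ((mem i _ (a i)).1.mono (by omega))) o (fun v => q'.2.2.1 (v ▸ j))
      (fun v => q.2.2.1 (v ▸ j)) (((mem i _ (a' i)).2 l u o.1).trans
        ((mem i _ (a i)).2 l u o.1).symm) g t
  refine Hl.of_ne (by positivity) fun z₀ h0 => ?_
  have y0 := Fintype.mem_piFinset.1 h0.1
  have l0 : Le {F | Pre r S m (dd m z₀.1) F} ((4 ^ (k + 2) * R : ℕ) : ℝ) := by
    have a := le_sub (Z := {F | Pre r S m (dd m z₀.1) F}) (fun F i => F (pl.σ (z₀.1 i)))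
      (x := R) ⟨pre_fin h1 h2 hr (hF.sqf y0).ne_zero, Nat.cast_le.2 h0.2.2.2.2.2⟩
      fun F a F' a' j => pre_up lt hr hF y0 (px_iff.1 ((px_iff.2 a).sub (px_iff.2 a')))
        (fun i => (mem i _ (y0 i)).1.mono (by omega)) fun i => sub_eq_zero.2 (congrFun j i)
    rw [card_W, hc] at a
    exact_mod_cast a
  have l1 : ∀ y ∈ Fintype.piFinset X, Le {F | Pre r S m (dd m y) F} ((4 ^ (k + 2) * R : ℕ) : ℝ) :=
    fun y a => l0.mono (fun F j => px_iff.1 (cg y a _ h0.1 _ _ (px_iff.2 j))) le_rfl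
  have l2 : ∀ y ∈ Fintype.piFinset X,
      {F | Pre r S (dd m y) (dd m y) F}.ncard ≤ 4 ^ (k + 2) * (4 ^ (k + 2) * R) := fun y a => by
    have a' := Fintype.mem_piFinset.1 a
    have b := (le_sub (Z := {F | Pre r S (dd m y) (dd m y) F}) (fun F i => F (pl.τ (y i))) (l1 y a)
      fun F u F' u' j => px_iff.1 (((pre_px hF a' u).sub (pre_px hF a' u')).drop (pl := pl) lt hr
        (by rintro _ ⟨i, rfl⟩ -; exact sub_eq_zero.2 (congrFun j i)))).2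
    rw [card_W, hc] at b
    exact_mod_cast b
  let ch : W → ℕ → GQ → W := fun v a =>
    Classical.epsilon fun F => Px r S m (dd m z₀.1) {a} F ∧ F (pl.τ a) = v
  have lab : ∀ y ∈ Fintype.piFinset X, ∀ (j : ι) (v : W) (F : GQ → W),
      Pre r S (dd m y) (dd m y) F → (∀ i, F (pl.τ (y i)) = if i = j then v else 0) →
      F - ch v (y j) ∈ l0.1.toFinset := fun y a j v F u t => by
    have b : Px r S m (dd m z₀.1) {y j} F := cg y a _ h0.1 _ _
      ((pre_px hF (Fintype.mem_piFinset.1 a) u).drop (pl := pl) lt hr (by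
        rintro _ ⟨i, rfl⟩ w
        rw [t i, if_neg fun q : i = j => w (congrArg y q)]))
    have b1 : F (pl.τ (y j)) = v := by rw [t j, if_pos rfl]
    have b2 := Classical.epsilon_spec
      (p := fun F => Px r S m (dd m z₀.1) {y j} F ∧ F (pl.τ (y j)) = v) ⟨F, b, b1⟩
    refine l0.1.mem_toFinset.2 (px_iff.1 ((b.sub b2.1).drop (pl := pl) lt hr ?_))
    rintro _ rfl -
    exact sub_eq_zero.2 (b1.trans b2.2.symm)
  refine (Hl.key (l0.1.toFinset ×ˢ l0.1.toFinset) (fun z => ((fun g => (z.2 g).1) - ch e (z.1 b),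
    (fun g => (z.2 g).2) - ch e' (z.1 p))) (fun _ => x) (yb_fin h1 h2 hr hF hk) (fun z a => ?_)
    fun t _ => ?_).mono ?_
  · have u := yb_pre hr hF (Nat.le_add_left 1 k) a
    exact mem_product.2 ⟨lab _ a.1 b e _ u.1 fun i => congrArg Prod.fst (a.2.1 i).2,
      lab _ a.1 p e' _ u.2 fun i => congrArg Prod.snd (a.2.1 i).2⟩
  · let φ : ℕ → GQ → W := fun a => t.1 + ch e a
    let ψ : ℕ → GQ → W := fun a => t.2 + ch e' a
    have k1 := h φ ψ (fun a a' => c fun g => (φ a g, ψ a' g)) fun y a =>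
      ⟨(l1 y a).1, Nat.cast_le.1 (l1 y a).2⟩
    rw [← Set.ncard_coe_finset, ← Set.ncard_coe_finset] at k1
    have k2 : ∀ z : (ι → ℕ) × (GQ → N), ((fun g => (z.2 g).1) - ch e (z.1 b),
        (fun g => (z.2 g).2) - ch e' (z.1 p)) = t → (fun g => (z.2 g).1) = φ (z.1 b) ∧
          (fun g => (z.2 g).2) = ψ (z.1 p) := fun z a =>
      ⟨sub_eq_iff_eq_add.1 (congrArg Prod.fst a), sub_eq_iff_eq_add.1 (congrArg Prod.snd a)⟩
    have k3 : ∀ z : (ι → ℕ) × (GQ → N), (fun g => (z.2 g).1) = φ (z.1 b) ∧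
        (fun g => (z.2 g).2) = ψ (z.1 p) → z.2 = fun g => (φ (z.1 b) g, ψ (z.1 p) g) :=
      fun z a => funext fun g => Prod.ext (congrFun a.1 g) (congrFun a.2 g)
    refine Hl.tr ⟨finite_toSet _, k1⟩ ((yb_fin h1 h2 hr hF hk).subset fun _ a => a.1) Prod.fst
      (fun y => (y, fun g => (φ (y b) g, ψ (y p) g))) (fun z a z' a' j => Prod.ext j ?_)
      (fun z a => ?_) (fun _ _ _ _ j => congrArg Prod.fst j) fun y a => ?_
    · rw [k3 z (k2 z a.2), k3 z' (k2 z' a'.2), j]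
    · have u := k2 z a.2
      refine mem_coe.2 (mem_filter.2 ⟨a.1.1, (congrArg c (k3 z u)).mp a.1.2.2.1, u.1 ▸ a.1.2.2.2.1,
        u.2 ▸ a.1.2.2.2.2.1, fun i => ?_⟩)
      rw [← u.1, ← u.2]
      exact ⟨congrArg Prod.fst (a.1.2.1 i).2, congrArg Prod.snd (a.1.2.1 i).2⟩
    · obtain ⟨a1, a2, a3, a4, a5⟩ := mem_filter.1 (mem_coe.1 a)
      exact ⟨⟨a1, fun i => ⟨(mem i _ (Fintype.mem_piFinset.1 a1 i)).1,
        Prod.ext (a5 i).1 (a5 i).2⟩, a2, a3, a4, l2 y a1⟩,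
        Prod.ext (add_sub_cancel_right _ _) (add_sub_cancel_right _ _)⟩
  · rw [sum_const, card_product, nsmul_eq_mul, ← Set.ncard_eq_toFinset_card _ l0.1, Nat.cast_mul,
      ← sq]
    exact mul_le_mul_of_nonneg_right (pow_le_pow_left₀ (Nat.cast_nonneg _) l0.2 2) hx

/-- **halving in a block** -/
theorem blk (lt : LT) (qr : QR) (h1 : CNT) (h2 : CNZ) (h3 : LEV) (hr : Rep r S) (hy : Cyc r)
    (Λ : Loc r) (pl : Pl) (hk : 1 ≤ k) (R : ℕ) {ε : ℝ} (hε : 0 < ε) : ∃ (C : ℝ) (A : ℕ), 0 ≤ C ∧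
    ∀ (ι : Type) [Fintype ι] [DecidableEq ι] (b p : ι) (m : ℤ) (X : ι → Finset ℕ) (L κ : ℝ)
      (c : (GQ → N) → Prop) (e e' : W) (g : GQ), b ≠ p → Fintype.card ι = k + 2 → Fam S m X L →
      Equi pl (X p) A (A * L) κ → (∀ i, 1 ≤ κ * (X i).card) → wp (rb r g *ᵥ e) e' ≠ 0 →
      Hl (Yb r S Λ pl (k + 2) (pt b p e e') m X c (k + 1) R)
        (Yb r S Λ pl (k + 2) (pt b p e e') m X c k (4 ^ (k + 2) * (4 ^ (k + 2) * R)))
        ((ε + C * (2 ^ (k + 2)) ^ (S ∪ m.natAbs.primeFactors).card * κ) *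
          ∏ i, ((X i).card : ℝ)) := by
  set R₁ : ℝ := ((4 ^ (k + 2) * R : ℕ) : ℝ) ^ 2 with hR
  have r0 : 0 ≤ R₁ := by positivity
  have ε0 : 0 < ε / (R₁ + 1) := by positivity
  have b3 : R₁ * (ε / (R₁ + 1)) ≤ ε := by
    rw [mul_div_assoc', div_le_iff₀ (by positivity)]
    nlinarith
  obtain ⟨C, A, h⟩ := h3 r S Λ pl hr hy k (4 ^ (k + 2) * R) (ε / (R₁ + 1)) hk ε0
  refine ⟨R₁ * |C|, A, by positivity, fun ι _ _ b p m X L κ c e e' g a1 a2 a3 a4 a5 a6 => ?_⟩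
  have κ0 : 0 ≤ κ := by
    by_contra j
    linarith [a5 b, mul_nonpos_of_nonpos_of_nonneg (not_le.1 j).le
      (Nat.cast_nonneg (α := ℝ) (X b).card)]
  set U := S ∪ m.natAbs.primeFactors
  let U' := U.filter Nat.Prime
  let sy : ℕ → U' → ZMod 2 := fun x l => nu (l : ℕ) (pl.σ x)
  let ex : (U' → ZMod 2) → ℕ → ZMod 2 := fun v l => if j : l ∈ U' then v ⟨l, j⟩ else 0
  let Y : ι → (U' → ZMod 2) → Finset ℕ := fun i v => piece r pl (k + 2) U (X i) (ex v)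
  have mem : ∀ i v x, x ∈ Y i v ↔ x ∈ X i ∧ Tr r (k + 2) (pl.σ x) ∧ sy x = v := fun i v x => by
    refine mem_filter.trans (and_congr_right' (and_congr_right' ⟨fun j => funext fun l => ?_,
      fun j l u w => ?_⟩))
    · exact (j l (mem_filter.1 l.2).1 (mem_filter.1 l.2).2).trans (dif_pos l.2)
    · have q : l ∈ U' := mem_filter.2 ⟨u, w⟩
      simp only [ex, dif_pos q]
      exact congrFun j ⟨l, q⟩
  have p0 : 0 ≤ ∏ i, ((X i).card : ℝ) := prod_nonneg fun _ _ => Nat.cast_nonneg _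
  refine (Hl.fib (univ : Finset (ι → U' → ZMod 2))
    (fun u => Yb r S Λ pl (k + 2) (pt b p e e') m (fun i => Y i (u i)) c (k + 1) R)
    (fun u => Yb r S Λ pl (k + 2) (pt b p e e') m (fun i => Y i (u i)) c k _)
    (fun u => R₁ * (ε / (R₁ + 1) * ∏ i, ((Y i (u i)).card : ℝ) + |C| * κ * ∏ i, ((X i).card : ℝ)))
    (yb_fin h1 h2 hr a3 hk) (fun z j => ⟨fun i => sy (z.1 i), mem_univ _, ?_, j.2⟩)
    (fun u _ z j => ⟨?_, j.2⟩) (fun u _ u' _ z j j' => funext fun i => ?_) fun u _ => ?_).mono ?_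
  · exact Fintype.mem_piFinset.2 fun i =>
      (mem _ _ _).2 ⟨Fintype.mem_piFinset.1 j.1 i, (j.2.1 i).1, rfl⟩
  · exact Fintype.mem_piFinset.2 fun i => ((mem _ _ _).1 (Fintype.mem_piFinset.1 j.1 i)).1
  · exact ((mem _ _ _).1 (Fintype.mem_piFinset.1 j.1 i)).2.2.symm.trans
      ((mem _ _ _).1 (Fintype.mem_piFinset.1 j'.1 i)).2.2
  · refine pc lt qr h1 h2 hr hk a2 a3 (s := fun i => ex (u i)) (fun i => rfl)
      (add_nonneg (mul_nonneg ε0.le (prod_nonneg fun _ _ => Nat.cast_nonneg _))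
        (mul_nonneg (mul_nonneg (abs_nonneg C) κ0) p0)) fun φ ψ Q j => ?_
    refine (h ι b p m _ X L κ _ φ ψ Q e e' g a1 a2 a3 (fun i => rfl) j a4 a5 a6).trans ?_
    rw [← add_assoc]
    exact add_le_add le_rfl
      (mul_le_mul_of_nonneg_right (mul_le_mul_of_nonneg_right (le_abs_self C) κ0) p0)
  · have b1 : ∑ u : ι → U' → ZMod 2, ∏ i, ((Y i (u i)).card : ℝ) ≤ ∏ i, ((X i).card : ℝ) := by
      rw [← Fintype.piFinset_univ, ← prod_univ_sum (fun _ => univ) fun i v => ((Y i v).card : ℝ)]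
      refine prod_le_prod (fun _ _ => sum_nonneg fun _ _ => Nat.cast_nonneg _) fun i _ => ?_
      rw [← Nat.cast_sum, Nat.cast_le, card_eq_sum_card_fiberwise (s := X i) (f := sy) (t := univ)
        fun _ _ => mem_coe.2 (mem_univ _)]
      exact sum_le_sum fun v _ => card_le_card fun x j =>
        mem_filter.2 ⟨((mem _ _ _).1 j).1, ((mem _ _ _).1 j).2.2⟩
    have b2 : (Fintype.card (ι → U' → ZMod 2) : ℝ) ≤ (2 ^ (k + 2)) ^ U.card := by
      rw [Fintype.card_fun, Fintype.card_fun, ZMod.card, a2, Fintype.card_coe, ← pow_mul,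
        ← pow_mul, mul_comm]
      exact_mod_cast Nat.pow_le_pow_right two_pos (Nat.mul_le_mul_left _ (card_filter_le _ _))
    rw [← mul_sum, sum_add_distrib, ← mul_sum, sum_const, card_univ, nsmul_eq_mul]
    have b4 := mul_le_mul b3 b1 (sum_nonneg fun _ _ => prod_nonneg fun _ _ => Nat.cast_nonneg _) hε.le
    have b5 := mul_le_mul_of_nonneg_right b2
      (mul_nonneg (mul_nonneg (mul_nonneg r0 (abs_nonneg C)) κ0) p0)
    generalize ∑ u : ι → U' → ZMod 2, ∏ i, ((Y i (u i)).card : ℝ) = a at b4 ⊢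
    generalize (Fintype.card (ι → U' → ZMod 2) : ℝ) = a' at b5 ⊢
    generalize ∏ i, ((X i).card : ℝ) = a'' at b4 b5 ⊢
    generalize ((2 : ℝ) ^ (k + 2)) ^ U.card = t at b5 ⊢
    clear_value R₁
    generalize ε / (R₁ + 1) = t' at b4 ⊢
    linarith

end Vale.Agent.P004S.Hv
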