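import Vale.Agent.P004S.Cls
import Vale.Agent.P004S.MasA

/-!
# P004, block SMITH, row MAS: the first moment for a set of generating coordinates
-/

set_option linter.all false

noncomputable section

namespace Vale.Agent.P004S.Ms

open NumberField Matrix Filter Topology Finset
open Vale.Agent.P022 (Qb GQ IsConj Irred UnrAt IsFrob)
open Vale.Agent.P027M.S (Inert)
open Vale.Agent.P022D.W (dec)
open Vale.Agent.P022E.GW (Ov Fb Gn Ch)

variable {r : Rp} {S : Finset ℕ}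

/-- the row `FM` for given data -/
def FMr (r : Rp) (S : Finset ℕ) (pl : Pl) (C : ℝ) (A : ℕ) : Prop :=
  ∀ (J : Type) [Fintype J] [DecidableEq J] (M : ℤ) (X : J → Finset ℕ) (L κ : ℝ) (e : ℕ → N)
    (f : J → N), Fintype.card J ≤ 5 → Fam S M X L → (∀ j, Equi pl (X j) A (2 * L) κ) → 0 ≤ κ →
    Le {z : (J → ℕ) × (GQ → N) | z.1 ∈ Fintype.piFinset X ∧ Pre2 r S (dd M z.1) z.2 ∧
      (∀ q ∈ pf S M, z.2 (pl.τ q) = e q) ∧ ∀ j, z.2 (pl.τ (z.1 j)) = f j}
      (C * (∏ j, ((X j).card : ℝ)) *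
        ((∏ q ∈ pf S M, (hq r (Hs r (Set.range f)) (pl.σ q) : ℝ))⁻¹ + κ))

theorem fmr (fm : FM) (pl : Pl) (h : Dat r S) : ∃ (C : ℝ) (A : ℕ), 0 ≤ C ∧ FMr r S pl C A := by
  obtain ⟨C, A, k⟩ := fm r S pl h
  refine ⟨max C 0, A, le_max_right _ _, fun J _ _ M X L κ e f a b c d => ?_⟩
  refine Le.mono (k J M X L κ e f a b c d) subset_rfl ?_
  exact mul_le_mul_of_nonneg_right (mul_le_mul_of_nonneg_right (le_max_left _ _)
    (by positivity)) (by positivity)

theorem hq_pos (H : Submodule (ZMod 2) N) (g : GQ) : 0 < hq r H g := by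
  have : Finite (N ⧸ Im r g) := Finite.of_surjective _ (Im r g).mkQ_surjective
  exact Nat.card_pos

theorem hq_le (H : Submodule (ZMod 2) N) (g : GQ) : hq r H g ≤ 16 := by
  have : Finite (N ⧸ Im r g) := Finite.of_surjective _ (Im r g).mkQ_surjective
  exact (Nat.card_le_card_of_injective _ Subtype.val_injective).trans (card_quot _)

open Classical in
/-- the weight of a prime with a pattern -/
def uu (r : Rp) (pl : Pl) (H : Submodule (ZMod 2) N) (e₀ : N) (γ : GQ → ℝ) (w : GQ → N)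
    (z : ℕ × N) : ℝ :=
  if Cmp r H e₀ (w (pl.σ z.1)) (pl.σ z.1) z.2 then (γ (pl.σ z.1) * hq r H (pl.σ z.1))⁻¹ else 0

theorem mass_eq (pl : Pl) (H : Submodule (ZMod 2) N) (e₀ : N) (γ : GQ → ℝ) (w : GQ → N)
    {ι : Type} [Fintype ι] [DecidableEq ι] (X : ι → Finset ℕ) (E : (ι → ℕ) → (ι → N) → Prop) :
    ms (uu r pl H e₀ γ w) (fun i => X i ×ˢ univ) (fun z => E (fun i => (z i).1) fun i => (z i).2) =
      mass r pl H e₀ γ w X E := ms_pair _ X E

section

variable {pl : Pl} {γ : Submodule (ZMod 2) N → GQ → ℝ} {H : Submodule (ZMod 2) N} {e₀ : N}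
  {w : GQ → N}

theorem gam_pos (hW : Wt r γ) (H : Submodule (ZMod 2) N) (g : GQ) : 0 < γ H g :=
  lt_of_lt_of_le (by norm_num) (hW.lo H g)

theorem uu_nonneg (hW : Wt r γ) (z : ℕ × N) : 0 ≤ uu r pl H e₀ (γ H) w z := by
  unfold uu
  split_ifs
  · exact inv_nonneg.2 (mul_nonneg (gam_pos hW _ _).le (Nat.cast_nonneg _))
  · exact le_rfl

theorem uu_sum (hW : Wt r γ) (hs : Stb r H e₀) (x : ℕ) :
    ∑ e, uu r pl H e₀ (γ H) w (x, e) ≤ 1 := by
  classical
  have h := hW.le H e₀ (w (pl.σ x)) (pl.σ x) hs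
  have p : 0 < γ H (pl.σ x) * hq r H (pl.σ x) :=
    mul_pos (gam_pos hW _ _) (Nat.cast_pos.2 (hq_pos _ _))
  simp only [uu]
  rw [← sum_filter, sum_const, nsmul_eq_mul, mul_inv_le_iff₀ p, one_mul]
  refine le_trans (le_of_eq ?_) h
  rw [← Set.ncard_coe_finset]
  congr 2
  ext e
  simp

theorem uu_blk (hW : Wt r γ) (hs : Stb r H e₀) (X : Finset ℕ) :
    ∑ z ∈ X ×ˢ univ, uu r pl H e₀ (γ H) w z ≤ X.card := by
  rw [sum_product]
  simpa using sum_le_card_nsmul X _ 1 fun x _ => uu_sum hW hs x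

end

section

variable {I : Type} [Fintype I] [DecidableEq I] {m : ℤ} {X : I → Finset ℕ} {L : ℝ} {y : I → ℕ}

theorem prod_pf (hF : Fam S m X L) (hy : ∀ i, y i ∈ X i) (g : ℕ → ℝ) :
    ∏ q ∈ pf S (dd m y), g q = (∏ q ∈ pf S m, g q) * ∏ i, g (y i) := by
  have e : pf S (dd m y) = pf S m ∪ univ.image y := by
    ext q
    rw [mem_union, mem_pf (hF.sqf hy).ne_zero, mem_pf hF.ne, mem_image]
    constructor
    · rintro ⟨a, b, c⟩
      rcases (hF.dvd_iff hy a).1 b with k | ⟨i, k⟩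
      · exact Or.inl ⟨a, k, c⟩
      · exact Or.inr ⟨i, mem_univ _, k⟩
    · rintro (⟨a, b, c⟩ | ⟨i, -, rfl⟩)
      · exact ⟨a, (hF.dvd_iff hy a).2 (Or.inl b), c⟩
      · have p := hF.pm i _ (hy i)
        exact ⟨p.1, (hF.dvd_iff hy p.1).2 (Or.inr ⟨i, rfl⟩), p.2.1⟩
  rw [e, prod_union, prod_image fun i _ j _ k => hF.inj hy k]
  rw [disjoint_right]
  intro q hq k
  obtain ⟨i, -, rfl⟩ := mem_image.1 hq
  exact (hF.pm i _ (hy i)).2.2.1 ((mem_pf hF.ne).1 k).2.1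

theorem fam_sub (hF : Fam S m X L) {J : Type} {b : J → I} (hb : Function.Injective b) :
    Fam S m (fun j => X (b j)) L :=
  ⟨hF.sq, fun j => hF.pm _, fun i j x hi hj => hb (hF.dj _ _ x hi hj), hF.lm, hF.lS⟩

theorem dd_split (p : I → Prop) [DecidablePred p] (m : ℤ) (y : I → ℕ) :
    dd (dd m fun i : {i // ¬ p i} => y i) (fun i : {i // p i} => y i) = dd m y := by
  simp only [dd]
  rw [← Fintype.prod_subtype_mul_prod_subtype p fun i => (y i : ℤ)]
  ring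

theorem log_dd (hF : Fam S m X L) (hy : ∀ i, y i ∈ X i) :
    Real.log |(dd m y : ℝ)| ≤ (Fintype.card I + 1) * L := by
  have h0 : ∀ i, (y i : ℝ) ≠ 0 := fun i => Nat.cast_ne_zero.2 (hF.pm i _ (hy i)).1.ne_zero
  have h1 := hF.lm
  rw [Real.log_abs] at h1 ⊢
  rw [dd, Int.cast_mul, Int.cast_prod, Real.log_mul (Int.cast_ne_zero.2 hF.ne)
    (prod_ne_zero_iff.2 fun i _ => by exact_mod_cast h0 i),
    Real.log_prod fun i _ => by exact_mod_cast h0 i]
  have h2 := sum_le_card_nsmul univ (fun i => Real.log ((y i : ℤ) : ℝ)) L fun i _ => by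
    exact_mod_cast (hF.pm i _ (hy i)).2.2.2
  rw [nsmul_eq_mul, card_univ] at h2
  linarith

theorem fam_split (hF : Fam S m X L) (p : I → Prop) [DecidablePred p] (hy : ∀ i, y i ∈ X i) :
    Fam S (dd m fun i : {i // ¬ p i} => y i) (fun j : {i // p i} => X j)
      ((Fintype.card I + 1) * L) := by
  have h1 := fam_sub hF (Subtype.val_injective (p := fun i => ¬ p i))
  have h0 := hF.L_nonneg
  have h2 : L ≤ (Fintype.card I + 1) * L := by
    have : (0 : ℝ) ≤ Fintype.card I * L := by positivity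
    linarith
  refine ⟨h1.sqf fun i => hy i, fun j x hx => ?_, fun i j x hi hj => Subtype.ext
    (hF.dj _ _ x hi hj), (log_dd h1 fun i => hy i).trans ?_, hF.lS.trans h2⟩
  · have q := hF.pm j x hx
    refine ⟨q.1, q.2.1, fun k => ?_, q.2.2.2.trans h2⟩
    rcases (h1.dvd_iff (fun i => hy i) q.1).1 k with k | ⟨i, rfl⟩
    · exact q.2.2.1 k
    · exact i.2 (hF.dj _ _ _ hx (hy i) ▸ j.2)
  · have := (Nat.cast_le (α := ℝ)).2 (Fintype.card_subtype_le fun i => ¬ p i)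
    exact mul_le_mul_of_nonneg_right (by linarith) h0

end

/-- the pairs with compatible patterns, bounded weight and the event `F` -/
def Zs (r : Rp) (S : Finset ℕ) (pl : Pl) (γ : GQ → ℝ) (Γ : ℝ) (H : Submodule (ZMod 2) N) (e₀ : N)
    (w : GQ → N) {I : Type} [Fintype I] (m : ℤ) (X : I → Finset ℕ) (F : (I → ℕ × N) → Prop) :
    Set ((I → ℕ) × (GQ → N)) :=
  {z | (∀ i, z.1 i ∈ X i) ∧ Pre2 r S (dd m z.1) z.2 ∧
    (∀ q ∈ pf S (dd m z.1), Cmp r H e₀ (w (pl.σ q)) (pl.σ q) (z.2 (pl.τ q))) ∧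
    wt S pl γ (dd m z.1) ≤ Γ ∧ F fun i => (z.1 i, z.2 (pl.τ (z.1 i)))}

section

variable {pl : Pl} {γ : Submodule (ZMod 2) N → GQ → ℝ} {H : Submodule (ZMod 2) N} {e₀ : N}
  {w : GQ → N} {I : Type} [Fintype I] [DecidableEq I] {m : ℤ} {X : I → Finset ℕ} {L κ C Γ : ℝ}
  {A : ℕ}

theorem wt_nonneg (hW : Wt r γ) (d : ℤ) : 0 ≤ wt S pl (γ H) d :=
  prod_nonneg fun q _ => (gam_pos hW _ _).le

theorem wt_split (hW : Wt r γ) (hF : Fam S m X L) (hI : Fintype.card I ≤ 5) {y : I → ℕ}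
    (hy : ∀ i, y i ∈ X i) (h : wt S pl (γ H) (dd m y) ≤ Γ) : wt S pl (γ H) m ≤ 4 ^ 5 * Γ := by
  rw [wt, prod_pf hF hy] at h
  have h1 : ((1 : ℝ) / 4) ^ 5 ≤ ∏ i, γ H (pl.σ (y i)) := by
    refine (pow_le_pow_of_le_one (by norm_num) (by norm_num) hI).trans ?_
    rw [← card_univ, ← prod_const]
    exact prod_le_prod (fun _ _ => by norm_num) fun i _ => hW.lo _ _
  have h2 := mul_le_mul_of_nonneg_left h1 (wt_nonneg (S := S) (pl := pl) (H := H) hW m)
  rw [wt] at h2 ⊢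
  linarith

theorem hq_inv (hW : Wt r γ) {M : ℤ} {e : ℕ → N}
    (h : ∀ q ∈ pf S M, Cmp r H e₀ (w (pl.σ q)) (pl.σ q) (e q)) :
    (∏ q ∈ pf S M, (hq r H (pl.σ q) : ℝ))⁻¹ =
      wt S pl (γ H) M * ∏ q ∈ pf S M, uu r pl H e₀ (γ H) w (q, e q) := by
  rw [wt, ← prod_mul_distrib, ← prod_inv_distrib]
  refine prod_congr rfl fun q hq => ?_
  rw [uu, if_pos (h q hq), mul_inv, mul_inv_cancel_left₀ (gam_pos hW _ _).ne']

open Classical in
/-- one fibre -/
theorem fib (hW : Wt r γ) (hC : 0 ≤ C) (fm : FMr r S pl C A) (hF : Fam S m X L) (hΓ : 0 ≤ Γ)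
    (hκ : 0 ≤ κ) (hE : ∀ i, Equi pl (X i) A (2 * ((Fintype.card I + 1) * L)) κ)
    (p : I → Prop) [DecidablePred p] (hp : Fintype.card {i // p i} ≤ 5)
    (F : ({i // ¬ p i} → ℕ × N) → Prop) (a : {i // ¬ p i} → ℕ × N) (b : pf S m → N)
    (f : {i // p i} → N) :
    Le {z ∈ Zs r S pl (γ H) Γ H e₀ w m X fun z =>
        Hs r (Set.range fun j : {i // p i} => (z j).2) = H ∧ F fun i => z i |
      (fun i : {i // ¬ p i} => (z.1 i, z.2 (pl.τ (z.1 i)))) = a ∧
        (fun q : pf S m => z.2 (pl.τ q)) = b ∧ (fun j : {i // p i} => z.2 (pl.τ (z.1 j))) = f}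
      (C * (∏ j : {i // p i}, ((X j).card : ℝ)) * (4 ^ 5 * Γ *
        ((if F a then ∏ i, uu r pl H e₀ (γ H) w (a i) else 0) *
          ∏ q : pf S m, uu r pl H e₀ (γ H) w (q, b q)) + κ)) := by
  have u0 := uu_nonneg (pl := pl) (H := H) (e₀ := e₀) (w := w) hW
  have pX : 0 ≤ C * ∏ j : {i // p i}, ((X j).card : ℝ) :=
    mul_nonneg hC (prod_nonneg fun _ _ => Nat.cast_nonneg _)
  have pG : 0 ≤ 4 ^ 5 * Γ := mul_nonneg (by norm_num) hΓ
  refine Le.of_ne ?_ ?_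
  · have h1 : 0 ≤ if F a then ∏ i, uu r pl H e₀ (γ H) w (a i) else 0 := by
      split_ifs
      · exact prod_nonneg fun _ _ => u0 _
      · exact le_rfl
    have h2 : 0 ≤ ∏ q : pf S m, uu r pl H e₀ (γ H) w (q, b q) := prod_nonneg fun _ _ => u0 _
    exact mul_nonneg pX (add_nonneg (mul_nonneg pG (mul_nonneg h1 h2)) hκ)
  rintro ⟨y, Φ⟩ ⟨⟨hy, -, hc, hw, hH, hFa⟩, rfl, rfl, rfl⟩
  have F1 := fam_sub hF (Subtype.val_injective (p := fun i => ¬ p i))
  have F2 := fam_split hF p hy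
  have k := fm {i // p i} _ _ _ κ (fun q => Φ (pl.τ q)) (fun j => Φ (pl.τ (y j))) hp F2
    (fun j => hE j) hκ
  refine (k.inj (fun z => (fun j => z.1 j, z.2)) ?_ ?_).mono subset_rfl ?_
  · rintro z ⟨-, z1, -⟩ z' ⟨-, z1', -⟩ e
    refine Prod.ext (funext fun i => ?_) (congrArg Prod.snd e :)
    by_cases hi : p i
    · exact congrFun (congrArg Prod.fst e) ⟨i, hi⟩
    · exact congrArg Prod.fst (congrFun (z1.trans z1'.symm) ⟨i, hi⟩)
  · rintro z ⟨⟨zy, zp, -⟩, z1, z2, z3⟩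
    have e : (fun i : {i // ¬ p i} => y i) = fun i : {i // ¬ p i} => z.1 i :=
      funext fun i => (congrArg Prod.fst (congrFun z1 i)).symm
    refine ⟨Fintype.mem_piFinset.2 fun j => zy j, ?_, fun q hq => ?_, fun j => congrFun z3 j⟩
    · show Pre2 r S (dd (dd m fun i : {i // ¬ p i} => y i) fun j : {i // p i} => z.1 j) z.2
      rwa [e, dd_split]
    · obtain ⟨q1, q2, q3⟩ := (mem_pf F2.ne).1 hq
      rcases (F1.dvd_iff (fun i => hy i) q1).1 q2 with k | ⟨i, rfl⟩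
      · exact congrFun z2 ⟨q, (mem_pf hF.ne).2 ⟨q1, k, q3⟩⟩
      · have := congrArg Prod.snd (congrFun z1 i)
        rwa [← congrFun e i] at this
  · refine mul_le_mul_of_nonneg_left (add_le_add_left ?_ _) pX
    dsimp only at hH hc hw hFa ⊢
    rw [← dd_split p] at hc hw
    rw [hH, hq_inv (e₀ := e₀) (w := w) (e := fun q => Φ (pl.τ q)) hW fun q hq => hc q ?_,
      if_pos hFa, prod_pf F1 fun i => hy i, ← prod_coe_sort (pf S m), mul_comm (∏ q : pf S m, _)]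
    · exact mul_le_mul_of_nonneg_right (wt_split hW F2 hp (fun j => hy j) hw)
        (mul_nonneg (prod_nonneg fun _ _ => u0 _) (prod_nonneg fun _ _ => u0 _))
    · obtain ⟨q1, q2, q3⟩ := (mem_pf F2.ne).1 hq
      exact (mem_pf (F2.sqf fun j => hy j).ne_zero).2
        ⟨q1, (F2.dvd_iff (fun j => hy j) q1).2 (Or.inl q2), q3⟩

theorem sum_three {α β δ : Type} (P : Finset α) (Q : Finset β) (R : Finset δ) (a : α → ℝ)
    (b : β → ℝ) (c k κ : ℝ) : ∑ t ∈ P ×ˢ Q ×ˢ R, c * (k * (a t.1 * b t.2.1) + κ) =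
      c * (k * ((∑ x ∈ P, a x) * ∑ x ∈ Q, b x) * R.card + κ * (P.card * (Q.card * R.card))) := by
  rw [← mul_sum, sum_add_distrib, ← mul_sum, sum_const, card_product, card_product, sum_product,
    sum_mul_sum, nsmul_eq_mul, mul_assoc k, sum_mul]
  congr 2
  · congr 1
    refine sum_congr rfl fun x _ => ?_
    rw [sum_product, sum_mul]
    refine sum_congr rfl fun z _ => ?_
    simp [mul_comm]
  · push_cast; ring

/-- **the first moment for a generating set of coordinates** -/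
theorem key (hW : Wt r γ) (hs : Stb r H e₀) (hC : 0 ≤ C) (fm : FMr r S pl C A) (hF : Fam S m X L)
    (hΓ : 0 ≤ Γ) (hκ : 0 ≤ κ) (hE : ∀ i, Equi pl (X i) A (2 * ((Fintype.card I + 1) * L)) κ)
    (p : I → Prop) [DecidablePred p] (hp : Fintype.card {i // p i} ≤ 5)
    (F : ({i // ¬ p i} → ℕ × N) → Prop) (θ : ℝ)
    (hθ : ms (uu r pl H e₀ (γ H) w) (fun i : {i // ¬ p i} => X i ×ˢ univ) F ≤
      θ * ∏ i : {i // ¬ p i}, ((X i).card : ℝ)) :
    Le (Zs r S pl (γ H) Γ H e₀ w m X fun z =>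
        Hs r (Set.range fun j : {i // p i} => (z j).2) = H ∧ F fun i => z i)
      ((C * 64 ^ 5 * Γ * θ + C * κ * 16 ^ ((pf S m).card + Fintype.card I)) *
        ∏ i, ((X i).card : ℝ)) := by
  classical
  have u0 := uu_nonneg (pl := pl) (H := H) (e₀ := e₀) (w := w) hW
  have pX : 0 ≤ C * ∏ j : {i // p i}, ((X j).card : ℝ) :=
    mul_nonneg hC (prod_nonneg fun _ _ => Nat.cast_nonneg _)
  have pG : 0 ≤ 4 ^ 5 * Γ := mul_nonneg (by norm_num) hΓ
  refine (Le.cover (Fintype.piFinset (fun i : {i // ¬ p i} => X i ×ˢ (univ : Finset N)) ×ˢ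
    (univ : Finset (pf S m → N)) ×ˢ (univ : Finset ({i // p i} → N))) _ _
    (fun t _ => fib (H := H) (e₀ := e₀) (w := w) hW hC fm hF hΓ hκ hE p hp F t.1 t.2.1 t.2.2)
    fun z hz => ⟨(_, _, _), ?_, hz, rfl, rfl, rfl⟩).mono subset_rfl ?_
  · simp only [mem_product, mem_univ, and_true, Fintype.mem_piFinset]
    exact fun i => hz.1 i
  rw [sum_three _ _ _ (fun a => if F a then ∏ i, uu r pl H e₀ (γ H) w (a i) else 0)
    fun b : pf S m → N => ∏ q : pf S m, uu r pl H e₀ (γ H) w (q, b q)]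
  have h1 : ∑ b : pf S m → N, ∏ q : pf S m, uu r pl H e₀ (γ H) w (q, b q) ≤ 1 := by
    rw [← Fintype.piFinset_univ, ← prod_univ_sum (fun _ : pf S m => (univ : Finset N))
      fun q e => uu r pl H e₀ (γ H) w (q, e)]
    exact prod_le_one (fun _ _ => sum_nonneg fun _ _ => u0 _) fun q _ => uu_sum hW hs q
  have h2 : (0 : ℝ) ≤ θ * ∏ i : {i // ¬ p i}, ((X i).card : ℝ) := (ms_nonneg u0 _ _).trans hθ
  have h3 := mul_le_mul hθ h1 (sum_nonneg fun _ _ => prod_nonneg fun _ _ => u0 _) h2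
  have h4 : ((univ : Finset ({i // p i} → N)).card : ℝ) ≤ 16 ^ 5 := by
    rw [card_univ, Fintype.card_fun, card_N]
    exact_mod_cast Nat.pow_le_pow_right (by norm_num) hp
  have h5 := mul_le_mul (mul_le_mul_of_nonneg_left h3 pG) h4
    (Nat.cast_nonneg _) (mul_nonneg pG (mul_nonneg h2 zero_le_one))
  have h6 : Fintype.card I = Fintype.card {i // ¬ p i} + Fintype.card {i // p i} := by
    rw [Fintype.card_subtype_compl, Nat.sub_add_cancel (Fintype.card_subtype_le p)]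
  refine (mul_le_mul_of_nonneg_left (add_le_add_left h5 _) pX).trans (le_of_eq ?_)
  rw [← Fintype.prod_subtype_mul_prod_subtype p fun i => ((X i).card : ℝ), h6]
  simp only [Fintype.card_piFinset, card_product, card_univ, Fintype.card_fun, card_N,
    prod_mul_distrib, prod_const, Fintype.card_coe]
  push_cast
  ring

end

end Vale.Agent.P004S.Ms
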