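import Vale.Agent.P004S.MasB

/-!
# P004, block SMITH, row MAS: classes of cocycles, generating blocks
-/

set_option linter.all false

noncomputable section

namespace Vale.Agent.P004S.Ms

open NumberField Matrix Filter Topology Finset
open Vale.Agent.P022 (Qb GQ IsConj Irred UnrAt IsFrob)
open Vale.Agent.P027M.S (Inert)
open Vale.Agent.P022D.W (dec)
open Vale.Agent.P022E.GW (Ov Fb Gn Ch)

variable {r : Rp} {S : Finset ℕ}

/-- finitely many cocycles modulo `H` are unramified outside `S` -/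
theorem wcl (cnt : CNT) (cnz : CNZ) (h : Rep r S) : ∃ C₀ : ℕ, ∀ H, Sta r H →
    ∃ T : Finset (GQ → N), T.card ≤ C₀ ∧ (∀ w ∈ T, Wb r S H w) ∧
      ∀ w, Wb r S H w → ∃ w' ∈ T, ∀ g, w g - w' g ∈ H := by
  classical
  obtain ⟨c, hc⟩ := cnt (h.Kn 1) (h.Kn_open 1)
  refine ⟨16 ^ 16 * (c ^ (S.card + 1) + 1) ^ 16, fun H hH => ?_⟩
  have : Finite (N ⧸ H) := Finite.of_surjective H.mkQ H.mkQ_surjective
  have e : {ξ : GQ → ZMod 2 | Ch (h.Kn 1 ⊓ ⊤) ξ ∧ (∀ g ∉ h.Kn 1 ⊓ ⊤, ξ g = 0) ∧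
      ∀ g ∈ {g | ∃ l P, Ov l P ∧ l ∉ S ∧ Inert P g}, ξ g = 0} =
      {ξ : GQ → ZMod 2 | Ch (h.Kn 1) ξ ∧ (∀ g ∉ h.Kn 1, ξ g = 0) ∧ Un (· ∉ S) ξ} := by
    rw [inf_top_eq]
    ext ξ
    exact and_congr Iff.rfl (and_congr Iff.rfl ⟨fun k l P a b g d => k g ⟨l, P, a, b, d⟩,
      fun k g ⟨l, P, a, b, d⟩ => k l P a b g d⟩)
  obtain ⟨f1, f2⟩ := cnz (N ⧸ H) (fun g => H.mapQ H (dg (rb r g)) (hH g)) (h.Kn 1) ⊤ _ _
    (idx_ne (h.Kn_open 1)) (fun g hg x => by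
      obtain ⟨x, rfl⟩ := H.mkQ_surjective x
      show H.mkQ (dg (rb r g) x) = _
      rw [h.tr_one_iff.1 hg, dg_one]) (e ▸ (hc S).1) (e ▸ (hc S).2)
  have o : ∀ x : N ⧸ H, H.mkQ x.out = x := fun x => Quotient.out_eq x
  refine ⟨f1.toFinset.image fun v g => (v g).out, card_image_le.trans ?_, fun w hw => ?_,
    fun w hw => ⟨fun g => (H.mkQ (w g)).out, mem_image.2 ⟨fun g => H.mkQ (w g), ?_, rfl⟩,
      fun g => (Submodule.Quotient.eq H).1 (o _).symm⟩⟩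
  · rw [← Set.ncard_eq_toFinset_card _ f1]
    exact f2.trans (Nat.mul_le_mul ((Nat.pow_le_pow_left (card_quot H) _).trans
      (Nat.pow_le_pow_right (by norm_num) h.Kn_one_index))
      (Nat.pow_le_pow_right (Nat.succ_pos _) (card_quot H)))
  · obtain ⟨v, hv, rfl⟩ := mem_image.1 hw
    obtain ⟨v1, v2, -, v4⟩ := f1.mem_toFinset.1 hv
    refine ⟨?_, fun g k => ?_, fun l P a b g d => ?_⟩
    · simp only [o]
      exact v1.comp_continuous (f := fun g : GQ => (⟨g, trivial⟩ : (⊤ : Subgroup GQ)))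
        (continuous_id.subtype_mk _)
    · rw [← Submodule.Quotient.mk_eq_zero, ← Submodule.mkQ_apply, map_sub, map_sub, o, o,
        v2 g trivial k trivial, add_sub_cancel_left, sub_eq_zero]
      conv_lhs => rw [← o (v k)]
      rfl
    · exact (o _).trans (v4 g ⟨l, P, a, b, d⟩)
  · refine f1.mem_toFinset.2 ⟨hw.1.comp_continuous continuous_subtype_val, fun g _ k _ => ?_,
      fun g k => absurd trivial k, fun g ⟨l, P, a, b, d⟩ => hw.2.2 l P a b g d⟩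
    show H.mkQ _ = H.mkQ _ + H.mkQ (dg (rb r g) (w k))
    rw [← map_add]
    exact (Submodule.Quotient.eq H).2 (by rw [← sub_sub]; exact hw.2.1 g k)

/-- five patterns generate -/
theorem gen5 (h : Rep r S) {I : Type} (e : I → N) (i₀ : I) :
    ∃ j : Fin 5 → I, Hs r (Set.range fun a => e (j a)) = Hs r (Set.range e) := by
  obtain ⟨f, f1, f2, -⟩ := Submodule.exists_fun_fin_finrank_span_eq (ZMod 2)
    (Set.range fun i => e i - e i₀)
  have hn := (Submodule.finrank_le (Submodule.span (ZMod 2)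
    (Set.range fun i => e i - e i₀))).trans (show Module.finrank (ZMod 2) N ≤ 4 by simp)
  generalize Module.finrank (ZMod 2) (Submodule.span (ZMod 2) (Set.range fun i => e i - e i₀)) = n
    at f f1 f2 hn
  choose j hj using f1
  let J : Fin 5 → I := fun a => if k : (a : ℕ) < n then j ⟨a, k⟩ else i₀
  have m0 : e i₀ ∈ Set.range fun a => e (J a) := ⟨4, congrArg e (dif_neg (by
    show ¬ 4 < n
    omega))⟩
  refine ⟨J, le_antisymm (hs_mono fun x ⟨a, ha⟩ => ⟨_, ha⟩)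
    (hs_le (hs_sta h _) (fun g => hs_mem g m0 m0) ?_)⟩
  rintro _ ⟨i, rfl⟩
  have : Submodule.span (ZMod 2) (Set.range f) ≤ Hs r (Set.range fun a => e (J a)) := by
    refine Submodule.span_le.2 ?_
    rintro _ ⟨k, rfl⟩
    rw [← hj k]
    exact hs_sub ⟨⟨k, by omega⟩, congrArg e (dif_pos k.2)⟩ m0
  exact this (f2 ▸ Submodule.subset_span ⟨i, rfl⟩)

section

variable {pl : Pl} {γ : Submodule (ZMod 2) N → GQ → ℝ} {H : Submodule (ZMod 2) N} {e₀ : N}
  {w : GQ → N}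

open Classical in
/-- primes with trivial Frobenius elements -/
theorem triv (occ : OCC) (h : Rep r S) (hH : Sta r H) (hw : Wb r S H w) {n : ℕ}
    (hn : (h.Kn 2).index * 16 ≤ n) {X : Finset ℕ} {L κ : ℝ} (hE : Equi pl X n L κ)
    (hL : ∑ l ∈ S, Real.log l ≤ L) (hκ : κ ≤ 1 / (4 * n)) :
    1 / (4 * n) * (X.card : ℝ) ≤
      (X.filter fun x => Tr r 2 (pl.σ x) ∧ w (pl.σ x) ∈ H).card := by
  have c : Cm r H w := hw.2.1
  have k := occ pl X S n 0 L κ (h.Kn 2 ⊓ c.ker hH) 1 hE ((h.Kn_open 2).inter (c.ker_open hH hw.1))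
    ⟨fun k hk g => ⟨h.tr_conj hk.1 g,
      c.conj h hH (h.tr_one_iff.1 (Tr.mono hk.1 one_le_two)) hk.2 g⟩⟩
    (Subgroup.index_inf_le.trans ((Nat.mul_le_mul_left _ (c.ker_index hH)).trans hn))
    (fun l P a b g d => ⟨h.Kn_uns 2 l P a b g d,
      (Submodule.Quotient.mk_eq_zero H).1 (hw.2.2 l P a b g d)⟩) hL (by simpa using one_mem _)
  refine le_trans (mul_le_mul_of_nonneg_right ?_ (Nat.cast_nonneg _)) (k.trans
    (Nat.cast_le.2 (card_le_card fun x hx => ?_)))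
  · have : (1 : ℝ) / (2 * n) = 1 / (4 * n) + 1 / (4 * n) := by ring
    linarith
  · obtain ⟨a, g, i, -, b⟩ := mem_filter.1 hx
    rw [one_pow, mul_one, mul_inv_cancel, inv_one, one_mul] at b
    exact mem_filter.2 ⟨a, b⟩

/-- the mass of the blocks which do not generate -/
theorem good (occ : OCC) (h : Rep r S) (hW : Wt r γ) (hs : Stb r H e₀) (hw : Wb r S H w) {n : ℕ}
    (hn : (h.Kn 2).index * 16 ≤ n) {X : Fin 5 → Finset ℕ} {L κ : ℝ}
    (hE : ∀ i, Equi pl (X i) n L κ) (hL : ∑ l ∈ S, Real.log l ≤ L) (hκ : κ ≤ 1 / (4 * n))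
    {f : Fin 5 → N} (hf : ∀ i, f i - e₀ ∈ H) (hg : Hs r (Set.range f) = H) :
    ms (uu r pl H e₀ (γ H) w) (fun i => X i ×ˢ univ)
      (fun z => ¬ Hs r (Set.range fun i => (z i).2) = H) ≤
        (1 - (1 / (64 * n)) ^ 5) * ∏ i, ((X i).card : ℝ) := by
  classical
  have u0 := uu_nonneg (pl := pl) (H := H) (e₀ := e₀) (w := w) hW
  have h1 := ms_ge u0 X (fun i => (X i).filter fun x => Tr r 2 (pl.σ x) ∧ w (pl.σ x) ∈ H)
    (fun i => filter_subset _ _) f (1 / 16) (by norm_num) (fun i x hx => by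
      obtain ⟨-, a, b⟩ := mem_filter.1 hx
      rw [uu, if_pos ((cmp_tr h a).2 ⟨hf i, b⟩), hW.one _ _ a, one_mul, one_div]
      exact inv_anti₀ (Nat.cast_pos.2 (hq_pos _ _)) (by exact_mod_cast hq_le _ _))
    (fun z => Hs r (Set.range fun i => (z i).2) = H) fun y => hg
  have h2 : ∏ i, ∑ z ∈ X i ×ˢ univ, uu r pl H e₀ (γ H) w z ≤ ∏ i, ((X i).card : ℝ) :=
    prod_le_prod (fun i _ => sum_nonneg fun _ _ => u0 _) fun i _ => uu_blk hW hs _
  have h3 : (1 / (64 * n)) ^ 5 * ∏ i, ((X i).card : ℝ) ≤ ∏ i, (1 / 16 *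
      (((X i).filter fun x => Tr r 2 (pl.σ x) ∧ w (pl.σ x) ∈ H).card : ℝ)) := by
    have e : (1 / (64 * n) : ℝ) ^ 5 = ∏ i : Fin 5, (1 / (64 * n) : ℝ) := by simp
    rw [e, ← prod_mul_distrib]
    refine prod_le_prod (fun i _ => mul_nonneg (one_div_nonneg.2 (mul_nonneg (by norm_num)
      (Nat.cast_nonneg _))) (Nat.cast_nonneg _)) fun i _ => ?_
    have := triv occ h (fun g => (hs g).2) hw hn (hE i) hL hκ
    have e : (1 : ℝ) / (64 * n) = 1 / 16 * (1 / (4 * n)) := by ring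
    rw [e, mul_assoc]
    exact mul_le_mul_of_nonneg_left (by convert this) (by norm_num)
  rw [ms_not]
  linarith

end

/-- the blocks of length five in the lower half -/
def bl (s : ℕ) (z : Fin (s / 10) × Fin 5) : Fin s := ⟨5 * z.1 + z.2, by omega⟩

theorem bl_val (s : ℕ) (z : Fin (s / 10) × Fin 5) : (bl s z : ℕ) = 5 * z.1 + z.2 := rfl

theorem bl_inj (s : ℕ) : Function.Injective (bl s) := fun x y k => by
  have := congrArg Fin.val k
  rw [bl_val, bl_val] at this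
  exact Prod.ext (Fin.ext (by omega)) (Fin.ext (by omega))

theorem bl_lt (s : ℕ) (z : Fin (s / 10) × Fin 5) : 2 * (bl s z : ℕ) < s := by
  rw [bl_val]; omega

theorem range_sub {I α β : Type} (b : α → I) (g : I → β) :
    (Set.range fun j : {i // ∃ a, b a = i} => g j) = Set.range fun a => g (b a) := by
  ext x
  exact ⟨fun ⟨⟨i, a, k⟩, e⟩ => ⟨a, by subst k; exact e⟩, fun ⟨a, e⟩ => ⟨⟨b a, a, rfl⟩, e⟩⟩

theorem card_sub {I : Type} [Fintype I] [DecidableEq I] (b : Fin 5 → I) :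
    Fintype.card {i // ∃ a, b a = i} ≤ 5 :=
  (Fintype.card_le_of_surjective (fun a : Fin 5 => (⟨b a, a, rfl⟩ : {i // ∃ a, b a = i}))
    fun ⟨i, a, k⟩ => ⟨a, Subtype.ext k⟩).trans (by simp)

theorem card_free {s : ℕ} (j : Fin 5 → Fin s) : s / 10 - 5 ≤
    (univ.filter fun k : Fin (s / 10) => ∀ a, ¬ ∃ a', j a' = bl s (k, a)).card := by
  have h1 := card_filter_add_card_filter_not (s := univ)
    fun k : Fin (s / 10) => ∀ a, ¬ ∃ a', j a' = bl s (k, a)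
  have h2 : (univ.filter fun k : Fin (s / 10) => ¬ ∀ a, ¬ ∃ a', j a' = bl s (k, a)).card ≤
      (univ.image fun a => (j a : ℕ) / 5).card := by
    refine card_le_card_of_injOn Fin.val (fun k hk => ?_) Fin.val_injective.injOn
    obtain ⟨a, ha⟩ := not_forall.1 (mem_filter.1 hk).2
    obtain ⟨a', e⟩ := not_not.1 ha
    refine mem_image.2 ⟨a', mem_univ _, ?_⟩
    rw [e, bl_val]
    show (5 * (k : ℕ) + a) / 5 = k
    omega
  have h3 := card_image_le (s := univ) (f := fun a => (j a : ℕ) / 5)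
  simp only [card_univ, Fintype.card_fin] at h1 h3
  omega

theorem geom {c : ℝ} (h0 : 0 < c) (h1 : c ≤ 1) (K : ℕ) : ∑ k : Fin K, (1 - c) ^ (k : ℕ) ≤ 1 / c := by
  rw [Fin.sum_univ_eq_sum_range (fun k => (1 - c) ^ k), le_div_iff₀ h0]
  have := geom_sum_mul_neg (1 - c) K
  rw [sub_sub_cancel] at this
  rw [this]
  have := pow_nonneg (sub_nonneg.2 h1) K
  linarith

/-- the error terms -/
theorem small {a ρ ε : ℝ} (ha : 0 ≤ a) (h0 : 0 ≤ ρ) (h1 : ρ < 1) (hε : 0 < ε) :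
    ∃ A₀ : ℕ, ∀ A s ω : ℕ, A₀ ≤ A → A ≤ s → ω ≤ s → a * ((s : ℝ) ^ 5 * ρ ^ (s / 10 - 5)) ≤ ε ∧
      a * ((s + s ^ 5) * ((1 / A) ^ s * 16 ^ (ω + s))) ≤ ε := by
  have t := (tendsto_pow_const_mul_const_pow_of_abs_lt_one 5 (r := ρ)
    (by rwa [abs_of_nonneg h0])).const_mul (a * 70 ^ 5)
  rw [mul_zero] at t
  obtain ⟨k₀, hk⟩ := eventually_atTop.1 (t.eventually_le_const hε)
  obtain ⟨A₁, hA⟩ := exists_nat_ge (2 * a * 8192 / ε)
  refine ⟨10 * k₀ + A₁ + 8192, fun A s ω b1 b2 b3 => ⟨le_trans ?_ (hk (s / 10 - 5) (by omega)), ?_⟩⟩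
  · have : (s : ℝ) ≤ 70 * ((s / 10 - 5 : ℕ) : ℝ) := by exact_mod_cast (by omega)
    rw [mul_assoc, ← mul_assoc (70 ^ 5 : ℝ), ← mul_pow]
    gcongr
  · have a1 : (8192 : ℝ) ≤ A := by exact_mod_cast (by omega)
    have a2 : (A₁ : ℝ) ≤ A := by exact_mod_cast (by omega)
    have s1 : (1 : ℝ) ≤ s := by exact_mod_cast (by omega)
    have s2 : (s : ℝ) ≤ 2 ^ s := by exact_mod_cast Nat.lt_two_pow_self.le
    have s3 : (s : ℝ) ^ 5 ≤ 32 ^ s := by
      rw [show (32 : ℝ) = 2 ^ 5 by norm_num, ← pow_mul, mul_comm, pow_mul]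
      gcongr
    have s4 : (s : ℝ) ≤ s ^ 5 := le_self_pow₀ s1 (by norm_num)
    have s5 : (16 : ℝ) ^ (ω + s) ≤ 256 ^ s := by
      rw [show (256 : ℝ) = 16 ^ 2 by norm_num, ← pow_mul]
      exact pow_le_pow_right₀ (by norm_num) (by omega)
    have s6 : (8192 / A : ℝ) ^ s ≤ 8192 / A :=
      pow_le_of_le_one (by positivity) ((div_le_one (by linarith)).2 a1) (by omega)
    have s7 : (32 : ℝ) ^ s * ((1 / A) ^ s * 256 ^ s) = (8192 / A) ^ s := by
      rw [← mul_pow, ← mul_pow]; congr 1; ring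
    have s8 : ((s : ℝ) + s ^ 5) * ((1 / A) ^ s * 16 ^ (ω + s)) ≤
        (2 * 32 ^ s) * ((1 / A) ^ s * 256 ^ s) := by
      gcongr
      linarith
    rw [mul_assoc 2, s7] at s8
    have s9 : a * (2 * (8192 / A)) ≤ ε := by
      rw [div_le_iff₀ hε] at hA
      rw [← mul_div_assoc, ← mul_div_assoc, div_le_iff₀ (by linarith)]
      nlinarith
    exact (mul_le_mul_of_nonneg_left (by linarith) ha).trans s9

end Vale.Agent.P004S.Ms
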