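import Vale.Agent.P004S.Ch.Ind
import Vale.Agent.P016Z.Cheb.Cheb

/-!
P004, block SMITH: quadratic characters of all number fields cancel over the primes.
-/

set_option linter.all false

noncomputable section

namespace Vale.Agent.P004S

open NumberField Finset Filter
open Vale.Agent.P022 (Qb GQ IsConj)
open Vale.Agent.P027M.S (Inert)
open Vale.Agent.P022E.GW (Ov Fb Gn Ch)
open scoped Classical

namespace Ch

/-- the fields without real places have the expected number of primes -/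
def FXH (pl : Pl) (P : Finset ℕ) (li E : ℝ) (n : ℕ) (L : ℝ) : Prop :=
  ∀ (K : Subgroup GQ) (T : Finset ℕ), IsOpen (K : Set GQ) → K.index ≤ n → UnS T K →
    (∀ c, IsConj c → c ∉ K) → ∑ l ∈ T, Real.log l ≤ L → |∑ p ∈ P, fx K (pl.σ p) - li| ≤ E

variable {pl : Pl} {P : Finset ℕ} {li E L : ℝ} {n : ℕ} {H : Subgroup GQ} {η : GQ → ZMod 2}

theorem ker_idx (h : Ch H η) : (ker h).index ≤ 2 * H.index := by
  rw [← Subgroup.relIndex_mul_index (ker_le h), ker_rel]
  split_ifs <;> omega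

theorem nu_unr {m l : ℕ} (hm : m.Prime) {Q : Ideal (𝓞 Qb)} (ho : Ov l Q) (h2 : l ≠ 2)
    (hl : l ≠ m) {g : GQ} (hg : Inert Q g) : nu (-m) g = 0 :=
  nu_inert ho h2 (fun k => hl ((Nat.prime_dvd_prime_iff_eq ho.1 hm).1
    (Int.natCast_dvd_natCast.1 (dvd_neg.1 k)))) hg

theorem nu_ram (pl : Pl) {m : ℕ} (hm : m.Prime) (h2 : m ≠ 2) : nu (-m) (pl.τ m) = 1 :=
  nu_tau (pl.ov m hm) h2 (Nat.prime_iff_prime_int.1 hm).neg.squarefree (dvd_neg.2 dvd_rfl)
    (pl.gn m hm h2)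

theorem pair (h : FXH pl P li E (4 * n) L) {T : Finset ℕ} {m : ℕ} (hH : IsOpen (H : Set GQ))
    (hn : H.index ≤ n) (hη : Ch H η) (u1 : UnS T H) (u2 : Un (· ∉ T) η) (h2 : 2 ∈ T) (hm : m ∈ T)
    (pm : m.Prime) (hL : ∑ l ∈ T, Real.log l ≤ L) :
    |(∑ p ∈ P, chs pl H η p - if ∀ g ∈ H, η g = 0 then li else 0) +
      (∑ p ∈ P, chs pl H η p * sgn (nu (-m) (pl.σ p)) -
        if ∀ g ∈ H, η g + nu (-m) g = 0 then li else 0)| ≤ 6 * E := by
  have hχ := nu_ch (-m) H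
  have o1 := ker_open hχ hH
  have i1 := ker_idx hχ
  have i2 := ker_idx (ch_le hη (ker_le hχ))
  have v1 : UnS T (ker hχ) := fun l Q ho hl g hg =>
    ⟨u1 l Q ho hl g hg, nu_unr pm ho (fun k => hl (k ▸ h2)) (fun k => hl (k ▸ hm)) hg⟩
  have c1 : ∀ c, IsConj c → c ∉ ker hχ := fun c hc k => by
    have := nu_neg_conj (d := -m) (neg_lt_zero.2 (by exact_mod_cast pm.pos)) hc
    rw [k.2] at this
    exact absurd this (by decide)
  have a1 := h (ker hχ) T o1 (by omega) v1 c1 hL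
  have a2 := h (ker (ch_le hη (ker_le hχ))) T (ker_open _ o1) (by omega)
    (fun l Q ho hl g hg => ⟨v1 l Q ho hl g hg, u2 l Q ho hl g hg⟩) (fun c hc k => c1 c hc k.1) hL
  have e1 := main_pair hη hχ
  have e2 := sum_congr rfl fun p (_ : p ∈ P) => chs_pair pl hH hη hχ p
  simp only [chs_add pl H hH η (nu_ch (-m) ⊤), sum_add_distrib, sum_sub_distrib, ← mul_sum] at e2
  have b1 : ∀ (c : ℝ) (k : ℕ), 0 ≤ c → 0 ≤ c / k ∧ c / k ≤ c := fun c k hc =>
    ⟨by positivity, by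
      rcases k.eq_zero_or_pos with rfl | hk
      · simpa using hc
      · exact div_le_self hc (by exact_mod_cast hk)⟩
  have b2 := b1 4 ((ker (ch_le hη (ker_le hχ))).relIndex H) (by norm_num)
  have b3 := b1 2 ((ker hχ).relIndex H) (by norm_num)
  generalize (4 : ℝ) / ((ker (ch_le hη (ker_le hχ))).relIndex H) = a at e1 e2 b2
  generalize (2 : ℝ) / ((ker hχ).relIndex H) = b at e1 e2 b3
  have e3 : ((if ∀ g ∈ H, η g = 0 then li else 0) +
      if ∀ g ∈ H, η g + nu (-m) g = 0 then li else 0) = (a - b) * li := by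
    rw [e1]
    split_ifs <;> ring
  generalize ∑ p ∈ P, fx (ker (ch_le hη (ker_le hχ))) (pl.σ p) = X at a2 e2
  generalize ∑ p ∈ P, fx (ker hχ) (pl.σ p) = Y at a1 e2
  have hE := (abs_nonneg _).trans a1
  rw [sub_add_sub_comm, e2, e3, show a * X - b * Y - (a - b) * li = a * (X - li) - b * (Y - li) by
    ring]
  refine (abs_sub _ _).trans ?_
  rw [abs_mul, abs_mul, abs_of_nonneg b2.1, abs_of_nonneg b3.1]
  linarith [mul_le_mul b2.2 a2 (abs_nonneg _) (by norm_num),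
    mul_le_mul b3.2 a1 (abs_nonneg _) (by norm_num)]

theorem sum_ins (a : ℕ) (T : Finset ℕ) :
    ∑ l ∈ insert a T, Real.log l ≤ Real.log a + ∑ l ∈ T, Real.log l := by
  by_cases h : a ∈ T
  · rw [insert_eq_of_mem h]
    linarith [Real.log_natCast_nonneg a]
  · rw [sum_insert h]

theorem chs_top' (pl : Pl) (h : Ch ⊤ η) (x : ℕ) : chs pl ⊤ η x = sgn (η (pl.σ x)) := by
  have := chs_add pl ⊤ isOpen_univ (fun _ => 0) h x
  simpa only [zero_add, chs_top, one_mul] using this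

theorem equi0 {L' l EQ lam : ℝ} (h : FXH pl P li E (4 * n) L') (hQ : |(P.card : ℝ) - li| ≤ EQ)
    (hP : ∀ m ∈ P, m.Prime ∧ m ≠ 2 ∧ Real.log m ≤ l) (hL : L + 1 + 2 * l ≤ L') (hl : 0 < lam)
    {T : Finset ℕ} (hH : IsOpen (H : Set GQ)) (hn : H.index ≤ n) (hη : Ch H η)
    (hT : ∑ l ∈ T, Real.log l ≤ L) (u1 : UnS T H) (u2 : Un (· ∉ T) η)
    (hc : (P.card : ℝ) ≤ 2 * (P \ T).card) (hne : (P \ T).Nonempty) :
    |∑ p ∈ P, chs pl H η p - if ∀ g ∈ H, η g = 0 then (P.card : ℝ) else 0| ≤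
      EQ + 6 * E + n * (lam * P.card + (2 + (EQ + 12 * E)) / lam) := by
  have l2 : Real.log (2 : ℕ) ≤ 1 := by
    have := Real.log_two_lt_d9
    push_cast
    linarith
  have L0 : 0 ≤ L := (sum_nonneg fun l _ => Real.log_natCast_nonneg l).trans hT
  have n1 : (⊤ : Subgroup GQ).index ≤ n := by
    have := idx_ne hH
    rw [Subgroup.index_top]
    omega
  have k1 : ∀ m ∈ P \ T, |(∑ p ∈ P, chs pl H η p - if ∀ g ∈ H, η g = 0 then li else 0) +
      ∑ p ∈ P, chs pl H η p * sgn (nu (-m) (pl.σ p))| ≤ 6 * E := by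
    intro m hm
    obtain ⟨m1, m2, m3⟩ := hP m (mem_sdiff.1 hm).1
    have m4 := (mem_sdiff.1 hm).2
    have m5 := (pl.gn m m1 m2).1
    have := pair h (T := insert 2 (insert m T)) hH hn hη
      (fun l Q ho hl => u1 l Q ho fun k => hl (by simp [k]))
      (fun l Q ho hl => u2 l Q ho fun k => hl (by simp [k])) (by simp) (by simp : m ∈ _) m1
      (by linarith [sum_ins 2 (insert m T), sum_ins m T, Real.log_natCast_nonneg m])
    rwa [if_neg (c := ∀ g ∈ H, η g + nu (-m) g = 0) fun k => by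
      have := k _ (u1 m _ (pl.ov m m1) m4 _ m5)
      rw [u2 m _ (pl.ov m m1) m4 _ m5, nu_ram pl m1 m2] at this
      exact absurd this (by decide), sub_zero] at this
  obtain ⟨m₀, hm₀⟩ := id hne
  have E0 : 0 ≤ E := by linarith [(abs_nonneg _).trans (k1 m₀ hm₀)]
  have Q0 : 0 ≤ EQ := (abs_nonneg _).trans hQ
  have k2 : ∀ m ∈ P \ T, ∀ m' ∈ P \ T, m ≠ m' →
      ∑ p ∈ P, sgn (nu (-m) (pl.σ p)) * sgn (nu (-m') (pl.σ p)) ≤ EQ + 12 * E := by
    intro m hm m' hm' hne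
    obtain ⟨m1, m2, m3⟩ := hP m (mem_sdiff.1 hm).1
    obtain ⟨m1', m2', m3'⟩ := hP m' (mem_sdiff.1 hm').1
    have s1 : ∑ l ∈ (insert 2 (insert m (insert m' ∅)) : Finset ℕ), Real.log l ≤ L' := by
      linarith [sum_ins 2 (insert m (insert m' ∅)), sum_ins m (insert m' ∅), sum_ins m' ∅,
        sum_empty (f := fun l : ℕ => Real.log l)]
    have a1 := pair h (T := insert 2 (insert m (insert m' ∅))) isOpen_univ n1 (ch_zero ⊤)
      (fun _ _ _ _ _ _ => trivial) (fun _ _ _ _ _ _ => rfl) (by simp) (by simp : m ∈ _) m1 s1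
    have a2 := pair h (T := insert 2 (insert m (insert m' ∅))) isOpen_univ n1 (nu_ch (-m) ⊤)
      (fun _ _ _ _ _ _ => trivial)
      (fun l Q ho hl g hg => nu_unr m1 ho (fun k => hl (by simp [k])) (fun k => hl (by simp [k])) hg)
      (by simp) (by simp : m' ∈ _) m1' s1
    have r1 := nu_ram pl m1 m2
    have r2 := nu_unr m1' (pl.ov m m1) m2 hne (pl.gn m m1 m2).1
    have c1 : ¬ ∀ g ∈ (⊤ : Subgroup GQ), nu (-m) g = 0 := fun k => by
      rw [k _ trivial] at r1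
      exact absurd r1 (by decide)
    have c2 : ¬ ∀ g ∈ (⊤ : Subgroup GQ), nu (-m) g + nu (-m') g = 0 := fun k => by
      have := k (pl.τ m) trivial
      rw [r1, r2] at this
      exact absurd this (by decide)
    simp only [chs_top, zero_add, if_neg c1, implies_true, if_true, one_mul, sub_zero, sum_const,
      nsmul_eq_mul, mul_one] at a1
    simp only [chs_top' pl (nu_ch (-m) ⊤), if_neg c1, if_neg c2, sub_zero] at a2
    linarith [(abs_le.1 a1).1, (abs_le.1 a2).2, (abs_le.1 hQ).2]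
  have k3 := var (chs pl H η) (fun m p => sgn (nu (-m) (pl.σ p))) hl (Nat.cast_nonneg n)
    (by linarith) hc hne (fun p => (chs_le pl H hH η p).trans (by exact_mod_cast hn))
    (fun m p => sgn_sq _) k1 k2
  rw [abs_le] at k3 hQ ⊢
  split_ifs at k3 ⊢ <;> constructor <;> linarith [k3.1, k3.2, hQ.1, hQ.2]

theorem card_le {T : Finset ℕ} (hP : ∀ m ∈ P, 3 ≤ m) :
    ((P ∩ T).card : ℝ) ≤ ∑ l ∈ T, Real.log l := by
  rw [card_eq_sum_ones, Nat.cast_sum]
  refine (sum_le_sum fun m hm => ?_).trans (sum_le_sum_of_subset_of_nonneg inter_subset_right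
    fun l _ _ => Real.log_natCast_nonneg l)
  have h3 : (3 : ℝ) ≤ m := by exact_mod_cast hP m (mem_inter.1 hm).1
  rw [Nat.cast_one, Real.le_log_iff_exp_le (by linarith)]
  linarith [Real.exp_one_lt_d9]

theorem fxh {C₁ C₂ Y : ℝ} (pl : Pl) (hP : ∀ m ∈ P, m.Prime ∧ 3 ≤ m) (c1 : 0 ≤ C₁) (c2 : 0 ≤ C₂)
    (hY : L ≤ Y) (h1 : ∀ (K : Type) [Field K] [NumberField K] [IsTotallyComplex K],
      |∑ p ∈ P, (P016Z.aK K p : ℝ) - li| ≤ C₁ * P016Z.size K * Y)
    (h2 : ∀ (n : ℕ) (H : Subgroup GQ) (T : Finset ℕ), IsOpen (H : Set GQ) →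
      H.index ≤ n → UnS T H → (∀ c, IsConj c → c ∉ H) →
      ∃ (K : Type) (_ : Field K) (_ : NumberField K) (_ : IsTotallyComplex K),
        P016Z.size K ≤ C₂ * n ^ 2 * (1 + ∑ l ∈ T, Real.log l) ∧
        ∀ (p : ℕ) (P : Ideal (𝓞 Qb)) (σ : GQ), Ov p P → p ∉ T → Fb p P σ →
          P016Z.aK K p = Nat.card {c : GQ ⧸ H // σ • c = c}) (n : ℕ) :
    FXH pl P li (((C₁ + 1) * C₂ + 1) * n ^ 2 * (1 + L) * Y) n L := by
  intro H T hH hn u1 hc hT
  obtain ⟨K, _, _, _, s1, s2⟩ := h2 n H T hH hn u1 hc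
  have L0 : 0 ≤ L := (sum_nonneg fun l _ => Real.log_natCast_nonneg l).trans hT
  have a1 := h1 K
  have a2 := P016Z.Cheb.finrank_le_size K
  have a3 : (0 : ℝ) ≤ Module.finrank ℚ K := Nat.cast_nonneg _
  have n1 : (1 : ℝ) ≤ n := by
    have := idx_ne hH
    exact_mod_cast (by omega : 1 ≤ n)
  have a4 : |∑ p ∈ P, fx H (pl.σ p) - ∑ p ∈ P, (P016Z.aK K p : ℝ)| ≤
      (P ∩ T).card * (P016Z.size K + n) := by
    rw [← sum_sub_distrib, ← sum_inter_add_sum_sdiff P T,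
      sum_eq_zero (s := P \ T) fun p hp => by
        have := (hP p (mem_sdiff.1 hp).1).1
        rw [s2 p _ _ (pl.ov p this) (mem_sdiff.1 hp).2 (pl.fb p this), fx, sub_self], add_zero,
      ← nsmul_eq_mul]
    refine (abs_sum_le_sum_abs _ _).trans (sum_le_card_nsmul _ _ _ fun p hp => ?_)
    have b1 : (P016Z.aK K p : ℝ) ≤ Module.finrank ℚ K := by
      exact_mod_cast P016Z.Cheb.aK_le K (hP p (mem_inter.1 hp).1).1
    have b2 : fx H (pl.σ p) ≤ n := by
      have := H.quotient_finite_of_isOpen hH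
      rw [fx]
      exact_mod_cast (Finite.card_subtype_le _).trans hn
    have b3 : 0 ≤ fx H (pl.σ p) := Nat.cast_nonneg _
    have b4 : (0 : ℝ) ≤ P016Z.aK K p := Nat.cast_nonneg _
    rw [abs_le]
    constructor <;> linarith
  have a5 := (card_le (T := T) fun m hm => (hP m hm).2).trans (hT.trans hY)
  have a6 : P016Z.size K ≤ C₂ * (n ^ 2 * (1 + L)) := by
    rw [← mul_assoc]
    exact s1.trans (mul_le_mul_of_nonneg_left (by linarith) (by positivity))
  have a7 : (n : ℝ) ≤ n ^ 2 * (1 + L) := by nlinarith [mul_nonneg (sq_nonneg (n : ℝ)) L0]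
  have a8 := mul_le_mul_of_nonneg_right a5 (show 0 ≤ P016Z.size K + n by linarith)
  have Y0 : 0 ≤ Y := L0.trans hY
  have a9 := mul_le_mul_of_nonneg_right a6 (show 0 ≤ (C₁ + 1) * Y by positivity)
  have a10 := mul_le_mul_of_nonneg_right a7 Y0
  have a11 := abs_sub_le (∑ p ∈ P, fx H (pl.σ p)) (∑ p ∈ P, (P016Z.aK K p : ℝ)) li
  linarith

theorem num {z Y u n L L' D Q : ℝ} (z1 : 1 ≤ z) (n1 : 1 ≤ n) (L1 : 1 ≤ L) (D0 : 0 ≤ D)
    (Q0 : 0 ≤ Q) (Y1 : 1 ≤ Y) (hL : 1 + L' ≤ 7 * (L * z)) (hu : z ^ 2 * Y ≤ 4 * u) :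
    Q * Y + 6 * (D * (4 * n) ^ 2 * (1 + L') * Y) +
      n * (u + (2 + (Q * Y + 12 * (D * (4 * n) ^ 2 * (1 + L') * Y))) * z) ≤
        (8 * Q + 8064 * D + 9) * n ^ 3 * L * u := by
  have a1 : z * Y ≤ z ^ 2 * Y := mul_le_mul_of_nonneg_right (by nlinarith) (by linarith)
  have a2 : Y ≤ z * Y := le_mul_of_one_le_left (by linarith) z1
  have a3 : z ≤ z * Y := le_mul_of_one_le_right (by linarith) Y1
  have u0 : 0 ≤ u := by linarith
  have w1 : n ^ 3 ≤ n ^ 3 * L := le_mul_of_one_le_right (by positivity) L1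
  have w2 : n ≤ n ^ 3 := le_self_pow₀ n1 (by norm_num)
  have w3 : n ^ 2 * L ≤ n ^ 3 * L :=
    mul_le_mul_of_nonneg_right (pow_le_pow_right₀ n1 (by norm_num)) (by linarith)
  have e1 : D * (4 * n) ^ 2 * (1 + L') * Y ≤ 112 * (D * (n ^ 2 * L * (z * Y))) := by
    have := mul_le_mul_of_nonneg_left hL (show 0 ≤ D * (4 * n) ^ 2 * Y by positivity)
    linarith
  have e2 := mul_le_mul_of_nonneg_left e1 (show 0 ≤ n * z by positivity)
  have b1 : n ^ 2 * L * (z * Y) ≤ n ^ 3 * L * (4 * u) :=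
    mul_le_mul w3 (by linarith) (by linarith) (by positivity)
  have b2 : n ^ 3 * L * (z ^ 2 * Y) ≤ n ^ 3 * L * (4 * u) :=
    mul_le_mul_of_nonneg_left hu (by positivity)
  have b3 : 1 * Y ≤ n ^ 3 * L * (4 * u) :=
    mul_le_mul (by linarith) (by linarith) (by linarith) (by positivity)
  have b4 : n * (z * Y) ≤ n ^ 3 * L * (4 * u) :=
    mul_le_mul (by linarith) (by linarith) (by linarith) (by positivity)
  have b5 : n * z ≤ n ^ 3 * L * (4 * u) :=
    mul_le_mul (by linarith) (by linarith) (by linarith) (by positivity)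
  have b6 : n * u ≤ n ^ 3 * L * u := mul_le_mul_of_nonneg_right (by linarith) u0
  linarith [mul_le_mul_of_nonneg_left b1 D0, mul_le_mul_of_nonneg_left b2 D0,
    mul_le_mul_of_nonneg_left b3 Q0, mul_le_mul_of_nonneg_left b4 Q0]

theorem li_low {t t' : ℕ} (h1 : 1 ≤ Real.log t) (ht : 2 ≤ t) (h : (t : ℝ) + t / Real.log t ≤ t')
    (h' : t' ≤ 2 * t) : (t : ℝ) / (2 * Real.log t ^ 2) ≤ ∫ u in (t : ℝ)..t', 1 / Real.log u := by
  have t2 : (2 : ℝ) ≤ t := by exact_mod_cast ht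
  have t3 : (t' : ℝ) ≤ 2 * t := by exact_mod_cast h'
  have t4 : 0 ≤ (t : ℝ) / Real.log t := by positivity
  have hh : (t : ℝ) ≤ t' := by linarith
  have k : ∀ u ∈ Set.Icc (t : ℝ) t', Real.log t ≤ Real.log u ∧ Real.log u ≤ 2 * Real.log t :=
    fun u hu => ⟨Real.log_le_log (by linarith) hu.1, by
      rw [two_mul, ← Real.log_mul (by linarith) (by linarith)]
      exact Real.log_le_log (by linarith [hu.1]) (by nlinarith [hu.2])⟩
  have ha : AntitoneOn (fun u : ℝ => 1 / Real.log u) (Set.uIcc t t') := by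
    rw [Set.uIcc_of_le hh]
    exact fun x hx y _ hxy => one_div_le_one_div_of_le (by linarith [(k x hx).1])
      (Real.log_le_log (by linarith [hx.1]) hxy)
  have a := intervalIntegral.integral_mono_on (μ := MeasureTheory.volume) hh
    (intervalIntegrable_const (c := 1 / (2 * Real.log t))) ha.intervalIntegrable
    fun u hu => one_div_le_one_div_of_le (by linarith [(k u hu).1]) (k u hu).2
  refine le_trans ?_ a
  rw [intervalIntegral.integral_const, smul_eq_mul]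
  calc (t : ℝ) / (2 * Real.log t ^ 2) = t / Real.log t * (1 / (2 * Real.log t)) := by field_simp
    _ ≤ _ := mul_le_mul_of_nonneg_right (by linarith) (by positivity)

theorem ev {a : ℝ} (ha : 0 < a) (Z : ℝ) : ∃ t₀ : ℕ, ∀ t : ℕ, t₀ ≤ t →
    3 ≤ t ∧ Z ≤ (t : ℝ) ^ a ∧ Real.log t ≤ (t : ℝ) ^ a := by
  have h1 := (tendsto_rpow_atTop ha).eventually_ge_atTop Z
  have h2 := (isLittleO_log_rpow_atTop ha).bound one_pos
  obtain ⟨t₀, h⟩ := eventually_atTop.1 ((eventually_ge_atTop 3).and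
    (tendsto_natCast_atTop_atTop.eventually (h1.and h2)))
  refine ⟨t₀, fun t ht => ⟨(h t ht).1, (h t ht).2.1, ?_⟩⟩
  have := (h t ht).2.2
  rw [one_mul, Real.norm_eq_abs, Real.norm_of_nonneg (by positivity)] at this
  exact (le_abs_self _).trans this

end Ch

open Ch in
theorem real : REAL := by
  rintro ⟨C₁, δ₁, d1, h1⟩ ⟨C₃, δ₃, d3, h3⟩ ⟨C₂, h2⟩ pl
  obtain ⟨δ, d0, e1, e3, e4⟩ : ∃ δ : ℝ, 0 < δ ∧ δ ≤ δ₁ ∧ δ ≤ δ₃ ∧ δ ≤ 1 / 2 :=
    ⟨min δ₁ (min δ₃ (1 / 2)), lt_min d1 (lt_min d3 (by norm_num)), min_le_left _ _,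
      (min_le_right _ _).trans (min_le_left _ _), (min_le_right _ _).trans (min_le_right _ _)⟩
  obtain ⟨t₀, H0⟩ := ev (show 0 < δ / 8 by positivity) (6 + 4 * |C₃|)
  obtain ⟨D, hD⟩ : ∃ D, D = (|C₁| + 1) * |C₂| + 1 := ⟨_, rfl⟩
  have D0 : 0 ≤ D := by rw [hD]; positivity
  have Q0 := abs_nonneg C₃
  refine ⟨8 * |C₃| + 8064 * D + 9, δ / 8, t₀, by positivity, fun n t t' L ht g1 g2 L1 => ?_⟩
  obtain ⟨t3, z1, z2⟩ := H0 t ht
  have t3' : (3 : ℝ) ≤ t := by exact_mod_cast t3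
  have l1 : 1 ≤ Real.log t := by
    rw [Real.le_log_iff_exp_le (by linarith)]
    linarith [Real.exp_one_lt_d9]
  have tt : t ≤ t' := by
    have : 0 ≤ (t : ℝ) / Real.log t := by positivity
    exact_mod_cast (by linarith : (t : ℝ) ≤ t')
  have li := li_low l1 (by omega) g1 g2
  have y1 : (t : ℝ) ^ (1 - δ₁) ≤ (t : ℝ) ^ (1 - δ) :=
    Real.rpow_le_rpow_of_exponent_le (by linarith) (by linarith)
  have y3 : (t : ℝ) ^ (1 - δ₃) ≤ (t : ℝ) ^ (1 - δ) :=
    Real.rpow_le_rpow_of_exponent_le (by linarith) (by linarith)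
  have p8 : ((t : ℝ) ^ (δ / 8)) ^ 8 = (t : ℝ) ^ δ := by
    rw [← Real.rpow_natCast, ← Real.rpow_mul (by linarith)]
    congr 1
    push_cast
    ring
  have y4 : ((t : ℝ) ^ (δ / 8)) ^ 8 ≤ (t : ℝ) ^ (1 - δ) := by
    rw [p8]
    exact Real.rpow_le_rpow_of_exponent_le (by linarith) (by linarith)
  have y5 : ((t : ℝ) ^ (δ / 8)) ^ 8 * (t : ℝ) ^ (1 - δ) = t := by
    rw [p8, ← Real.rpow_add (by linarith), add_sub_cancel, Real.rpow_one]
  have q1 := (h3 t t' (by omega) tt g2).trans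
    (mul_le_mul (le_abs_self _) y3 (by positivity) (abs_nonneg _))
  have q2 : ∀ (K : Type) [Field K] [NumberField K] [IsTotallyComplex K],
      |∑ p ∈ pr t t', (P016Z.aK K p : ℝ) - ∫ u in (t : ℝ)..t', 1 / Real.log u| ≤
        |C₁| * P016Z.size K * (t : ℝ) ^ (1 - δ) := fun K _ _ _ => by
    have s0 : 0 ≤ P016Z.size K := (Nat.cast_nonneg _).trans (P016Z.Cheb.finrank_le_size K)
    exact (h1 K t t' (by omega) tt g2).trans (mul_le_mul
      (mul_le_mul_of_nonneg_right (le_abs_self _) s0) y1 (by positivity) (by positivity))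
  have hP : ∀ m ∈ pr t t', m.Prime ∧ 3 ≤ m ∧ Real.log m ≤ 2 * Real.log t := fun m hm => by
    obtain ⟨m1, m2⟩ := mem_filter.1 hm
    obtain ⟨m3, m4⟩ := mem_Ioc.1 m1
    refine ⟨m2, by omega, ?_⟩
    rw [two_mul, ← Real.log_mul (by linarith) (by linarith)]
    refine Real.log_le_log (by exact_mod_cast m2.pos) ?_
    have : (m : ℝ) ≤ 2 * t := by exact_mod_cast m4.trans g2
    nlinarith
  rw [Real.rpow_neg (by linarith)]
  generalize (t : ℝ) ^ (δ / 8) = z at z1 z2 y4 y5 ⊢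
  generalize (t : ℝ) ^ (1 - δ) = Y at y4 y5 q1 q2
  generalize ∫ u in (t : ℝ)..t', 1 / Real.log u = I at li q1 q2
  generalize Real.log t = l at l1 z2 li hP
  generalize pr t t' = P at q1 q2 hP ⊢
  clear y1 y3 p8 h1 h3 H0 g1
  have z0 : 1 ≤ z := by linarith
  have z3 : ∀ a b : ℕ, a ≤ b → z ^ a ≤ z ^ b := fun a b h => pow_le_pow_right₀ z0 h
  have Y1 : 1 ≤ Y := (one_le_pow₀ z0).trans y4
  have p1 : z ^ 6 * Y ≤ 4 * P.card := by
    have a1 : z ^ 6 * Y / 2 ≤ (t : ℝ) / (2 * l ^ 2) := by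
      rw [le_div_iff₀ (by positivity), ← y5]
      have := mul_le_mul_of_nonneg_left (pow_le_pow_left₀ (by linarith) z2 2)
        (show 0 ≤ z ^ 6 * Y by positivity)
      linarith
    have a2 : 4 * |C₃| * Y ≤ z ^ 6 * Y :=
      mul_le_mul_of_nonneg_right (by linarith [z3 1 6 (by norm_num)]) (by linarith)
    linarith [(abs_le.1 q1).1]
  have p2 : z ^ 2 * Y ≤ 4 * (z⁻¹ * P.card) := by
    rw [mul_left_comm, le_inv_mul_iff₀ (by linarith)]
    have := mul_le_mul_of_nonneg_right (z3 3 6 (by norm_num)) (show 0 ≤ Y by linarith)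
    linarith
  have p3 : z ^ 2 ≤ z ^ 2 * Y := le_mul_of_one_le_right (by positivity) Y1
  have p4 : 6 * z ≤ z ^ 2 := by nlinarith
  have p5 : 1 ≤ z⁻¹ * P.card := by linarith
  refine ⟨fun H ξ T hH hn hξ hT u1 u2 => ?_, ?_⟩
  · have n1 : (1 : ℝ) ≤ n := by
      have := idx_ne hH
      exact_mod_cast (by omega : 1 ≤ n)
    rw [mul_assoc _ z⁻¹]
    by_cases hL : L ≤ z
    · have a1 : l ≤ L * z := z2.trans (le_mul_of_one_le_left (by linarith) L1)
      have a2 : L ≤ L * z := le_mul_of_one_le_right (by linarith) z0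
      have a3 : 6 * z ^ 2 ≤ z ^ 8 := by
        have := mul_le_mul_of_nonneg_right (show 6 ≤ z by linarith) (sq_nonneg z)
        linarith [z3 3 8 (by norm_num)]
      have a4 : L * z ≤ z ^ 2 := by rw [sq]; exact mul_le_mul_of_nonneg_right hL (by linarith)
      have f := fxh (L := L + 1 + 2 * (2 * l)) pl (fun m hm => ⟨(hP m hm).1, (hP m hm).2.1⟩)
        (abs_nonneg C₁) (abs_nonneg C₂) (by linarith) q2
        (fun n H T a b c d => by
          obtain ⟨K, i1, i2, i3, s1, s2⟩ := h2 n H T a b c d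
          refine ⟨K, i1, i2, i3, s1.trans ?_, s2⟩
          have : 0 ≤ ∑ l ∈ T, Real.log l := sum_nonneg fun l _ => Real.log_natCast_nonneg l
          gcongr
          exact le_abs_self _) (4 * n)
      have a5 := (card_le (T := T) fun m hm => (hP m hm).2.1).trans (hT.trans hL)
      have a6 : ((P \ T).card : ℝ) + (P ∩ T).card = P.card := by
        exact_mod_cast card_sdiff_add_card_inter P T
      have a7 : 8 * z ≤ z ^ 6 * Y := by
        have b1 : z ^ 6 ≤ z ^ 6 * Y := le_mul_of_one_le_right (by positivity) Y1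
        linarith [z3 2 8 (by norm_num), z3 3 6 (by norm_num),
          mul_le_mul_of_nonneg_right (show 6 ≤ z by linarith) (sq_nonneg z)]
      have k := equi0 f q1 (fun m hm => ⟨(hP m hm).1, by have := (hP m hm).2.1; omega,
        (hP m hm).2.2⟩) le_rfl (inv_pos.2 (show 0 < z by linarith)) hH hn hξ hT u1 u2
        (by linarith) (card_pos.1 (by exact_mod_cast (by linarith : (0 : ℝ) < (P \ T).card)))
      rw [← hD, div_inv_eq_mul, Nat.cast_mul, Nat.cast_ofNat] at k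
      exact k.trans (num z0 n1 L1 D0 Q0 Y1 (by linarith) p2)
    · have a1 : |∑ x ∈ P, chs pl H ξ x| ≤ P.card * n := by
        rw [← nsmul_eq_mul]
        exact (abs_sum_le_sum_abs _ _).trans (sum_le_card_nsmul _ _ _ fun p _ =>
          (chs_le pl H hH ξ p).trans (by exact_mod_cast hn))
      have P0 : (0 : ℝ) ≤ P.card := Nat.cast_nonneg _
      have a2 : (P.card : ℝ) ≤ L * (z⁻¹ * P.card) := by
        rw [← mul_assoc]
        refine le_mul_of_one_le_left P0 ?_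
        rw [le_mul_inv_iff₀ (by linarith)]
        linarith
      have a3 : (n : ℝ) ≤ n ^ 3 := le_self_pow₀ n1 (by norm_num)
      have a4 : (n : ℝ) * P.card ≤ n ^ 3 * (L * (z⁻¹ * P.card)) :=
        mul_le_mul a3 a2 P0 (by positivity)
      have a5 : (P.card : ℝ) ≤ n * P.card := le_mul_of_one_le_left P0 n1
      have a6 := mul_le_mul_of_nonneg_right (show 2 ≤ 8 * |C₃| + 8064 * D + 9 by linarith)
        (show 0 ≤ n ^ 3 * (L * (z⁻¹ * P.card)) by linarith)
      rw [abs_le] at a1 ⊢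
      split_ifs <;> constructor <;> linarith [a1.1, a1.2]
  · rw [mul_assoc]
    exact one_le_mul_of_one_le_of_one_le (by linarith) p5

end Vale.Agent.P004S
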