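import Vale.Agent.P004S.Psi
import Vale.Agent.P004S.Fld
import Vale.Agent.P004S.Real

/-!
P004, block SMITH: equidistribution of primes for quadratic characters, unconditionally.
-/

namespace Vale.Agent.P004S

theorem pnt : PNT := real psi psiq fld

end Vale.Agent.P004S
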