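import Vale.Agent.P022E.GW.Defs
import Vale.Agent.P016Z.Iface

/-!
# P004, block SMITH: definitions and rows

`SMITH`: for a two dimensional `2`-adic representation `r` with cyclotomic determinant and an
isotropic local condition at `2`, the Selmer space of the twist by `d` has dimension at most one
for almost all `d`.  All congruences are norm inequalities in `ℚ_[2]`.
-/

set_option linter.all false

noncomputable section

namespace Vale.Agent.P004S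

open NumberField Matrix Filter Topology
open Vale.Agent.P022 (Qb GQ IsConj Irred UnrAt IsFrob)
open Vale.Agent.P027M.S (Inert)
open Vale.Agent.P022D.W (dec)
open Vale.Agent.P022E.GW (Ov Fb Gn Ch)

/-! ### the statement -/

abbrev V : Type := Fin 2 → ℚ_[2]

abbrev Rp : Type := GQ →* GL (Fin 2) ℚ_[2]

/-- the matrix of `r g` -/
def mt (r : Rp) (g : GQ) : Matrix (Fin 2) (Fin 2) ℚ_[2] := r g

open Classical in
/-- the additive quadratic character of `ℚ(√d)` -/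
def nu (d : ℤ) (g : GQ) : ZMod 2 := if ∀ w : Qb, w ^ 2 = (d : Qb) → g w = w then 0 else 1

/-- the sign of `g` on `√d` -/
def sg (d : ℤ) (g : GQ) : ℚ_[2] := if nu d g = 0 then 1 else -1

/-- the action on the twist by `d` -/
def ac (r : Rp) (d : ℤ) (g : GQ) (v : V) : V := sg d g • (mt r g *ᵥ v)

/-- the determinant -/
def ep (r : Rp) (g : GQ) : ℚ_[2] := (mt r g).det

/-- the alternating form -/
def wp {R : Type} [CommRing R] (u v : Fin 2 → R) : R := u 0 * v 1 - u 1 * v 0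

/-- the cup product -/
def cp (r : Rp) (d : ℤ) (a b : GQ → V) (g h : GQ) : ℚ_[2] := wp (a g) (ac r d g (b h))

/-- continuous cocycle on `D` -/
def Z1 (r : Rp) (d : ℤ) (D : Set GQ) (c : GQ → V) : Prop :=
  ContinuousOn c D ∧ ∀ g ∈ D, ∀ h ∈ D, c (g * h) = c g + ac r d g (c h)

/-- coboundary on `D` -/
def B1 (r : Rp) (d : ℤ) (D : Set GQ) (c : GQ → V) : Prop :=
  ∃ n : V, ∀ g ∈ D, c g = ac r d g n - n

/-- coboundary on `D` of a continuous cochain with values in `ℚ₂(1)` -/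
def B2 (r : Rp) (D : Set GQ) (z : GQ → GQ → ℚ_[2]) : Prop :=
  ∃ β : GQ → ℚ_[2], ContinuousOn β D ∧
    ∀ g ∈ D, ∀ h ∈ D, z g h = β g + ep r g * β h - β (g * h)

/-- an isotropic local condition at `2` for all twists -/
structure Loc (r : Rp) where
  P : Ideal (𝓞 Qb)
  ov : Ov 2 P
  L : ℤ → Submodule ℚ_[2] (GQ → V)
  dep : ∀ d d' : ℤ, (∀ g ∈ dec P, nu d g = nu d' g) → L d = L d'
  coc : ∀ d, ∀ a ∈ L d, Z1 r d (dec P) a
  cob : ∀ (d : ℤ) (n : V), (fun g => ac r d g n - n) ∈ L d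
  iso : ∀ d, ∀ a ∈ L d, ∀ b ∈ L d, B2 r (dec P) (cp r d a b)

/-- Selmer cocycles: in `L` at `2`, trivial at all other primes -/
def Sel (r : Rp) (Λ : Loc r) (d : ℤ) (c : GQ → V) : Prop :=
  Z1 r d Set.univ c ∧ (∃ z ∈ Λ.L d, ∀ g ∈ dec Λ.P, c g = z g) ∧
    ∀ (l : ℕ) (P : Ideal (𝓞 Qb)), Ov l P → l ≠ 2 → B1 r d (dec P) c

/-- the Selmer space has dimension at least two -/
def Two (r : Rp) (Λ : Loc r) (d : ℤ) : Prop :=
  ∃ c c' : GQ → V, Sel r Λ d c ∧ Sel r Λ d c' ∧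
    ∀ a b : ℚ_[2], B1 r d Set.univ (a • c + b • c') → a = 0 ∧ b = 0

/-- the hypotheses on the representation -/
structure Rep (r : Rp) (S : Finset ℕ) : Prop where
  cont : ∀ i j, Continuous fun g => mt r g i j
  int : ∀ g i j, ‖mt r g i j‖ ≤ 1
  two : 2 ∈ S
  unr : ∀ l : ℕ, l.Prime → l ∉ S → UnrAt r l
  frob : ∀ l : ℕ, l.Prime → l ∉ S → ∀ g, IsFrob l g → ep r g = l ∧
    (mt r g).trace ≠ l + 1 ∧ (mt r g).trace ≠ -(l + 1)
  irr : Irred r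

open Classical in
/-- the nonzero integers with the property `B` have density zero -/
def Null (B : ℤ → Prop) : Prop :=
  Tendsto (fun X : ℕ => (((Finset.Icc (-(X : ℤ)) X).filter fun d => d ≠ 0 ∧ B d).card : ℝ) / X)
    atTop (𝓝 0)

/-- **The output of the block.** -/
def SMITH : Prop := ∀ (r : Rp) (S : Finset ℕ) (Λ : Loc r), Rep r S → Null (Two r Λ)

/-! ### places, levels, reduction -/

/-- a choice of a place, a Frobenius element and a tame generator for each prime -/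
structure Pl where
  P : ℕ → Ideal (𝓞 Qb)
  σ : ℕ → GQ
  τ : ℕ → GQ
  ov : ∀ l : ℕ, l.Prime → Ov l (P l)
  fb : ∀ l : ℕ, l.Prime → Fb l (P l) (σ l)
  gn : ∀ l : ℕ, l.Prime → l ≠ 2 → Gn l (P l) (τ l)

/-- the determinant is the cyclotomic character -/
def Cyc (r : Rp) : Prop := ∀ (g : GQ) (n a : ℕ) (z : Qb), z ^ 2 ^ n = 1 →
  ‖ep r g - a‖ ≤ (1 / 2) ^ n → g z = z ^ a

/-- `r g ≡ 1` modulo `2 ^ n` -/
def Tr (r : Rp) (n : ℕ) (g : GQ) : Prop := ∀ i j, ‖(mt r g - 1) i j‖ ≤ (1 / 2) ^ n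

/-- `a` is on `D` a torsion class modulo `2 ^ k` -/
def Tor (r : Rp) (d : ℤ) (k : ℕ) (D : Set GQ) (a : GQ → V) : Prop :=
  ∃ n : V, ∀ g ∈ D, ‖a g - (ac r d g n - n)‖ ≤ (1 / 2) ^ k

/-- Selmer cocycles modulo `2 ^ k` -/
structure SelK (r : Rp) (Λ : Loc r) (k : ℕ) (d : ℤ) (a : GQ → V) : Prop where
  cont : Continuous a
  int : ∀ g, ‖a g‖ ≤ 1
  coc : ∀ g h, ‖a (g * h) - a g - ac r d g (a h)‖ ≤ (1 / 2) ^ k
  two : ∃ z ∈ Λ.L d, ∀ g ∈ dec Λ.P, ‖a g - z g‖ ≤ (1 / 2) ^ k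
  inf : ∀ c, IsConj c → Tor r d k {1, c} a
  tor : ∀ (l : ℕ) (P : Ideal (𝓞 Qb)), Ov l P → l ≠ 2 → Tor r d k (dec P) a

abbrev W : Type := Fin 2 → ZMod 2

abbrev N : Type := W × W

open Classical in
/-- reduction modulo `2` of a `2`-adic integer -/
def rd (x : ℚ_[2]) : ZMod 2 := if ‖x‖ < 1 then 0 else 1

/-- reduction of a vector -/
def rv (v : V) : W := fun i => rd (v i)

/-- the residual representation -/
def rb (r : Rp) (g : GQ) : Matrix (Fin 2) (Fin 2) (ZMod 2) := (mt r g).map rd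

/-- `(r g - 1) / 2` modulo `2` -/
def Am (r : Rp) (g : GQ) : Matrix (Fin 2) (Fin 2) (ZMod 2) :=
  (mt r g - 1).map fun x => rd (x / 2)

/-- a matrix acting on pairs -/
def dg (A : Matrix (Fin 2) (Fin 2) (ZMod 2)) : N →ₗ[ZMod 2] N := A.toLin'.prodMap A.toLin'

/-- `f` vanishes on the inertia groups at the primes with the property `Q` -/
def Un {M : Type} [Zero M] (Q : ℕ → Prop) (f : GQ → M) : Prop :=
  ∀ (l : ℕ) (P : Ideal (𝓞 Qb)), Ov l P → Q l → ∀ g, Inert P g → f g = 0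

/-- the inertia groups outside `T` are in `H` -/
def UnS (T : Finset ℕ) (H : Subgroup GQ) : Prop :=
  ∀ (l : ℕ) (P : Ideal (𝓞 Qb)), Ov l P → l ∉ T → ∀ g, Inert P g → g ∈ H

/-- residual cocycles -/
def Zb (r : Rp) (φ : GQ → W) : Prop :=
  IsLocallyConstant φ ∧ ∀ g h, φ (g * h) = φ g + rb r g *ᵥ φ h

/-- residual cocycles, unramified outside `S` and `M`, torsion for the twist by `d` at the primes
of `M` outside `S` -/
def Pre (r : Rp) (S : Finset ℕ) (M d : ℤ) (φ : GQ → W) : Prop :=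
  Zb r φ ∧ Un (fun l => l ∉ S ∧ ¬ (l : ℤ) ∣ M) φ ∧
    ∀ (l : ℕ) (P : Ideal (𝓞 Qb)), Ov l P → l ∉ S → (l : ℤ) ∣ M →
      ∃ n : V, ∀ g ∈ dec P, ‖ac r d g n - n‖ ≤ 1 ∧ rv (ac r d g n - n) = φ g

/-- `φ` lifts to the level `k` -/
def Lift (r : Rp) (Λ : Loc r) (k : ℕ) (d : ℤ) (φ : GQ → W) : Prop :=
  ∃ a, SelK r Λ k d a ∧ ∀ g, rv (a g) = φ g

/-- cocycles with one prescribed ramification outside `S` exist -/
def Ex (r : Rp) (S : Finset ℕ) : Prop :=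
  ∀ (q : ℕ) (P : Ideal (𝓞 Qb)) (τ : GQ) (μ : W), Ov q P → q ∉ S → Gn q P τ →
    (∀ g ∈ dec P, rb r g *ᵥ μ = μ) →
    ∃ Θ, Zb r Θ ∧ Un (fun l => l ∉ S ∧ l ≠ q) Θ ∧ Θ τ = μ

/-- the standing hypotheses of the inner rows -/
structure Dat (r : Rp) (S : Finset ℕ) : Prop where
  rep : Rep r S
  cyc : Cyc r
  ex : Ex r S

/-! ### rows A: Galois basics -/

def PL : Prop := Nonempty Pl

def CYC : Prop := ∀ (r : Rp) (S : Finset ℕ), Rep r S → Cyc r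

def EXI : Prop := ∀ (r : Rp) (S : Finset ℕ), Rep r S →
  ∃ S' : Finset ℕ, ∀ S'' : Finset ℕ, S' ⊆ S'' → Ex r S''

/-- the tame generator; the Frobenius element and inertia generate the decomposition group -/
def LT : Prop := ∀ (l : ℕ) (P : Ideal (𝓞 Qb)), Ov l P →
  (∀ (τ : GQ) (k : ℕ) (i : GQ), l ≠ 2 → Gn l P τ → Inert P i →
    ∀ U : Subgroup GQ, IsOpen (U : Set GQ) → ∃ j : ℕ,
      ∀ (A : Type) [AddCommGroup A] (f : GQ → A), (∀ a : A, 2 ^ k • a = 0) →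
        (∀ g, Inert P g → g ∈ U → f g = 0) →
        (∀ g h, Inert P g → Inert P h → f (g * h) = f g + f h) → f i = j • f τ) ∧
  ∀ (σ g : GQ), Fb l P σ → g ∈ dec P → ∀ U : Subgroup GQ, IsOpen (U : Set GQ) →
    ∃ (j : ℕ) (i : GQ), Inert P i ∧ (σ ^ j * i)⁻¹ * g ∈ U

/-- the number of quadratic characters unramified outside `T` -/
def CNT : Prop := ∀ H : Subgroup GQ, IsOpen (H : Set GQ) → ∃ C : ℕ, ∀ T : Finset ℕ,
  {ξ : GQ → ZMod 2 | Ch H ξ ∧ (∀ g ∉ H, ξ g = 0) ∧ Un (· ∉ T) ξ}.Finite ∧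
  {ξ : GQ → ZMod 2 | Ch H ξ ∧ (∀ g ∉ H, ξ g = 0) ∧ Un (· ∉ T) ξ}.ncard ≤ C ^ (T.card + 1)

/-- local finiteness -/
def LOCF : Prop := ∀ (H : Subgroup GQ) (l : ℕ) (P : Ideal (𝓞 Qb)), IsOpen (H : Set GQ) → Ov l P →
  {ξ : GQ → ZMod 2 | Ch (H ⊓ dec P) ξ ∧ ∀ g ∉ H ⊓ dec P, ξ g = 0}.Finite

/-- from characters to cocycles -/
def CNZ : Prop := ∀ (M : Type) [AddCommGroup M] [Module (ZMod 2) M] [Finite M]
  (ρ : GQ → M →ₗ[ZMod 2] M) (H D : Subgroup GQ) (Q : Set GQ) (c : ℕ), H.index ≠ 0 →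
  (∀ g ∈ H, ∀ x, ρ g x = x) →
  {ξ : GQ → ZMod 2 | Ch (H ⊓ D) ξ ∧ (∀ g ∉ H ⊓ D, ξ g = 0) ∧ ∀ g ∈ Q, ξ g = 0}.Finite →
  {ξ : GQ → ZMod 2 | Ch (H ⊓ D) ξ ∧ (∀ g ∉ H ⊓ D, ξ g = 0) ∧ ∀ g ∈ Q, ξ g = 0}.ncard ≤ c →
  {w : GQ → M | IsLocallyConstant (fun g : D => w g) ∧
    (∀ g ∈ D, ∀ h ∈ D, w (g * h) = w g + ρ g (w h)) ∧ (∀ g ∉ D, w g = 0) ∧
      ∀ g ∈ Q, w g = 0}.Finite ∧
  {w : GQ → M | IsLocallyConstant (fun g : D => w g) ∧
    (∀ g ∈ D, ∀ h ∈ D, w (g * h) = w g + ρ g (w h)) ∧ (∀ g ∉ D, w g = 0) ∧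
      ∀ g ∈ Q, w g = 0}.ncard ≤ Nat.card M ^ H.index * (c + 1) ^ Nat.card M

/-- **reciprocity** for a cup product, one factor ramified at each tame place -/
def REC : Prop := ∀ (pl : Pl) (M : Type) [AddCommGroup M] [Module (ZMod 2) M] [Finite M]
  (ρ : GQ →* M →ₗ[ZMod 2] M) (B : M →ₗ[ZMod 2] M →ₗ[ZMod 2] ZMod 2) (S T T' : Finset ℕ)
  (Θ κ : GQ → M), IsLocallyConstant ρ → (∀ g x y, B (ρ g x) (ρ g y) = B x y) → 2 ∈ S →
  (∀ (l : ℕ) (P : Ideal (𝓞 Qb)), Ov l P → l ∉ S → ∀ g, Inert P g → ρ g = 1) →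
  IsLocallyConstant Θ → (∀ g h, Θ (g * h) = Θ g + ρ g (Θ h)) →
  IsLocallyConstant κ → (∀ g h, κ (g * h) = κ g + ρ g (κ h)) →
  (∀ q ∈ T, q.Prime ∧ q ∉ S ∧ q ∉ T') → (∀ q ∈ T', q.Prime ∧ q ∉ S) →
  Un (fun l => l ∉ S ∧ l ∉ T) Θ → Un (fun l => l ∉ S ∧ l ∉ T') κ →
  (∀ l ∈ S, l.Prime → ∀ g ∈ dec (pl.P l), Θ g = 0) → (∃ c, IsConj c ∧ Θ c = 0) →
  ∑ q ∈ T, B (Θ (pl.τ q)) (κ (pl.σ q)) + ∑ q ∈ T', B (Θ (pl.σ q)) (κ (pl.τ q)) = 0

/-- integral two cocycles modulo `2 ^ k` with values in `ℤ₂(1)` -/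
def Z2k (r : Rp) (k : ℕ) (z : GQ → GQ → ℚ_[2]) : Prop :=
  Continuous (fun x : GQ × GQ => z x.1 x.2) ∧ (∀ g h, ‖z g h‖ ≤ 1) ∧
    ∀ g h j, ‖ep r g * z h j - z (g * h) j + z g (h * j) - z g h‖ ≤ (1 / 2) ^ k

/-- trivial on `D` modulo `2 ^ k`, denominators allowed -/
def B2k (r : Rp) (k : ℕ) (D : Set GQ) (z : GQ → GQ → ℚ_[2]) : Prop :=
  ∃ β : GQ → ℚ_[2], ContinuousOn β D ∧
    ∀ g ∈ D, ∀ h ∈ D, ‖z g h - (β g + ep r g * β h - β (g * h))‖ ≤ (1 / 2) ^ k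

/-- **reciprocity modulo `2 ^ (k + 1)`** with one exceptional prime -/
def ONEK : Prop := ∀ (r : Rp) (S : Finset ℕ), Rep r S → Cyc r →
  ∀ (k p : ℕ) (z : GQ → GQ → ℚ_[2]) (P : Ideal (𝓞 Qb)) (τ φ : GQ) (u ψ : GQ → ZMod 2),
  Z2k r (k + 1) z → Ov p P → p ≠ 2 → Gn p P τ → Fb p P φ → Ch (dec P) u → Ch (dec P) ψ →
  (∀ g, Inert P g → u g = 0) →
  B2k r (k + 1) (dec P) (fun g h => z g h - 2 ^ k * ((u g * ψ h).val : ℚ_[2])) →
  (∀ l : ℕ, l.Prime → l ≠ p → ∃ P', Ov l P' ∧ B2k r (k + 1) (dec P') z) →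
  (∃ c, IsConj c ∧ B2k r (k + 1) {1, c} z) → u φ * ψ τ = 0

/-- unramified implies torsion -/
def UT : Prop := ∀ (r : Rp) (S : Finset ℕ), Rep r S →
  ∀ (k l : ℕ) (d : ℤ) (P : Ideal (𝓞 Qb)) (a : GQ → V), d ≠ 0 → Ov l P → l ∉ S → ¬ (l : ℤ) ∣ d →
  ContinuousOn a (dec P) → (∀ g ∈ dec P, ‖a g‖ ≤ 1) →
  (∀ g ∈ dec P, ∀ h ∈ dec P, ‖a (g * h) - a g - ac r d g (a h)‖ ≤ (1 / 2) ^ k) →
  (∀ g, Inert P g → ‖a g‖ ≤ (1 / 2) ^ k) → Tor r d k (dec P) a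

/-! ### rows B: primes -/

/-- the sign -/
def sgn (a : ZMod 2) : ℝ := if a = 0 then 1 else -1

open Classical in
/-- the sum of a quadratic character of `H` over the primes of degree one above `x` -/
def chs (pl : Pl) (H : Subgroup GQ) (ξ : GQ → ZMod 2) (x : ℕ) : ℝ :=
  ∑ᶠ c : GQ ⧸ H, if pl.σ x • c = c then sgn (ξ (c.out⁻¹ * pl.σ x * c.out)) else 0

open Classical in
/-- equidistribution of the primes in `X` for the fields of degree at most `n` whose ramified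
primes have a product at most `exp L` -/
def Equi (pl : Pl) (X : Finset ℕ) (n : ℕ) (L κ : ℝ) : Prop :=
  ∀ (H : Subgroup GQ) (ξ : GQ → ZMod 2) (T : Finset ℕ), IsOpen (H : Set GQ) → H.index ≤ n →
    Ch H ξ → ∑ l ∈ T, Real.log l ≤ L → UnS T H → Un (· ∉ T) ξ →
    |∑ x ∈ X, chs pl H ξ x - (if ∀ g ∈ H, ξ g = 0 then (X.card : ℝ) else 0)| ≤ κ * X.card

/-- the primes of an interval -/
def pr (t t' : ℕ) : Finset ℕ := (Finset.Ioc t t').filter Nat.Prime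

/-- prime ideal theorem, totally complex fields -/
def PSI : Prop := ∃ C δ : ℝ, 0 < δ ∧ ∀ (K : Type) [Field K] [NumberField K] [IsTotallyComplex K]
  (t t' : ℕ), 2 ≤ t → t ≤ t' → t' ≤ 2 * t →
    |∑ p ∈ pr t t', (P016Z.aK K p : ℝ) - ∫ u in (t : ℝ)..t', 1 / Real.log u| ≤
      C * P016Z.size K * (t : ℝ) ^ (1 - δ)

/-- prime number theorem -/
def PSIQ : Prop := ∃ C δ : ℝ, 0 < δ ∧ ∀ t t' : ℕ, 2 ≤ t → t ≤ t' → t' ≤ 2 * t →
    |((pr t t').card : ℝ) - ∫ u in (t : ℝ)..t', 1 / Real.log u| ≤ C * (t : ℝ) ^ (1 - δ)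

/-- the field of an open subgroup without complex conjugation: size and primes of degree one -/
def FLD : Prop := ∃ C : ℝ, ∀ (n : ℕ) (H : Subgroup GQ) (T : Finset ℕ), IsOpen (H : Set GQ) →
  H.index ≤ n → UnS T H → (∀ c, IsConj c → c ∉ H) →
  ∃ (K : Type) (_ : Field K) (_ : NumberField K) (_ : IsTotallyComplex K),
    P016Z.size K ≤ C * n ^ 2 * (1 + ∑ l ∈ T, Real.log l) ∧
    ∀ (p : ℕ) (P : Ideal (𝓞 Qb)) (σ : GQ), Ov p P → p ∉ T → Fb p P σ →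
      P016Z.aK K p = Nat.card {c : GQ ⧸ H // σ • c = c}

/-- quadratic characters of all number fields -/
def PNT : Prop := ∀ pl : Pl, ∃ (C δ : ℝ) (t₀ : ℕ), 0 < δ ∧ ∀ (n t t' : ℕ) (L : ℝ), t₀ ≤ t →
  (t : ℝ) + t / Real.log t ≤ t' → t' ≤ 2 * t → 1 ≤ L →
    Equi pl (pr t t') n L (C * n ^ 3 * L * (t : ℝ) ^ (-δ)) ∧
      1 ≤ C * (t : ℝ) ^ (-δ) * (pr t t').card

def REAL : Prop := PSI → PSIQ → FLD → PNT

/-- a product box of integers `m ∏ y i` -/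
structure Box where
  s : ℕ
  m : ℤ
  X : Fin s → Finset ℕ
  L : ℝ

/-- the points of a box -/
def Box.pts (B : Box) : Finset (Fin B.s → ℕ) := Fintype.piFinset B.X

/-- the integer of a point -/
def dd {ι : Type} [Fintype ι] (m : ℤ) (y : ι → ℕ) : ℤ := m * ∏ i, (y i : ℤ)

/-- disjoint sets of primes, prime to `S` and `m`, everything at most `exp L` -/
structure Fam {ι : Type} (S : Finset ℕ) (m : ℤ) (X : ι → Finset ℕ) (L : ℝ) : Prop where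
  sq : Squarefree m
  pm : ∀ i, ∀ x ∈ X i, x.Prime ∧ x ∉ S ∧ ¬ (x : ℤ) ∣ m ∧ Real.log x ≤ L
  dj : ∀ i j, ∀ x ∈ X i, x ∈ X j → i = j
  lm : Real.log |(m : ℝ)| ≤ L
  lS : ∑ l ∈ S, Real.log l ≤ L

/-- a typical box -/
structure Nice (pl : Pl) (S : Finset ℕ) (A : ℕ) (B : Box) : Prop where
  fam : Fam S B.m B.X B.L
  len : A * (B.m.natAbs.primeFactors.card + 1) ≤ B.s
  big : ∀ i, A ^ B.s ≤ (B.X i).card
  equ : ∀ i, Equi pl (B.X i) (A ^ B.s) (A * (B.s + 1) * B.L) ((1 / A) ^ B.s)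

open Classical in
/-- the property has proportion at most `θ + ε` in typical boxes -/
def Few (pl : Pl) (S : Finset ℕ) (θ : ℝ) (E : (B : Box) → (Fin B.s → ℕ) → Prop) : Prop :=
  ∀ ε : ℝ, 0 < ε → ∃ A : ℕ, ∀ B : Box, Nice pl S A B →
    ((B.pts.filter (E B)).card : ℝ) ≤ (θ + ε) * B.pts.card

/-- boxes cover almost all integers -/
def BOX : Prop := PNT → ∀ (pl : Pl) (S : Finset ℕ) (Q : ℤ → Prop),
  (∀ d e : ℤ, d ≠ 0 → e ≠ 0 → Q (d * e ^ 2) → Q d) →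
  Few pl S 0 (fun B y => Q (dd B.m y)) → Null Q

open Classical in
/-- Frobenius elements in a given class of order a power of two -/
def OCC : Prop := ∀ (pl : Pl) (X T : Finset ℕ) (n j : ℕ) (L κ : ℝ) (U : Subgroup GQ) (g : GQ),
  Equi pl X n L κ → IsOpen (U : Set GQ) → U.Normal → U.index ≤ n → UnS T U →
  ∑ l ∈ T, Real.log l ≤ L → g ^ 2 ^ j ∈ U →
  (1 / (2 * n) - κ) * X.card ≤
    ((X.filter fun x => ∃ (h : GQ) (i : ℕ), Odd i ∧ (h * g ^ i * h⁻¹)⁻¹ * pl.σ x ∈ U).card : ℝ)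

/-- every class of order a power of two modulo `U` occurs among the coordinates -/
def Occ (pl : Pl) (U : Subgroup GQ) {s : ℕ} (y : Fin s → ℕ) : Prop :=
  ∀ (g : GQ) (j : ℕ), g ^ 2 ^ j ∈ U →
    ∃ (t : Fin s) (h : GQ) (i : ℕ), Odd i ∧ (h * g ^ i * h⁻¹)⁻¹ * pl.σ (y t) ∈ U

def OCP : Prop := ∀ (pl : Pl) (S : Finset ℕ) (U : Subgroup GQ), IsOpen (U : Set GQ) → U.Normal →
  UnS S U → Few pl S 0 fun B y => ¬ Occ pl U y

/-- a quadratic character of the field of `r mod 2`, ramified at a prime of `m` and at no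
coordinate, kills all Frobenius elements of the coordinates which are trivial modulo `4` -/
def Ub (r : Rp) (S : Finset ℕ) (pl : Pl) (m : ℤ) {s : ℕ} (y : Fin s → ℕ) : Prop :=
  ∃ (H : Subgroup GQ) (ξ : GQ → ZMod 2), (∀ g, g ∈ H ↔ Tr r 1 g) ∧ Ch H ξ ∧
    Un (fun l => l ∉ S ∧ ¬ (l : ℤ) ∣ m) ξ ∧ ¬ Un (· ∉ S) ξ ∧
    ∀ (t : Fin s) (h : GQ), Tr r 2 (pl.σ (y t)) → ξ (h * pl.σ (y t) * h⁻¹) = 0

def UU : Prop := ∀ (r : Rp) (S : Finset ℕ) (pl : Pl), Rep r S →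
  Few pl S 0 fun B y => Ub r S pl B.m y

/-! ### rows C: first moments -/

/-- the span of the differences of the conjugates of the patterns in `E` -/
def Hs (r : Rp) (E : Set N) : Submodule (ZMod 2) N :=
  Submodule.span (ZMod 2) {x | ∃ g : GQ, ∃ e ∈ E, ∃ e' ∈ E, x = dg (rb r g) e - e'}

/-- the image of `g - 1` -/
def Im (r : Rp) (g : GQ) : Submodule (ZMod 2) N := LinearMap.range (dg (rb r g) - LinearMap.id)

/-- the size of the image of `H` in the coinvariants of `g` -/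
def hq (r : Rp) (H : Submodule (ZMod 2) N) (g : GQ) : ℕ := Nat.card (H.map (Im r g).mkQ)

/-- the primes of `M` outside `S` -/
def pf (S : Finset ℕ) (M : ℤ) : Finset ℕ := M.natAbs.primeFactors \ S

/-- pairs of residual Selmer cocycles -/
def Pre2 (r : Rp) (S : Finset ℕ) (d : ℤ) (Φ : GQ → N) : Prop :=
  Pre r S d d (fun g => (Φ g).1) ∧ Pre r S d d fun g => (Φ g).2

/-- **first moment, fixed patterns** -/
def FM : Prop := ∀ (r : Rp) (S : Finset ℕ) (pl : Pl), Dat r S → ∃ (C : ℝ) (A : ℕ),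
  ∀ (J : Type) [Fintype J] [DecidableEq J] (M : ℤ) (X : J → Finset ℕ) (L κ : ℝ) (e : ℕ → N)
    (f : J → N), Fintype.card J ≤ 5 → Fam S M X L → (∀ j, Equi pl (X j) A (2 * L) κ) → 0 ≤ κ →
    {z : (J → ℕ) × (GQ → N) | z.1 ∈ Fintype.piFinset X ∧ Pre2 r S (dd M z.1) z.2 ∧
      (∀ q ∈ pf S M, z.2 (pl.τ q) = e q) ∧ ∀ j, z.2 (pl.τ (z.1 j)) = f j}.Finite ∧
    ({z : (J → ℕ) × (GQ → N) | z.1 ∈ Fintype.piFinset X ∧ Pre2 r S (dd M z.1) z.2 ∧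
      (∀ q ∈ pf S M, z.2 (pl.τ q) = e q) ∧ ∀ j, z.2 (pl.τ (z.1 j)) = f j}.ncard : ℝ) ≤
      C * (∏ j, ((X j).card : ℝ)) *
        ((∏ q ∈ pf S M, (hq r (Hs r (Set.range f)) (pl.σ q) : ℝ))⁻¹ + κ)

/-- `H` and the coset `e₀ + H` are stable -/
def Stb (r : Rp) (H : Submodule (ZMod 2) N) (e₀ : N) : Prop :=
  ∀ g, dg (rb r g) e₀ - e₀ ∈ H ∧ ∀ x ∈ H, dg (rb r g) x ∈ H

/-- the pattern `e` is compatible with the value `w` modulo `H` at the Frobenius element `g` -/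
def Cmp (r : Rp) (H : Submodule (ZMod 2) N) (e₀ w : N) (g : GQ) (e : N) : Prop :=
  e - e₀ ∈ H ∧ ∃ n n' : V, ‖n‖ ≤ 1 ∧ ‖n'‖ ≤ 1 ∧ (rv n, rv n') = e ∧
    ‖mt r g *ᵥ n - n‖ ≤ 1 / 2 ∧ ‖mt r g *ᵥ n' - n'‖ ≤ 1 / 2 ∧
    (rv ((1 / 2 : ℚ_[2]) • (mt r g *ᵥ n - n)), rv ((1 / 2 : ℚ_[2]) • (mt r g *ᵥ n' - n'))) - w ∈
      H ⊔ Im r g

/-- a weight which bounds the number of compatible patterns -/
structure Wt (r : Rp) (γ : Submodule (ZMod 2) N → GQ → ℝ) : Prop where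
  le : ∀ H e₀ w g, Stb r H e₀ → ({e | Cmp r H e₀ w g e}.ncard : ℝ) ≤ γ H g * hq r H g
  lo : ∀ H g, 1 / 4 ≤ γ H g
  hi : ∀ H g, γ H g ≤ 4
  one : ∀ H g, Tr r 2 g → γ H g = 1

/-- the pair `Φ` at the point `y` has the class `(H, e₀)` -/
structure Cl (r : Rp) (S : Finset ℕ) (pl : Pl) (m : ℤ) {s : ℕ} (y : Fin s → ℕ)
    (H : Submodule (ZMod 2) N) (e₀ : N) (Φ : GQ → N) : Prop where
  pre : Pre2 r S (dd m y) Φ
  gen : Hs r (Set.range fun i => Φ (pl.τ (y i))) = H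
  mem : ∀ q ∈ pf S (dd m y), Φ (pl.τ q) - e₀ ∈ H

/-- the weight of an integer -/
def wt (S : Finset ℕ) (pl : Pl) (γ : GQ → ℝ) (d : ℤ) : ℝ := ∏ q ∈ pf S d, γ (pl.σ q)

/-- cocycles modulo `H` which are unramified outside `S` -/
def Wb (r : Rp) (S : Finset ℕ) (H : Submodule (ZMod 2) N) (w : GQ → N) : Prop :=
  IsLocallyConstant (fun g => H.mkQ (w g)) ∧
    (∀ g h, w (g * h) - w g - dg (rb r g) (w h) ∈ H) ∧ Un (· ∉ S) fun g => H.mkQ (w g)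

open Classical in
/-- the mass of the event `E` in a block of coordinates -/
def mass (r : Rp) (pl : Pl) (H : Submodule (ZMod 2) N) (e₀ : N) (γ : GQ → ℝ) (w : GQ → N)
    {ι : Type} [Fintype ι] [DecidableEq ι] (X : ι → Finset ℕ) (E : (ι → ℕ) → (ι → N) → Prop) : ℝ :=
  ∑ y ∈ Fintype.piFinset X, ∑ e : ι → N, if E y e then
    ∏ i, (if Cmp r H e₀ (w (pl.σ (y i))) (pl.σ (y i)) (e i) then
      (γ (pl.σ (y i)) * hq r H (pl.σ (y i)))⁻¹ else 0) else 0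

/-- **first moment, blocks**: the event `E` in each of `n` disjoint blocks in the upper half -/
def MAS : Prop := ∀ (r : Rp) (S : Finset ℕ) (pl : Pl) (γ : Submodule (ZMod 2) N → GQ → ℝ),
  Dat r S → Wt r γ → ∃ C : ℝ, ∀ ε : ℝ, 0 < ε → ∃ A : ℕ, ∀ B : Box, Nice pl S A B →
  ∀ (H : Submodule (ZMod 2) N) (e₀ : N) (Γ θ : ℝ) (ι : Type) [Fintype ι] [DecidableEq ι] (n : ℕ)
    (β : Fin n × ι → Fin B.s) (E : (ι → ℕ) → (ι → N) → Prop), Function.Injective β →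
    (∀ z, B.s ≤ 2 * (β z : ℕ)) → 0 ≤ θ → θ ≤ 1 → 0 ≤ Γ →
    (∀ w, Wb r S H w → ∀ j, mass r pl H e₀ (γ H) w (fun i => B.X (β (j, i))) E ≤
      θ * ∏ i, ((B.X (β (j, i))).card : ℝ)) →
    {z : (Fin B.s → ℕ) × (GQ → N) | z.1 ∈ B.pts ∧ Cl r S pl B.m z.1 H e₀ z.2 ∧
      wt S pl (γ H) (dd B.m z.1) ≤ Γ ∧
      ∀ j, E (fun i => z.1 (β (j, i))) fun i => z.2 (pl.τ (z.1 (β (j, i))))}.Finite ∧
    ({z : (Fin B.s → ℕ) × (GQ → N) | z.1 ∈ B.pts ∧ Cl r S pl B.m z.1 H e₀ z.2 ∧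
      wt S pl (γ H) (dd B.m z.1) ≤ Γ ∧
      ∀ j, E (fun i => z.1 (β (j, i))) fun i => z.2 (pl.τ (z.1 (β (j, i))))}.ncard : ℝ) ≤
      (C * Γ * θ ^ n + ε * (1 + Γ)) * B.pts.card

/-- without `Ub` every pair has a class -/
def CLS : Prop := ∀ (r : Rp) (S : Finset ℕ) (pl : Pl), Rep r S → ∀ (m : ℤ) (s : ℕ)
  (X : Fin s → Finset ℕ) (L : ℝ) (y : Fin s → ℕ) (Φ : GQ → N) (i : Fin s), Fam S m X L →
  y ∈ Fintype.piFinset X → ¬ Ub r S pl m y → Pre2 r S (dd m y) Φ →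
  Cl r S pl m y (Hs r (Set.range fun i => Φ (pl.τ (y i)))) (Φ (pl.τ (y i))) Φ

/-- `H` is stable under the matrices `(r g - 1) / 2` -/
def Stab (r : Rp) (H : Submodule (ZMod 2) N) : Prop :=
  ∀ g, Tr r 1 g → ∀ x ∈ H, dg (Am r g) x ∈ H

/-- `H` has two patterns which pair non trivially -/
def Rich (r : Rp) (H : Submodule (ZMod 2) N) : Prop :=
  ∃ (e e' : W) (g : GQ), (e, 0) ∈ H ∧ (0, e') ∈ H ∧ wp (rb r g *ᵥ e) e' ≠ 0

/-- classes with weight one which are not stable are rare -/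
def THIN : Prop := ∀ (r : Rp) (S : Finset ℕ) (pl : Pl) (γ : Submodule (ZMod 2) N → GQ → ℝ),
  Dat r S → Wt r γ → Few pl S 0 fun B y => ∃ H e₀ Φ, Cl r S pl B.m y H e₀ Φ ∧
    (∀ g, γ H g = 1) ∧ ¬ Stab r H

/-! ### rows D: the step from the level `k` to the level `k + 1` -/

open Classical in
/-- the points of a block at which both classes have the standard patterns and lift -/
def Yk (r : Rp) (Λ : Loc r) (pl : Pl) {ι : Type} [Fintype ι] [DecidableEq ι] (b p : ι) (m : ℤ)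
    (X : ι → Finset ℕ) (φ ψ : ℕ → GQ → W) (Q : ℕ → ℕ → Prop) (e e' : W) (k : ℕ) :
    Finset (ι → ℕ) :=
  (Fintype.piFinset X).filter fun y => Q (y b) (y p) ∧ Lift r Λ k (dd m y) (φ (y b)) ∧
    Lift r Λ k (dd m y) (ψ (y p)) ∧ ∀ i, φ (y b) (pl.τ (y i)) = (if i = b then e else 0) ∧
      ψ (y p) (pl.τ (y i)) = if i = p then e' else 0

open Classical in
/-- the primes of `X` which split modulo `2 ^ n` and have given symbols at the primes of `T` -/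
def piece (r : Rp) (pl : Pl) (n : ℕ) (T X : Finset ℕ) (s : ℕ → ZMod 2) : Finset ℕ :=
  X.filter fun x => Tr r n (pl.σ x) ∧ ∀ l ∈ T, l.Prime → nu l (pl.σ x) = s l

/-- quadratic reciprocity -/
def QR : Prop := ∀ (pl : Pl) (x x' l : ℕ) (P : Ideal (𝓞 Qb)), x.Prime → x'.Prime → x % 8 = 1 →
  x' % 8 = 1 → Ov l P → l ≠ x → l ≠ x' → nu l (pl.σ x) = nu l (pl.σ x') →
  ∀ g ∈ dec P, nu x g = nu x' g

/-- **halving in a piece** -/
def LEV : Prop := ∀ (r : Rp) (S : Finset ℕ) (Λ : Loc r) (pl : Pl), Rep r S → Cyc r →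
  ∀ (k R : ℕ) (ε : ℝ), 1 ≤ k → 0 < ε → ∃ (C : ℝ) (A : ℕ),
  ∀ (ι : Type) [Fintype ι] [DecidableEq ι] (b p : ι) (m : ℤ) (X X' : ι → Finset ℕ) (L κ : ℝ)
    (s : ι → ℕ → ZMod 2) (φ ψ : ℕ → GQ → W) (Q : ℕ → ℕ → Prop) (e e' : W) (g : GQ), b ≠ p →
    Fintype.card ι = k + 2 → Fam S m X' L →
    (∀ i, X i = piece r pl (k + 2) (S ∪ m.natAbs.primeFactors) (X' i) (s i)) →
    (∀ y ∈ Fintype.piFinset X, {F | Pre r S m (dd m y) F}.Finite ∧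
      {F | Pre r S m (dd m y) F}.ncard ≤ R) →
    Equi pl (X' p) A (A * L) κ → (∀ i, 1 ≤ κ * (X' i).card) → wp (rb r g *ᵥ e) e' ≠ 0 →
    ((Yk r Λ pl b p m X φ ψ Q e e' (k + 1)).card : ℝ) ≤
      (Yk r Λ pl b p m X φ ψ Q e e' k).card / 2 + ε * ∏ i, ((X i).card : ℝ) +
        C * κ * ∏ i, ((X' i).card : ℝ)

/-- the pairs of the class `(H, 0)` and weight at most `Γ` which lift to the level `k`, at points
with at most `R` residual cocycles -/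
def Mk (r : Rp) (S : Finset ℕ) (Λ : Loc r) (pl : Pl) (γ : GQ → ℝ) (Γ : ℝ)
    (H : Submodule (ZMod 2) N) (B : Box) (k R : ℕ) : Set ((Fin B.s → ℕ) × (GQ → N)) :=
  {z | z.1 ∈ B.pts ∧ Cl r S pl B.m z.1 H 0 z.2 ∧ wt S pl γ (dd B.m z.1) ≤ Γ ∧
    Lift r Λ k (dd B.m z.1) (fun g => (z.2 g).1) ∧ Lift r Λ k (dd B.m z.1) (fun g => (z.2 g).2) ∧
    {F | Pre r S (dd B.m z.1) (dd B.m z.1) F}.ncard ≤ R}

/-- **halving in a box** -/
def HALF : Prop := ∀ (r : Rp) (S : Finset ℕ) (Λ : Loc r) (pl : Pl)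
  (γ : Submodule (ZMod 2) N → GQ → ℝ), Dat r S → Wt r γ →
  ∀ (H : Submodule (ZMod 2) N) (Γ ε : ℝ) (k R : ℕ), Rich r H → 1 ≤ k → 0 < ε →
  ∃ R' A : ℕ, ∀ B : Box, Nice pl S A B →
    ((Mk r S Λ pl (γ H) Γ H B (k + 1) R).ncard : ℝ) ≤
      (Mk r S Λ pl (γ H) Γ H B k R').ncard / 2 + ε * B.pts.card

/-- **rich pairs which lift to all levels are rare** -/
def RARE : Prop := ∀ (r : Rp) (S : Finset ℕ) (Λ : Loc r) (pl : Pl)
  (γ : Submodule (ZMod 2) N → GQ → ℝ), Dat r S → Wt r γ →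
  ∀ (H : Submodule (ZMod 2) N) (Γ : ℝ) (R : ℕ), Rich r H →
  Few pl S 0 fun B y => ∃ Φ, ∀ k, (y, Φ) ∈ Mk r S Λ pl (γ H) Γ H B k R

/-! ### rows E: generic pairs, assembly -/

/-- a pair which is either not stable or rich and liftable to all levels -/
def Gen (r : Rp) (S : Finset ℕ) (Λ : Loc r) (pl : Pl) (γ : Submodule (ZMod 2) N → GQ → ℝ) (m : ℤ)
    {s : ℕ} (y : Fin s → ℕ) : Prop :=
  ∃ H e₀ Φ, Cl r S pl m y H e₀ Φ ∧ (((∀ g, γ H g = 1) ∧ ¬ Stab r H) ∨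
    (Rich r H ∧ e₀ = 0 ∧ ∀ k, Lift r Λ k (dd m y) (fun g => (Φ g).1) ∧
      Lift r Λ k (dd m y) fun g => (Φ g).2))

/-- **one lattice**: generic pairs are rare at the points of bounded weight -/
def LAT : Prop := ∀ (r : Rp) (S : Finset ℕ) (Λ : Loc r) (pl : Pl)
  (γ : Submodule (ZMod 2) N → GQ → ℝ), Dat r S → Wt r γ → ∀ Γ : ℝ,
  Few pl S 0 fun B y => (∀ H, wt S pl (γ H) (dd B.m y) ≤ Γ) ∧ Gen r S Λ pl γ B.m y

/-- integral Selmer cocycles are Selmer cocycles at all levels -/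
def SL : Prop := ∀ (r : Rp) (S : Finset ℕ) (Λ : Loc r) (d : ℤ) (c : GQ → V) (k : ℕ), Rep r S →
  Sel r Λ d c → (∀ g, ‖c g‖ ≤ 1) → SelK r Λ k d c

/-- reductions of Selmer cocycles -/
def LP : Prop := ∀ (r : Rp) (S : Finset ℕ) (Λ : Loc r) (d : ℤ) (φ : GQ → W) (k : ℕ), Rep r S →
  d ≠ 0 → 1 ≤ k → Lift r Λ k d φ → Pre r S d d φ

/-- the combinations of `c`, `c'` which are integral up to a coboundary -/
def Lat (r : Rp) (d : ℤ) (c c' : GQ → V) (a b : ℚ_[2]) : Prop :=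
  ∃ n : V, ∀ g, ‖a • c g + b • c' g - (ac r d g n - n)‖ ≤ 1

/-- they form a lattice -/
def SAT : Prop := ∀ (r : Rp) (S : Finset ℕ) (d : ℤ) (c c' : GQ → V), Rep r S → Continuous c →
  Continuous c' → (∀ a b : ℚ_[2], B1 r d Set.univ (a • c + b • c') → a = 0 ∧ b = 0) →
  ∃ a b a' b' : ℚ_[2], a * b' - b * a' ≠ 0 ∧
    ∀ x y : ℚ_[2], Lat r d c c' (x * a + y * a') (x * b + y * b') ↔ ‖x‖ ≤ 1 ∧ ‖y‖ ≤ 1

/-- the residual representation is irreducible -/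
def IrB (r : Rp) : Prop := ∀ v : W, v ≠ 0 → ∃ g, rb r g *ᵥ v ≠ v

/-- the residual representation is trivial -/
def TrB (r : Rp) : Prop := ∀ g, rb r g = 1

def WT1 : Prop := ∀ (r : Rp) (S : Finset ℕ), Rep r S → IrB r ∨ TrB r → Wt r fun _ _ => 1

/-- `r'` with `Λ'` is `r` with `Λ` in another basis -/
def Chg (r : Rp) (Λ : Loc r) (r' : Rp) (Λ' : Loc r') (u : GL (Fin 2) ℚ_[2]) : Prop :=
  (∀ g, r' g = u⁻¹ * r g * u) ∧ ∀ (d : ℤ) (c : GQ → V),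
    Sel r' Λ' d c ↔ Sel r Λ d fun g => (u : Matrix (Fin 2) (Fin 2) ℚ_[2]) *ᵥ c g

/-- change of basis -/
def CHG : Prop := ∀ (r : Rp) (Λ : Loc r) (u : GL (Fin 2) ℚ_[2]),
  ∃ (r' : Rp) (Λ' : Loc r'), Chg r Λ r' Λ' u ∧ (∀ d, Two r Λ d ↔ Two r' Λ' d) ∧
    ∀ S, Rep r S → (∀ g i j, ‖mt r' g i j‖ ≤ 1) → Rep r' S

/-- generic pairs, irreducible case -/
def GEN1 : Prop := ∀ (r : Rp) (S : Finset ℕ) (Λ : Loc r) (pl : Pl), Rep r S → IrB r →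
  ∃ U : Subgroup GQ, IsOpen (U : Set GQ) ∧ U.Normal ∧ UnS S U ∧
  ∀ (m : ℤ) (s : ℕ) (X : Fin s → Finset ℕ) (L : ℝ) (y : Fin s → ℕ), Fam S m X L →
    y ∈ Fintype.piFinset X → Two r Λ (dd m y) → ¬ Ub r S pl m y → Occ pl U y →
    Gen r S Λ pl (fun _ _ => 1) m y

/-- generic pairs, trivial case -/
def GEN2 : Prop := ∀ (r : Rp) (S : Finset ℕ) (Λ : Loc r) (pl : Pl), Rep r S → TrB r →
  ∃ (n : ℕ) (ρ : Fin n → Rp) (Λ' : ∀ j, Loc (ρ j)) (U : Subgroup GQ),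
  (∀ j, Rep (ρ j) S ∧ TrB (ρ j)) ∧ IsOpen (U : Set GQ) ∧ U.Normal ∧ UnS S U ∧
  ∀ (m : ℤ) (s : ℕ) (X : Fin s → Finset ℕ) (L : ℝ) (y : Fin s → ℕ), Fam S m X L →
    y ∈ Fintype.piFinset X → Two r Λ (dd m y) → (∀ j, ¬ Ub (ρ j) S pl m y) → Occ pl U y →
    ∃ j, Gen (ρ j) S (Λ' j) pl (fun _ _ => 1) m y

/-- the basis `(2 e₁, e₀)` of the neighbour lattice -/
def nb : Matrix (Fin 2) (Fin 2) ℚ_[2] := !![0, 1; 2, 0]

/-- normal form of the third case: unipotent, non trivial on both lattices -/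
structure Uni (r : Rp) : Prop where
  low : ∀ g, rb r g 1 0 = 0
  up : ∃ g, rb r g 0 1 ≠ 0
  dn : ∃ g, rd (mt r g 1 0 / 2) ≠ 0

/-- the exponent `dim (H ∩ C²) - dim (H / H ∩ C²)` -/
def kap (H : Submodule (ZMod 2) N) : ℕ :=
  Nat.log 2 (Nat.card {x : N // x ∈ H ∧ x.1 1 = 0 ∧ x.2 1 = 0}) -
    Nat.log 2 (Nat.card {v : ZMod 2 × ZMod 2 // ∃ x ∈ H, (x.1 1, x.2 1) = v})

/-- the step of the Tamagawa walk -/
def stp (r : Rp) (g : GQ) : ℤ := ((rb r g 0 1).val : ℤ) - (rd (mt r g 1 0 / 2)).val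

/-- the weight of the third case -/
def gam (r : Rp) (H : Submodule (ZMod 2) N) (g : GQ) : ℝ := (2 : ℝ) ^ ((kap H : ℤ) * stp r g)

def WT3 : Prop := ∀ (r : Rp) (S : Finset ℕ), Rep r S → Uni r → Wt r (gam r)

/-- generic pairs, third case -/
def GEN3 : Prop := ∀ (r r' : Rp) (S : Finset ℕ) (Λ : Loc r) (Λ' : Loc r') (pl : Pl)
  (u : GL (Fin 2) ℚ_[2]), Rep r S → Rep r' S → Uni r → (u : Matrix _ _ ℚ_[2]) = nb →
  Chg r Λ r' Λ' u → ∃ U : Subgroup GQ, IsOpen (U : Set GQ) ∧ U.Normal ∧ UnS S U ∧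
  ∀ (m : ℤ) (s : ℕ) (X : Fin s → Finset ℕ) (L : ℝ) (y : Fin s → ℕ), Fam S m X L →
    y ∈ Fintype.piFinset X → Two r Λ (dd m y) → ¬ Ub r S pl m y → ¬ Ub r' S pl m y →
    Occ pl U y → Gen r S Λ pl (gam r) m y ∨
      ((∃ H e₀ Φ, Cl r S pl m y H e₀ Φ ∧ 1 ≤ kap H) ∧ Gen r' S Λ' pl (gam r') m y)

/-- the implications between the rows -/
def iUT : Prop := LT → UT
def iREC : Prop := LT → REC
def iFM : Prop := LT → CNT → LOCF → CNZ → REC → FM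
def iMAS : Prop := LT → CNT → CNZ → OCC → FM → MAS
def iTHIN : Prop := OCC → MAS → THIN
def iUU : Prop := CNT → UU
def iOCP : Prop := OCC → OCP
def iCLS : Prop := LT → CLS
def iLEV : Prop := LT → UT → QR → ONEK → LEV
def iHALF : Prop := LT → QR → CNT → CNZ → OCC → MAS → LEV → HALF
def iRARE : Prop := MAS → HALF → RARE
def iLAT : Prop := CNT → CNZ → UU → CLS → MAS → THIN → RARE → LAT
def iGEN1 : Prop := CYC → LT → CNT → CNZ → CLS → SL → LP → SAT → GEN1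
def iGEN2 : Prop := CYC → LT → CNT → CNZ → CLS → SL → LP → SAT → CHG → GEN2
def iGEN3 : Prop := CYC → LT → CNT → CNZ → CLS → SL → LP → SAT → GEN3
def TOP : Prop := PL → CYC → EXI → PNT → BOX → OCP → UU → MAS → LAT → WT1 → WT3 → CHG →
  GEN1 → GEN2 → GEN3 → SMITH

end Vale.Agent.P004S
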